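import Crest.Agent.FC.Defs

/-! T12 (row 324): the numerical inequality (`th = 1 - ε`, `ε = 5·10⁻¹²`).
Write `x^th = x * x^(-ε)`: with `y = 2^23`, LHS/24 =
`y^ε (1 - 1/y) + (44923/1875/24) (1/y) (1875 y)^ε`, RHS/24 = `24^(-ε) (1-μ)`.
`(2/2^24) = 1/y`, `50/(2^24*46875) = 1/(1875 y)`, `44923/1875 = 23.958933..`, so at `ε = 0`:
LHS = `24 - (24 - 23.958933)/y = 24 - 4.895e-9`. For `ε = 5e-12`:
`y^ε ≤ 1 + 16 ε` (as `23 log 2 ≤ 15.95`), `(1875 y)^ε ≤ 1 + 24 ε`, `24^(-ε) ≥ 1 - 3.2 ε`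
(`log 24 ≤ 3.18`): need `24*(16+3.2) ε + small < 4.89e-9`; `24*19.2*5e-12 = 2.3e-9`. Take `μ = 1e-11`
(`24 μ = 2.4e-10`). Use `Real.add_one_le_exp`, `Real.exp_bound`/`exp x ≤ 1/(1-x)`,
`Real.log_two_lt_d9`. -/

set_option autoImplicit false

namespace Crest.Agent.FC

theorem th_pos : 0 < th := by
  unfold th; norm_num

theorem th_le_one : th ≤ 1 := by
  unfold th; norm_num

/-- `x^th = x * exp(-ε log x)` -/
private theorem rpow_th (x : ℝ) (hx : 0 < x) :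
    x ^ th = x * Real.exp (-(1 / (2 * 10 ^ 11)) * Real.log x) := by
  unfold th
  rw [sub_eq_add_neg, Real.rpow_add hx, Real.rpow_one, Real.rpow_def_of_pos hx, mul_comm (Real.log x)]

private theorem upper (x : ℝ) (n : ℕ) (c : ℝ) (hx : 0 < x) (hn : (1 / 2) ^ n ≤ x)
    (h1 : (1 : ℝ) / (2 * 10 ^ 11) * (n * 0.6931471808) < 1)
    (hc0 : 0 ≤ c)
    (hc : 1 ≤ (1 + c / (2 * 10 ^ 11)) * (1 - 1 / (2 * 10 ^ 11) * (n * 0.6931471808))) :
    x ^ th ≤ x * (1 + c / (2 * 10 ^ 11)) := by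
  rw [rpow_th x hx]
  apply mul_le_mul_of_nonneg_left _ hx.le
  have hlog : -(n * 0.6931471808) ≤ Real.log x := by
    have e1 : Real.log ((1 / 2) ^ n) ≤ Real.log x := Real.log_le_log (by positivity) hn
    rw [Real.log_pow, one_div, Real.log_inv] at e1
    have e2 := Real.log_two_lt_d9
    have e3 : (n : ℝ) * Real.log 2 ≤ n * 0.6931471808 :=
      mul_le_mul_of_nonneg_left e2.le (Nat.cast_nonneg n)
    linarith
  set t : ℝ := 1 / (2 * 10 ^ 11) * (n * 0.6931471808) with ht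
  have h2 : -(1 / (2 * 10 ^ 11)) * Real.log x ≤ t := by
    have : (1 / (2 * 10 ^ 11) : ℝ) * (-(n * 0.6931471808)) ≤ 1 / (2 * 10 ^ 11) * Real.log x :=
      mul_le_mul_of_nonneg_left hlog (by norm_num)
    rw [ht]; linarith
  have h3 : Real.exp t ≤ 1 + c / (2 * 10 ^ 11) := by
    have e1 : 1 - t ≤ Real.exp (-t) := by
      have := Real.add_one_le_exp (-t); linarith
    have e2 : (0 : ℝ) < 1 - t := by linarith
    have e3 : Real.exp t * Real.exp (-t) = 1 := by rw [← Real.exp_add]; simp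
    have e4 : 0 < Real.exp (-t) := Real.exp_pos _
    have e5 : 1 ≤ (1 + c / (2 * 10 ^ 11)) * Real.exp (-t) :=
      hc.trans (mul_le_mul_of_nonneg_left e1 (by positivity))
    by_contra hcon
    push Not at hcon
    have : (1 + c / (2 * 10 ^ 11)) * Real.exp (-t) < Real.exp t * Real.exp (-t) :=
      mul_lt_mul_of_pos_right hcon e4
    rw [e3] at this
    linarith
  exact (Real.exp_le_exp.2 h2).trans h3

theorem num_theta : ∃ μ : ℝ, 0 < μ ∧ μ < 1 ∧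
    (2 / 2 ^ 24 : ℝ) ^ th * (24 * 2 ^ 23 - 24) + 44923 * (50 / (2 ^ 24 * 46875) : ℝ) ^ th ≤
      (24 : ℝ) ^ th * (1 - μ) := by
  refine ⟨1 / 10 ^ 11, by norm_num, by norm_num, ?_⟩
  have hA := upper (2 / 2 ^ 24) 23 16 (by norm_num) (by norm_num) (by norm_num) (by norm_num)
    (by norm_num)
  have hB := upper (50 / (2 ^ 24 * 46875)) 34 24 (by norm_num) (by norm_num) (by norm_num)
    (by norm_num) (by norm_num)
  have hC : (24 : ℝ) * (1 - 3.5 / (2 * 10 ^ 11)) ≤ (24 : ℝ) ^ th := by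
    rw [rpow_th 24 (by norm_num)]
    apply mul_le_mul_of_nonneg_left _ (by norm_num)
    have e1 := Real.add_one_le_exp (-(1 / (2 * 10 ^ 11)) * Real.log 24)
    have e2 : Real.log 24 ≤ 5 * Real.log 2 := by
      have : Real.log 24 ≤ Real.log (2 ^ 5) := Real.log_le_log (by norm_num) (by norm_num)
      rwa [Real.log_pow] at this
    have e3 := Real.log_two_lt_d9
    have e4 : Real.log 24 ≤ 3.5 := by linarith
    linarith
  have h1 : (2 / 2 ^ 24 : ℝ) ^ th * (24 * 2 ^ 23 - 24) ≤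
      (2 / 2 ^ 24 * (1 + 16 / (2 * 10 ^ 11))) * (24 * 2 ^ 23 - 24) :=
    mul_le_mul_of_nonneg_right hA (by norm_num)
  have h2 : 44923 * (50 / (2 ^ 24 * 46875) : ℝ) ^ th ≤
      44923 * (50 / (2 ^ 24 * 46875) * (1 + 24 / (2 * 10 ^ 11))) :=
    mul_le_mul_of_nonneg_left hB (by norm_num)
  have h3 : (24 : ℝ) * (1 - 3.5 / (2 * 10 ^ 11)) * (1 - 1 / 10 ^ 11) ≤
      (24 : ℝ) ^ th * (1 - 1 / 10 ^ 11) := mul_le_mul_of_nonneg_right hC (by norm_num)
  refine (add_le_add h1 h2).trans (le_trans ?_ h3)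
  norm_num

end Crest.Agent.FC
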