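import Crest.Agent.FC.Jensen
import Crest.Agent.FC.NumTheta

/-! T13 (row 324): solving the recursion (pure real analysis).

Let `N = 2^24`. Strong induction on `K` for `u K ≤ C 2^K K^th` (note `(0:ℝ)^th = 0`, `u 0 = 0`), with `C`
chosen large at the end: `C ≥ u K/(2^K K^th)` for `1 ≤ K < 24` and `μ C ≥ D'` below.
Let `K = 24 k + ρ`, `k ≥ 1`, `ρ < 24`. For `a ≤ k` the induction hypothesis holds (`k < K`).
(i) `Gb 2 N (u a + 2*2^a) k ≤ C N^k (2k/N)^th + 2 N^k` (`Gb_mono`, `Gb_add`, `Gb_rpow_le`, `Gb_pow`).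
(ii) for `m ≤ k`: `κ (3m) ≤ 44923 (C 15625^m (2m/15625)^th + 2*15625^m)`.
(iii) for `b ≤ k`, `b = 3m + r`, `r < 3`: `κ b ≤ 25^b (44923 C (2 (b/3)/15625)^th + D)`,
   `D = 2*44923 + κ 0 + κ 1 + κ 2` (`15625^m = 25^(3m)`, `m ≤ b/3`).
(iv) `Gb 25 N κ k ≤ N^k (44923 C (2/(3*15625) * (25 k/N))^th + D)` (write
   `(2 b/46875)^th = (2/46875)^th * b^th`, `Real.mul_rpow`).
(v) `u (24k) ≤ 2^(24k) (C k^th ((24*2^23-24) (2/N)^th + 44923 (50/(46875 N))^th) + D'')`,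
   `D'' = 2*(24*2^23-24) + D`, and by `num_theta` `≤ 2^(24k) (C (24k)^th (1-μ) + D'')`.
(vi) `u K ≤ 2^ρ u (24k) + 2^(24k) u ρ ≤ 2^K (C (24k)^th (1-μ) + D'')+ 2^K ∑_{ρ<24} u ρ`
   `≤ 2^K C K^th` once `μ C ≥ D'' + ∑_{ρ<24} u ρ` (`(24k)^th ≥ 1`). -/

set_option autoImplicit false

namespace Crest.Agent.FC

open Finset

private theorem stepA (u : ℕ → ℝ) (C : ℝ) (hC : 0 ≤ C) (N0 : ℝ) (hN : 2 ≤ N0) (m : ℕ)
    (ih : ∀ a ≤ m, u a ≤ C * 2 ^ a * (a : ℝ) ^ th) :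
    Gb 2 N0 (fun a => u a + 2 * 2 ^ a) m ≤
      C * (N0 ^ m * ((m : ℝ) * 2 / N0) ^ th) + 2 * N0 ^ m := by
  have h1 : Gb 2 N0 (fun a => u a + 2 * 2 ^ a) m ≤
      Gb 2 N0 (fun a => C * (2 ^ a * (a : ℝ) ^ th) + 2 * 2 ^ a) m := by
    apply Gb_mono hN
    intro a ha
    have := ih a ha
    nlinarith [this]
  have h2 : Gb 2 N0 (fun a => C * (2 ^ a * (a : ℝ) ^ th) + 2 * 2 ^ a) m =
      C * Gb 2 N0 (fun a => 2 ^ a * (a : ℝ) ^ th) m + 2 * Gb 2 N0 (fun a => 2 ^ a) m := by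
    rw [Gb_add 2 N0 (fun a => C * (2 ^ a * (a : ℝ) ^ th)) (fun a => 2 * 2 ^ a) m, Gb_mul, Gb_mul]
  rw [h2, Gb_pow] at h1
  have h3 := Gb_rpow_le (L := 2) (N := N0) (by norm_num) hN (by linarith) th_pos th_le_one m
  have h4 : C * Gb 2 N0 (fun a => 2 ^ a * (a : ℝ) ^ th) m ≤
      C * (N0 ^ m * ((m : ℝ) * 2 / N0) ^ th) := mul_le_mul_of_nonneg_left h3 hC
  linarith

theorem analytic_core (u κ : ℕ → ℝ) (hu : ∀ a, 0 ≤ u a) (hκ : ∀ a, 0 ≤ κ a) (hu0 : u 0 = 0)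
    (h1 : ∀ k : ℕ, u (24 * k) ≤ (24 * 2 ^ 23 - 24) * Gb 2 (2 ^ 24) (fun a => u a + 2 * 2 ^ a) k +
      Gb 25 (2 ^ 24) κ k)
    (h2 : ∀ m : ℕ, κ (3 * m) ≤ 44923 * Gb 2 15625 (fun a => u a + 2 * 2 ^ a) m)
    (h3 : ∀ m r : ℕ, κ (3 * m + r) ≤ 25 ^ r * κ (3 * m) + 25 ^ (3 * m) * κ r)
    (h4 : ∀ k r : ℕ, u (24 * k + r) ≤ 2 ^ r * u (24 * k) + 2 ^ (24 * k) * u r) :
    ∃ C : ℝ, 0 ≤ C ∧ ∀ k : ℕ, u k ≤ C * 2 ^ k * (k : ℝ) ^ th := by
  obtain ⟨μ, hμ0, hμ1, hμ⟩ := num_theta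
  set E : ℝ := ∑ ρ ∈ range 24, u ρ with hE
  have hE0 : 0 ≤ E := sum_nonneg fun i _ => hu i
  have hEu : ∀ ρ < 24, u ρ ≤ E := fun ρ hρ =>
    single_le_sum (f := u) (fun i _ => hu i) (mem_range.2 hρ)
  set D : ℝ := 2 * 44923 + (κ 0 + κ 1 + κ 2) with hD
  have hD0 : 0 ≤ D := by
    have := hκ 0; have := hκ 1; have := hκ 2
    rw [hD]; linarith
  set D' : ℝ := 2 * (24 * 2 ^ 23 - 24) + D with hD'
  have hD'0 : 0 ≤ D' := by rw [hD']; norm_num; linarith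
  set C : ℝ := (D' + E) / μ + E with hC
  have hC0 : 0 ≤ C := by positivity
  have hCE : E ≤ C := by
    have : 0 ≤ (D' + E) / μ := by positivity
    linarith
  have hμC : D' + E ≤ μ * C := by
    have e1 : μ * C = (D' + E) + μ * E := by
      rw [hC, mul_add, mul_div_cancel₀ _ hμ0.ne']
    have : 0 ≤ μ * E := by positivity
    linarith
  refine ⟨C, hC0, fun K => ?_⟩
  induction K using Nat.strong_induction_on with
  | _ K ih =>
  rcases Nat.eq_zero_or_pos K with hK0 | hKpos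
  · subst hK0
    rw [hu0]
    positivity
  by_cases hK : K < 24
  · have e1 : u K ≤ C := (hEu K hK).trans hCE
    have e2 : (1 : ℝ) ≤ (K : ℝ) ^ th := Real.one_le_rpow (by exact_mod_cast hKpos) th_pos.le
    have e3 : (1 : ℝ) ≤ 2 ^ K := one_le_pow₀ (by norm_num)
    have e4 : (1 : ℝ) ≤ 2 ^ K * (K : ℝ) ^ th := by
      calc (1 : ℝ) = 1 * 1 := by norm_num
        _ ≤ _ := by gcongr
    calc u K ≤ C * 1 := by linarith
      _ ≤ C * (2 ^ K * (K : ℝ) ^ th) := by gcongr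
      _ = _ := by ring
  push Not at hK
  obtain ⟨k, ρ, hρ, rfl⟩ : ∃ k ρ : ℕ, ρ < 24 ∧ K = 24 * k + ρ :=
    ⟨K / 24, K % 24, Nat.mod_lt _ (by norm_num), (Nat.div_add_mod K 24).symm⟩
  have hk1 : 1 ≤ k := by omega
  have ih' : ∀ a ≤ k, u a ≤ C * 2 ^ a * (a : ℝ) ^ th := fun a ha => ih a (by omega)
  -- (ii), (iii)
  have hκb : ∀ b ≤ k, κ b ≤
      (44923 * C * (2 / 46875 : ℝ) ^ th) * (25 ^ b * (b : ℝ) ^ th) + D * 25 ^ b := by
    intro b hb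
    obtain ⟨m, r, hr, rfl⟩ : ∃ m r : ℕ, r < 3 ∧ b = 3 * m + r :=
      ⟨b / 3, b % 3, Nat.mod_lt _ (by norm_num), (Nat.div_add_mod b 3).symm⟩
    have a1 := stepA u C hC0 15625 (by norm_num) m (fun a ha => ih' a (by omega))
    have a2 := h2 m
    have a3 := h3 m r
    have a4 : κ r ≤ κ 0 + κ 1 + κ 2 := by
      have := hκ 0; have := hκ 1; have := hκ 2
      interval_cases r <;> linarith
    have a5 : ((m : ℝ) * 2 / 15625) ^ th ≤ (2 / 46875 : ℝ) ^ th * ((3 * m + r : ℕ) : ℝ) ^ th := by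
      rw [← Real.mul_rpow (by norm_num) (by positivity)]
      apply Real.rpow_le_rpow (by positivity) _ th_pos.le
      push_cast
      have : (0 : ℝ) ≤ r := by positivity
      nlinarith
    have a6 : (15625 : ℝ) ^ m = 25 ^ (3 * m) := by
      rw [pow_mul]; norm_num
    have a7 : (25 : ℝ) ^ (3 * m + r) = 25 ^ r * 25 ^ (3 * m) := by rw [pow_add, mul_comm]
    have a8 : (25 : ℝ) ^ (3 * m) ≤ 25 ^ (3 * m + r) :=
      pow_le_pow_right₀ (by norm_num) (by omega)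
    set Q : ℝ := (2 / 46875 : ℝ) ^ th * ((3 * m + r : ℕ) : ℝ) ^ th with hQ
    set P : ℝ := (25 : ℝ) ^ (3 * m) with hP
    have hP0 : 0 < P := by positivity
    have b1 : κ (3 * m) ≤ 44923 * (C * (P * Q) + 2 * P) := by
      rw [a6] at a1
      have c1 : C * (P * ((m : ℝ) * 2 / 15625) ^ th) ≤ C * (P * Q) := by gcongr
      linarith
    have b2 : 25 ^ r * κ (3 * m) ≤ 25 ^ r * (44923 * (C * (P * Q) + 2 * P)) := by gcongr
    have b3 : P * κ r ≤ 25 ^ (3 * m + r) * (κ 0 + κ 1 + κ 2) :=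
      mul_le_mul a8 a4 (hκ r) (by positivity)
    calc κ (3 * m + r) ≤ 25 ^ r * κ (3 * m) + P * κ r := a3
      _ ≤ 25 ^ r * (44923 * (C * (P * Q) + 2 * P)) + 25 ^ (3 * m + r) * (κ 0 + κ 1 + κ 2) := by
          linarith
      _ = _ := by rw [a7, hQ, hD]; ring
  -- (iv)
  have hG2 : Gb 25 (2 ^ 24) κ k ≤
      (44923 * C * (2 / 46875 : ℝ) ^ th) * ((2 ^ 24) ^ k * ((k : ℝ) * 25 / 2 ^ 24) ^ th) +
        D * (2 ^ 24) ^ k := by
    have g1 : Gb 25 (2 ^ 24) κ k ≤ Gb 25 (2 ^ 24)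
        (fun b => (44923 * C * (2 / 46875 : ℝ) ^ th) * (25 ^ b * (b : ℝ) ^ th) + D * 25 ^ b) k :=
      Gb_mono (by norm_num) hκb
    rw [Gb_add 25 (2 ^ 24) (fun b => (44923 * C * (2 / 46875 : ℝ) ^ th) * (25 ^ b * (b : ℝ) ^ th))
      (fun b => D * 25 ^ b) k, Gb_mul, Gb_mul, Gb_pow] at g1
    have g2 := Gb_rpow_le (L := 25) (N := 2 ^ 24) (by norm_num) (by norm_num) (by norm_num)
      th_pos th_le_one k
    have g3 : (44923 * C * (2 / 46875 : ℝ) ^ th) *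
        Gb 25 (2 ^ 24) (fun b => 25 ^ b * (b : ℝ) ^ th) k ≤ _ :=
      mul_le_mul_of_nonneg_left g2 (by positivity)
    linarith
  -- (i)
  have hG1 := stepA u C hC0 (2 ^ 24) (by norm_num) k ih'
  -- (v)
  set T : ℝ := (2 : ℝ) ^ (24 * k) with hT
  have hT0 : 0 < T := by positivity
  have hTe : ((2 : ℝ) ^ 24) ^ k = T := by rw [hT, pow_mul]
  set w : ℝ := (k : ℝ) ^ th with hw
  have hw0 : 0 ≤ w := by positivity
  have e1 : ((k : ℝ) * 2 / 2 ^ 24) ^ th = w * (2 / 2 ^ 24 : ℝ) ^ th := by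
    rw [hw, ← Real.mul_rpow (by positivity) (by positivity), mul_div_assoc]
  have e2 : (2 / 46875 : ℝ) ^ th * ((k : ℝ) * 25 / 2 ^ 24) ^ th =
      w * (50 / (2 ^ 24 * 46875) : ℝ) ^ th := by
    rw [hw, ← Real.mul_rpow (by positivity) (by positivity),
      ← Real.mul_rpow (by positivity) (by positivity)]
    congr 1
    ring
  have hv : u (24 * k) ≤ T * (C * w * ((24 : ℝ) ^ th * (1 - μ)) + D') := by
    have f1 := h1 k
    rw [hTe, e1] at hG1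
    rw [hTe] at hG2
    have f2 : (24 * 2 ^ 23 - 24) * Gb 2 (2 ^ 24) (fun a => u a + 2 * 2 ^ a) k ≤
        (24 * 2 ^ 23 - 24) * (C * (T * (w * (2 / 2 ^ 24 : ℝ) ^ th)) + 2 * T) :=
      mul_le_mul_of_nonneg_left hG1 (by norm_num)
    have f3 : (44923 * C * (2 / 46875 : ℝ) ^ th) * (T * ((k : ℝ) * 25 / 2 ^ 24) ^ th) =
        44923 * C * T * (w * (50 / (2 ^ 24 * 46875) : ℝ) ^ th) := by
      rw [← e2]; ring
    rw [f3] at hG2
    have f4 : T * (C * w * ((2 / 2 ^ 24 : ℝ) ^ th * (24 * 2 ^ 23 - 24) +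
        44923 * (50 / (2 ^ 24 * 46875) : ℝ) ^ th)) ≤ T * (C * w * ((24 : ℝ) ^ th * (1 - μ))) := by
      gcongr
    calc u (24 * k) ≤ (24 * 2 ^ 23 - 24) * (C * (T * (w * (2 / 2 ^ 24 : ℝ) ^ th)) + 2 * T) +
          (44923 * C * T * (w * (50 / (2 ^ 24 * 46875) : ℝ) ^ th) + D * T) :=
          f1.trans (add_le_add f2 hG2)
      _ = T * (C * w * ((2 / 2 ^ 24 : ℝ) ^ th * (24 * 2 ^ 23 - 24) +
        44923 * (50 / (2 ^ 24 * 46875) : ℝ) ^ th)) + T * D' := by rw [hD']; ring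
      _ ≤ T * (C * w * ((24 : ℝ) ^ th * (1 - μ))) + T * D' := by linarith
      _ = _ := by ring
  -- (vi)
  set z : ℝ := w * (24 : ℝ) ^ th with hz
  have hz1 : 1 ≤ z := by
    rw [hz, hw, ← Real.mul_rpow (by positivity) (by positivity)]
    apply Real.one_le_rpow _ th_pos.le
    have : (1 : ℝ) ≤ k := by exact_mod_cast hk1
    linarith
  have hzK : z ≤ ((24 * k + ρ : ℕ) : ℝ) ^ th := by
    rw [hz, hw, ← Real.mul_rpow (by positivity) (by positivity)]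
    apply Real.rpow_le_rpow (by positivity) _ th_pos.le
    push_cast
    have : (0 : ℝ) ≤ ρ := by positivity
    linarith
  have hv' : u (24 * k) ≤ T * (C * z * (1 - μ) + D') := by
    have : C * w * ((24 : ℝ) ^ th * (1 - μ)) = C * z * (1 - μ) := by rw [hz]; ring
    rwa [this] at hv
  have k1 := h4 k ρ
  have k2 : 2 ^ ρ * u (24 * k) ≤ 2 ^ ρ * (T * (C * z * (1 - μ) + D')) := by gcongr
  have k3 : T * u ρ ≤ (2 ^ ρ * T) * E := by
    have : (1 : ℝ) ≤ 2 ^ ρ := one_le_pow₀ (by norm_num)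
    calc T * u ρ ≤ T * E := by gcongr; exact hEu ρ hρ
      _ = 1 * T * E := by ring
      _ ≤ (2 ^ ρ * T) * E := by gcongr
  have k4 : (2 : ℝ) ^ (24 * k + ρ) = 2 ^ ρ * T := by rw [hT, pow_add, mul_comm]
  have k5 : D' + E ≤ μ * C * z := by
    calc D' + E ≤ μ * C * 1 := by linarith
      _ ≤ μ * C * z := by gcongr
  calc u (24 * k + ρ) ≤ 2 ^ ρ * (T * (C * z * (1 - μ) + D')) + (2 ^ ρ * T) * E := by linarith
    _ = (2 ^ ρ * T) * (C * z + (D' + E - μ * C * z)) := by ring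
    _ ≤ (2 ^ ρ * T) * (C * z) := by
        apply mul_le_mul_of_nonneg_left _ (by positivity)
        linarith
    _ ≤ (2 ^ ρ * T) * (C * ((24 * k + ρ : ℕ) : ℝ) ^ th) := by gcongr
    _ = _ := by rw [k4]; ring

end Crest.Agent.FC
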