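import Crest.Agent.FC.Cost

/-! T25 (row 324): Bluestein + Chinese remainder.

`ξ = exp(π i/n)`: `ζ^(jk) = ξ^(j²) ξ^(k²) ξ^(-(j-k)²)` (`ζ = ξ²`, `2jk = j²+k²-(j-k)²`).
So `dftMatrix n = D * Tz * D`, `D = diagonal ξ^(j²)`, `Tz j k = ξ^(-(j-k)²)`. With `N = ∏ m i ≥ 2n`
and `Φ : ZMod N ≃+ ∀ i, ZMod (m i)` (`ZMod.prodEquivPi` or similar; pairwise coprime),
the map `g : Fin n → ∀ i, ZMod (m i)`, `j ↦ (j : ZMod (m i))_i` is injective and `g j - g k` determines
`j - k ∈ (-n, n)`; define `h (g j - g k) = ξ^(-(j-k)²)` (well defined since `2n ≤ N`), so that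
`Tz = (circ h).submatrix g g`. Use `cost_mul_le`, `cost_diagonal_le`, `cost_submatrix_le`. -/

set_option autoImplicit false

namespace Crest.Agent.FC

open Matrix Crest.FourierCircuit

private theorem crt_unique (n : ℕ) (k : ℕ) (m : Fin k → ℕ)
    (hco : Pairwise fun i j => Nat.Coprime (m i) (m j)) (hN : 2 * n ≤ ∏ i, m i) (d d' : ℤ)
    (hd : |d| < n) (hd' : |d'| < n) (h : ∀ i, (d : ZMod (m i)) = (d' : ZMod (m i))) : d = d' := by
  have hdvd : (∏ i, (m i : ℤ)) ∣ (d' - d) := by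
    refine Fintype.prod_dvd_of_coprime ?_ ?_
    · intro i j hij
      exact Nat.isCoprime_iff_coprime.2 (hco hij)
    · intro i
      exact (ZMod.intCast_eq_intCast_iff_dvd_sub d d' (m i)).1 (h i)
  have hN' : (2 * n : ℤ) ≤ ∏ i, (m i : ℤ) := by
    have : ((2 * n : ℕ) : ℤ) ≤ ((∏ i, m i : ℕ) : ℤ) := by exact_mod_cast hN
    push_cast at this
    exact this
  have habs : |d' - d| < ∏ i, (m i : ℤ) := by
    have h1 : |d' - d| ≤ |d'| + |d| := abs_sub _ _
    linarith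
  have := Int.eq_zero_of_abs_lt_dvd hdvd habs
  linarith

theorem bluestein (n : ℕ) (hn : 1 ≤ n) (k : ℕ) (m : Fin k → ℕ) [∀ i, NeZero (m i)]
    (hco : Pairwise fun i j => Nat.Coprime (m i) (m j)) (hN : 2 * n ≤ ∏ i, m i) :
    ∃ h : (∀ i, ZMod (m i)) → ℂ, cost (dftMatrix n) ≤ 2 * n + cost (circ h) := by
  classical
  set ξ : ℂ := Complex.exp (Real.pi * Complex.I / n) with hξ
  have hξ0 : ξ ≠ 0 := Complex.exp_ne_zero _
  let g : Fin n → ∀ i, ZMod (m i) := fun j i => ((j : ℕ) : ZMod (m i))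
  let P : (∀ i, ZMod (m i)) → ℤ → Prop := fun u d => |d| < n ∧ ∀ i, (d : ZMod (m i)) = u i
  let h : (∀ i, ZMod (m i)) → ℂ := fun u =>
    if hu : ∃ d : ℤ, P u d then (ξ ^ (hu.choose.natAbs ^ 2))⁻¹ else 0
  have habs : ∀ j l : Fin n, |((j : ℕ) : ℤ) - ((l : ℕ) : ℤ)| < n := by
    intro j l
    have hj := j.isLt
    have hl := l.isLt
    rw [abs_lt]
    constructor <;> omega
  have hval : ∀ j l : Fin n, h (g j - g l) =
      (ξ ^ ((((j : ℕ) : ℤ) - ((l : ℕ) : ℤ)).natAbs ^ 2))⁻¹ := by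
    intro j l
    have hP : P (g j - g l) (((j : ℕ) : ℤ) - ((l : ℕ) : ℤ)) :=
      ⟨habs j l, fun i => by simp [g]⟩
    have hex : ∃ d : ℤ, P (g j - g l) d := ⟨_, hP⟩
    have hspec : P (g j - g l) hex.choose := hex.choose_spec
    have heq : hex.choose = ((j : ℕ) : ℤ) - ((l : ℕ) : ℤ) :=
      crt_unique n k m hco hN _ _ hspec.1 hP.1 (fun i => by rw [hspec.2 i, hP.2 i])
    simp only [h]
    rw [dif_pos hex, heq]
  have hginj : Function.Injective g := by
    intro j l hjl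
    have := crt_unique n k m hco hN ((j : ℕ) : ℤ) ((l : ℕ) : ℤ)
      (by rw [abs_of_nonneg (by positivity)]; exact_mod_cast j.isLt)
      (by rw [abs_of_nonneg (by positivity)]; exact_mod_cast l.isLt)
      (fun i => by
        have := congrFun hjl i
        simpa [g] using this)
    exact Fin.ext (by exact_mod_cast this)
  have hfact : dftMatrix n = Matrix.diagonal (fun j : Fin n => ξ ^ ((j : ℕ) ^ 2)) *
      (circ h).submatrix g g * Matrix.diagonal (fun j : Fin n => ξ ^ ((j : ℕ) ^ 2)) := by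
    ext j l
    rw [Matrix.mul_diagonal, Matrix.diagonal_mul]
    have e1 : (circ h).submatrix g g j l = h (g j - g l) := rfl
    rw [e1, hval j l]
    have hζ : Complex.exp (2 * Real.pi * Complex.I / n) = ξ ^ 2 := by
      rw [hξ, ← Complex.exp_nat_mul]
      congr 1
      push_cast
      ring
    have e2 : dftMatrix n j l = Complex.exp (2 * Real.pi * Complex.I / n) ^ ((j : ℕ) * (l : ℕ)) :=
      rfl
    rw [e2, hζ, ← pow_mul]
    have hpow0 : ξ ^ ((((j : ℕ) : ℤ) - ((l : ℕ) : ℤ)).natAbs ^ 2) ≠ 0 := pow_ne_zero _ hξ0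
    rw [mul_right_comm, eq_mul_inv_iff_mul_eq₀ hpow0, ← pow_add, ← pow_add]
    congr 1
    have : ((2 * ((j : ℕ) * (l : ℕ)) + (((j : ℕ) : ℤ) - ((l : ℕ) : ℤ)).natAbs ^ 2 : ℕ) : ℤ) =
        (((j : ℕ) ^ 2 + (l : ℕ) ^ 2 : ℕ) : ℤ) := by
      push_cast
      rw [sq_abs]
      ring
    exact_mod_cast this
  refine ⟨h, ?_⟩
  have hD : cost (Matrix.diagonal (fun j : Fin n => ξ ^ ((j : ℕ) ^ 2))) ≤ n := by
    simpa using cost_diagonal_le (fun j : Fin n => ξ ^ ((j : ℕ) ^ 2))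
  calc cost (dftMatrix n) ≤ cost (Matrix.diagonal (fun j : Fin n => ξ ^ ((j : ℕ) ^ 2)) *
        (circ h).submatrix g g) + cost (Matrix.diagonal (fun j : Fin n => ξ ^ ((j : ℕ) ^ 2))) := by
        rw [hfact]; exact cost_mul_le _ _
    _ ≤ (cost (Matrix.diagonal (fun j : Fin n => ξ ^ ((j : ℕ) ^ 2))) +
        cost ((circ h).submatrix g g)) + n := by
        gcongr
        exact cost_mul_le _ _
    _ ≤ (n + cost (circ h)) + n := by
        gcongr
        exact cost_submatrix_le _ _ _ hginj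
    _ = 2 * n + cost (circ h) := by ring

end Crest.Agent.FC
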