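import Crest.Agent.FC.Defs

/-! T4 (row 324): algebra of tensor products. `tens_mul`: `Finset.prod_univ_sum` /
`Fintype.piFinset_univ`. -/

set_option autoImplicit false

namespace Crest.Agent.FC

open Matrix

variable {k : ℕ} {σ τ : Fin k → Type}

theorem tens_mul [∀ i, Fintype (σ i)] (A B : ∀ i, Matrix (σ i) (σ i) ℂ) :
    tens (fun i => A i * B i) = tens A * tens B := by
  classical
  ext s t
  simp only [tens, of_apply, Matrix.mul_apply]
  rw [Finset.prod_univ_sum, Fintype.piFinset_univ]
  refine Finset.sum_congr rfl fun x _ => ?_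
  rw [Finset.prod_mul_distrib]

theorem tens_one [∀ i, DecidableEq (σ i)] :
    tens (fun i => (1 : Matrix (σ i) (σ i) ℂ)) = 1 := by
  ext s t
  simp only [tens, of_apply]
  by_cases h : s = t
  · subst h
    simp
  · rw [one_apply_ne h]
    obtain ⟨i, hi⟩ := Function.ne_iff.mp h
    exact Finset.prod_eq_zero (Finset.mem_univ i) (one_apply_ne hi)

theorem tens_diagonal [∀ i, DecidableEq (σ i)] (d : ∀ i, σ i → ℂ) :
    tens (fun i => Matrix.diagonal (d i)) = Matrix.diagonal (fun s => ∏ i, d i (s i)) := by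
  ext s t
  simp only [tens, of_apply]
  by_cases h : s = t
  · subst h
    simp
  · rw [diagonal_apply_ne _ h]
    obtain ⟨i, hi⟩ := Function.ne_iff.mp h
    exact Finset.prod_eq_zero (Finset.mem_univ i) (diagonal_apply_ne _ hi)

/-- (by definition) -/
theorem tens_submatrix (A : ∀ i, Matrix (σ i) (σ i) ℂ) (f g : ∀ i, τ i → σ i) :
    tens (fun i => (A i).submatrix (f i) (g i)) =
      (tens A).submatrix (fun s i => f i (s i)) (fun s i => g i (s i)) := by
  rfl

theorem kpow_mul {σ : Type} [Fintype σ] (A B : Matrix σ σ ℂ) (k : ℕ) :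
    kpow (A * B) k = kpow A k * kpow B k :=
  tens_mul (σ := fun _ : Fin k => σ) (fun _ => A) (fun _ => B)

theorem kpow_one {σ : Type} [DecidableEq σ] (k : ℕ) : kpow (1 : Matrix σ σ ℂ) k = 1 :=
  tens_one (σ := fun _ : Fin k => σ)

theorem kpow_submatrix {σ τ : Type} (A : Matrix σ σ ℂ) (f g : τ → σ) (k : ℕ) :
    kpow (A.submatrix f g) k = (kpow A k).submatrix (fun s i => f (s i)) (fun s i => g (s i)) := by
  rfl

/-- `kpow A 0` is the `1 × 1` identity. -/
theorem kpow_zero {σ : Type} [DecidableEq σ] (A : Matrix σ σ ℂ) : kpow A 0 = 1 := by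
  ext s t
  have h : s = t := Subsingleton.elim _ _
  subst h
  simp [kpow, tens]

end Crest.Agent.FC
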