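import Crest.Agent.FC.Cost
import Crest.Agent.FC.Tens

/-! T24 (row 324): convolution on `∏ ZMod (m i)` through the Fourier matrices.

Let `χ_i(s,t) = exp(2πi/m_i)^(s.val * t.val)` (bi-additive on `ZMod (m i)`; e.g.
`ZMod.stdAddChar (s*t)`), `X s t = ∏ i, χ_i (s i) (t i) = tens (Fm (m i)) s t`. Then
`(X * circ h) u t = ∑_s X(u,s) h(s-t) = X(u,t) * ĥ(u)`, `ĥ u = ∑_v X(u,v) h v`, i.e.
`X * circ h = diagonal ĥ * X`; and `X' * X = (∏ m) • 1`, `X' s t = X (-s) t` (row permutation of
`X`; orthogonality of characters). So `circ h = (1/∏ m) X' * diagonal ĥ * X`: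
`cost ≤ 2 cost X + 2 ∏ m` (absorb the scalar: `diagonal` of size `∏ m`). -/

set_option autoImplicit false

namespace Crest.Agent.FC

open Matrix

theorem Fm_eq (m : ℕ) [NeZero m] (s t : ZMod m) :
    Fm m s t = ZMod.stdAddChar (s * t) := by
  have h1 : s * t = (((s.val * t.val : ℕ) : ℤ) : ZMod m) := by
    push_cast
    rw [ZMod.natCast_zmod_val, ZMod.natCast_zmod_val]
  rw [h1, ZMod.stdAddChar_coe]
  show Complex.exp (2 * Real.pi * Complex.I / m) ^ (s.val * t.val) = _
  rw [← Complex.exp_nat_mul]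
  congr 1
  push_cast
  ring

theorem Fm_neg_mul (m : ℕ) [NeZero m] :
    ((Fm m).submatrix (fun s => -s) id) * Fm m = Matrix.diagonal (fun _ => (m : ℂ)) := by
  classical
  ext s t
  rw [Matrix.mul_apply]
  have h1 : ∀ x : ZMod m, (Fm m).submatrix (fun s => -s) id s x * Fm m x t =
      ZMod.stdAddChar (x * (t - s)) := by
    intro x
    rw [Matrix.submatrix_apply, Fm_eq, Fm_eq, ← AddChar.map_add_eq_mul]
    congr 1
    simp only [id]
    ring
  simp only [h1]
  rw [AddChar.sum_mulShift (t - s) (ZMod.isPrimitive_stdAddChar m), Matrix.diagonal_apply,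
    ZMod.card]
  by_cases h : s = t
  · subst h; simp
  · rw [if_neg (fun h' => h (sub_eq_zero.1 h').symm), if_neg h]
    simp

theorem tens_Fm_add (k : ℕ) (m : Fin k → ℕ) [∀ i, NeZero (m i)] (u v t : ∀ i, ZMod (m i)) :
    tens (fun i => Fm (m i)) u (v + t) =
      tens (fun i => Fm (m i)) u v * tens (fun i => Fm (m i)) u t := by
  show ∏ i, Fm (m i) (u i) ((v + t) i) = (∏ i, Fm (m i) (u i) (v i)) * ∏ i, Fm (m i) (u i) (t i)
  rw [← Finset.prod_mul_distrib]
  refine Finset.prod_congr rfl fun i _ => ?_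
  rw [Fm_eq, Fm_eq, Fm_eq, ← AddChar.map_add_eq_mul, Pi.add_apply, mul_add]

theorem cost_circ (k : ℕ) (m : Fin k → ℕ) [∀ i, NeZero (m i)] (h : (∀ i, ZMod (m i)) → ℂ) :
    cost (circ h) ≤ 2 * cost (tens (fun i => Fm (m i))) + 2 * ∏ i, m i := by
  classical
  set X := tens (fun i => Fm (m i)) with hX
  set X' := X.submatrix (fun (s : ∀ i, ZMod (m i)) i => -(s i))
    (fun (t : ∀ i, ZMod (m i)) i => id (t i)) with hX'
  have h1 : X' * X = Matrix.diagonal (fun _ => ∏ i, (m i : ℂ)) := by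
    rw [hX', hX, ← tens_submatrix, ← tens_mul]
    simp only [Fm_neg_mul]
    exact tens_diagonal _
  have h2 : X * circ h = Matrix.diagonal (fun u => ∑ v, X u v * h v) * X := by
    ext u t
    rw [Matrix.mul_apply, Matrix.diagonal_mul, Finset.sum_mul]
    refine Fintype.sum_equiv (Equiv.subRight t) _ _ fun s => ?_
    show X u s * h (s - t) = X u (s - t) * h (s - t) * X u t
    have : X u s = X u (s - t) * X u t := by
      rw [hX, ← tens_Fm_add, sub_add_cancel]
    rw [this]; ring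
  have hm : (∏ i, (m i : ℂ)) ≠ 0 := by
    refine Finset.prod_ne_zero_iff.2 fun i _ => ?_
    exact_mod_cast NeZero.ne (m i)
  have h3 : circ h = X' * (Matrix.diagonal (fun u => (∏ i, (m i : ℂ))⁻¹ * ∑ v, X u v * h v) * X) := by
    have e1 : Matrix.diagonal (fun u => (∏ i, (m i : ℂ))⁻¹ * ∑ v, X u v * h v) =
        (∏ i, (m i : ℂ))⁻¹ • Matrix.diagonal (fun u => ∑ v, X u v * h v) := by
      ext u v
      rw [Matrix.smul_apply, Matrix.diagonal_apply, Matrix.diagonal_apply]
      split_ifs <;> simp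
    rw [e1, Matrix.smul_mul, ← h2, Matrix.mul_smul, ← Matrix.mul_assoc, h1]
    ext u v
    rw [Matrix.smul_apply, Matrix.diagonal_mul, smul_eq_mul, ← mul_assoc, inv_mul_cancel₀ hm,
      one_mul]
  have hcard : Fintype.card (∀ i, ZMod (m i)) = ∏ i, m i := by
    rw [Fintype.card_pi]
    exact Finset.prod_congr rfl fun i _ => ZMod.card (m i)
  have c1 : cost X' ≤ cost X := by
    refine cost_submatrix_le X _ _ ?_
    exact fun a b hab => funext fun i => congrFun hab i
  have c2 := cost_diagonal_le (fun u : ∀ i, ZMod (m i) => (∏ i, (m i : ℂ))⁻¹ * ∑ v, X u v * h v)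
  rw [hcard] at c2
  calc cost (circ h) ≤ cost X' + (cost (Matrix.diagonal
          (fun u => (∏ i, (m i : ℂ))⁻¹ * ∑ v, X u v * h v)) + cost X) := by
        rw [h3]
        exact (cost_mul_le _ _).trans (Nat.add_le_add_left (cost_mul_le _ _) _)
    _ ≤ cost X + ((∏ i, m i) + cost X) := by gcongr
    _ ≤ 2 * cost X + 2 * ∏ i, m i := by omega

end Crest.Agent.FC
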