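import Crest.Agent.FC.Cost

/-! T3 (row 324): from `cost` to actual circuits of the statement.
Let `V = Fin n → ℂ` (the space of functionals `x ↦ ∑ i, v i * x i`). Show by induction on
`Gen S c T` (F := Fin n → ℂ): if `gs` is a list of gates such that every `v ∈ insert 0 S` has a
position `p` with `(values gs x).getD p 0 = ∑ i, v i * x i` for all `x` (values gs x = the foldl),
then there are `c` further gates `gs'` with the same property for `T` and `gs ++ gs'`
(positions of old values do not change when the list grows: `List.getD_append`). Start with `gs = []`: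
`ev i` is at position `i`, `0` at position `n`. -/

set_option autoImplicit false

namespace Crest.Agent.FC

open Crest.FourierCircuit

/-- the available values after the gates `gs` -/
def runG {n : ℕ} (gs : List LGate) (x : Fin n → ℂ) : List ℂ :=
  gs.foldl (fun avail g => avail ++ [g.value avail]) (List.ofFn x ++ [0])

theorem runG_snoc {n : ℕ} (gs : List LGate) (g : LGate) (x : Fin n → ℂ) :
    runG (gs ++ [g]) x = runG gs x ++ [g.value (runG gs x)] := by
  simp [runG, List.foldl_append]

theorem runG_length {n : ℕ} (gs : List LGate) (x : Fin n → ℂ) :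
    (runG gs x).length = n + 1 + gs.length := by
  induction gs using List.reverseRecOn with
  | nil => simp [runG]
  | append_singleton gs g ih => rw [runG_snoc, List.length_append, ih]; simp; omega

/-- every functional in `insert 0 S` is available after `gs` -/
def GoodG {n : ℕ} (gs : List LGate) (S : Set (Fin n → ℂ)) : Prop :=
  ∀ v ∈ insert 0 S, ∃ p, p < n + 1 + gs.length ∧ ∀ x, (runG gs x).getD p 0 = ∑ i, v i * x i

theorem getD_snoc_lt {n : ℕ} (gs : List LGate) (g : LGate) (x : Fin n → ℂ) (p : ℕ)
    (hp : p < n + 1 + gs.length) : (runG (gs ++ [g]) x).getD p 0 = (runG gs x).getD p 0 := by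
  rw [runG_snoc, List.getD_append]
  rw [runG_length]
  exact hp

theorem getD_snoc_last {n : ℕ} (gs : List LGate) (g : LGate) (x : Fin n → ℂ) :
    (runG (gs ++ [g]) x).getD (n + 1 + gs.length) 0 = g.value (runG gs x) := by
  rw [runG_snoc, List.getD_append_right]
  · simp [runG_length]
  · rw [runG_length]

theorem Gen_good {n : ℕ} {S T : Set (Fin n → ℂ)} {c : ℕ} (h : Gen S c T) :
    ∀ gs : List LGate, GoodG gs S → ∃ gs' : List LGate, gs'.length = c ∧ GoodG (gs ++ gs') T := by
  induction h with
  | @base S T hT =>
    intro gs hgs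
    refine ⟨[], rfl, ?_⟩
    rw [List.append_nil]
    rintro v (rfl | hv)
    · exact hgs 0 (Or.inl rfl)
    · exact hgs v (hT hv)
  | @step S T c f hf hG ih =>
    intro gs hgs
    have key : ∃ g : LGate, ∀ x, g.value (runG gs x) = ∑ i, f i * x i := by
      cases hf with
      | add hu hv =>
        obtain ⟨p, -, hp⟩ := hgs _ hu
        obtain ⟨q, -, hq⟩ := hgs _ hv
        refine ⟨LGate.add p q, fun x => ?_⟩
        show (runG gs x).getD p 0 + (runG gs x).getD q 0 = _
        rw [hp, hq, ← Finset.sum_add_distrib]
        exact Finset.sum_congr rfl fun i _ => by simp [add_mul]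
      | sub hu hv =>
        obtain ⟨p, -, hp⟩ := hgs _ hu
        obtain ⟨q, -, hq⟩ := hgs _ hv
        refine ⟨LGate.sub p q, fun x => ?_⟩
        show (runG gs x).getD p 0 - (runG gs x).getD q 0 = _
        rw [hp, hq, ← Finset.sum_sub_distrib]
        exact Finset.sum_congr rfl fun i _ => by simp [sub_mul]
      | smul a hu =>
        obtain ⟨p, -, hp⟩ := hgs _ hu
        refine ⟨LGate.smul a p, fun x => ?_⟩
        show a * (runG gs x).getD p 0 = _
        rw [hp, Finset.mul_sum]
        exact Finset.sum_congr rfl fun i _ => by simp [mul_assoc]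
    obtain ⟨g, hg⟩ := key
    have hgood : GoodG (gs ++ [g]) (insert f S) := by
      rintro v hv
      rw [Set.insert_comm] at hv
      rcases hv with rfl | hv
      · refine ⟨n + 1 + gs.length, by simp, fun x => ?_⟩
        rw [getD_snoc_last, hg]
      · obtain ⟨p, hp1, hp⟩ := hgs v hv
        refine ⟨p, by simp; omega, fun x => ?_⟩
        rw [getD_snoc_lt _ _ _ _ hp1, hp]
    obtain ⟨gs', hl, hgs'⟩ := ih (gs ++ [g]) hgood
    refine ⟨g :: gs', by simp [hl], ?_⟩
    simpa using hgs'

theorem GoodG_nil {n : ℕ} : GoodG [] (Set.range (ev : Fin n → Fin n → ℂ)) := by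
  rintro v (rfl | ⟨i, rfl⟩)
  · refine ⟨n, by simp, fun x => ?_⟩
    simp only [runG, List.foldl_nil, Pi.zero_apply, zero_mul, Finset.sum_const_zero]
    rw [List.getD_append_right]
    · simp
    · simp
  · refine ⟨i, by simp, fun x => ?_⟩
    simp only [runG, List.foldl_nil]
    rw [List.getD_append _ _ _ _ (by simp)]
    simp [ev_apply, List.getD_eq_getElem?_getD]

theorem exists_linCircuit {n : ℕ} (M : Matrix (Fin n) (Fin n) ℂ) :
    ∃ P : LinCircuit n, P.Computes M ∧ P.size ≤ cost M := by
  obtain ⟨gs, hl, hgs⟩ := Gen_good (MC_cost M) [] GoodG_nil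
  rw [List.nil_append] at hgs
  choose p _ hp using fun k : Fin n => hgs (M k) (Or.inr ⟨k, rfl⟩)
  refine ⟨⟨gs, p⟩, fun x k => ?_, hl.le⟩
  exact hp k x

end Crest.Agent.FC
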