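import Crest.Agent.FC.Gen

/-! T2 (row 324): calculus of `cost`.
Key remark: for a family `x : ι → F` in any `ℂ`-module, the linear map `φ v = ∑ i, v i • x i`
sends `ev i` to `x i` and the row `M k` to `∑ i, M k i • x i`; apply `Gen.map`.
* product: rows of `A * B` are the images of the rows of `A` under `φ` with `x = rows of B`;
  `Gen.trans`.
* submatrix: the linear map `v ↦ v ∘ g` sends `ev i` to `ev i'` (if `i = g i'`) or to `0`.
* block diagonal: embed `ι → ℂ` into `β × ι → ℂ` (`v ↦ (fun q => if q.1 = b then v q.2 else 0)`),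
  `Gen.map` + `Gen.iUnion`.
-/

set_option autoImplicit false

namespace Crest.Agent.FC

open Matrix

theorem exists_MC {κ ι : Type} [Finite κ] [Finite ι] (M : Matrix κ ι ℂ) : ∃ c, MC M c := by
  classical
  cases nonempty_fintype ι
  refine Gen.exists_of_subset_span (Set.finite_range _) ?_
  rintro _ ⟨k, rfl⟩
  have h : (M k : ι → ℂ) = ∑ i, M k i • ev i := by
    funext j
    simp [ev_apply, Finset.sum_apply]
  show (M k : ι → ℂ) ∈ Submodule.span ℂ (Set.range ev)
  rw [h]
  exact Submodule.sum_mem _ fun i _ => Submodule.smul_mem _ _ (Submodule.subset_span ⟨i, rfl⟩)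

theorem MC_cost {κ ι : Type} [Finite κ] [Finite ι] (M : Matrix κ ι ℂ) : MC M (cost M) :=
  Nat.sInf_mem (s := {c | MC M c}) (exists_MC M)

theorem cost_le {κ ι : Type} {M : Matrix κ ι ℂ} {c : ℕ} (h : MC M c) : cost M ≤ c :=
  Nat.sInf_le h

theorem cost_mul_le {l κ ι : Type} [Finite l] [Fintype κ] [Finite ι] (A : Matrix l κ ℂ)
    (B : Matrix κ ι ℂ) : cost (A * B) ≤ cost A + cost B := by
  classical
  let φ : (κ → ℂ) →ₗ[ℂ] (ι → ℂ) :=
    { toFun := fun v => ∑ k, v k • (B k : ι → ℂ)
      map_add' := by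
        intro u v
        simp [add_smul, Finset.sum_add_distrib]
      map_smul' := by
        intro c v
        simp [Finset.smul_sum, mul_smul] }
  have h1 := (MC_cost A).map φ
  have hB := MC_cost B
  have e1 : φ '' Set.range (ev : κ → κ → ℂ) = Set.range fun k : κ => (B k : ι → ℂ) := by
    ext f
    simp only [Set.mem_image, Set.mem_range, exists_exists_eq_and]
    refine exists_congr fun k => ?_
    have : φ (ev k) = B k := by
      show ∑ k', (ev k : κ → ℂ) k' • (B k' : ι → ℂ) = B k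
      funext j
      rw [Finset.sum_apply, Finset.sum_eq_single k]
      · simp [ev_apply]
      · intro b _ hb
        simp [ev_apply, hb]
      · intro h
        exact absurd (Finset.mem_univ k) h
    rw [this]
  have e2 : (Set.range fun k : l => ((A * B) k : ι → ℂ)) =
      φ '' (Set.range fun k : l => (A k : κ → ℂ)) := by
    have : ∀ k, φ (A k) = (A * B) k := by
      intro k
      show ∑ k', A k k' • (B k' : ι → ℂ) = (A * B) k
      funext j
      simp [Matrix.mul_apply]
    rw [← Set.range_comp]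
    congr 1
    funext k
    exact (this k).symm
  rw [e1] at h1
  refine cost_le ?_
  unfold MC
  rw [e2, add_comm]
  exact hB.trans h1

theorem cost_submatrix_le {κ ι κ' ι' : Type} [Finite κ] [Finite ι] (M : Matrix κ ι ℂ) (f : κ' → κ)
    (g : ι' → ι) (hg : Function.Injective g) : cost (M.submatrix f g) ≤ cost M := by
  classical
  let φ : (ι → ℂ) →ₗ[ℂ] (ι' → ℂ) :=
    { toFun := fun v => v ∘ g
      map_add' := fun u v => rfl
      map_smul' := fun c v => rfl }
  have h1 := (MC_cost M).map φ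
  refine cost_le ?_
  refine (h1.mono_left ?_).mono_right ?_
  · rintro _ ⟨_, ⟨i, rfl⟩, rfl⟩
    by_cases h : ∃ i', g i' = i
    · obtain ⟨i', rfl⟩ := h
      right
      refine ⟨i', ?_⟩
      funext j
      show (ev i' : ι' → ℂ) j = (ev (g i') : ι → ℂ) (g j)
      simp [ev_apply, hg.eq_iff]
    · left
      funext j
      show (ev i : ι → ℂ) (g j) = 0
      rw [ev_apply, if_neg]
      exact fun hj => h ⟨j, hj⟩
  · rintro _ ⟨k, rfl⟩
    right
    exact ⟨_, ⟨f k, rfl⟩, rfl⟩

theorem cost_submatrix_equiv {κ ι κ' ι' : Type} [Finite κ] [Finite ι] [Finite κ'] [Finite ι']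
    (M : Matrix κ ι ℂ) (e : κ' ≃ κ) (e' : ι' ≃ ι) : cost (M.submatrix e e') = cost M := by
  refine le_antisymm (cost_submatrix_le M e e' e'.injective) ?_
  have := cost_submatrix_le (M.submatrix e e') e.symm e'.symm e'.symm.injective
  simpa using this

theorem cost_diagonal_le {ι : Type} [Fintype ι] [DecidableEq ι] (d : ι → ℂ) :
    cost (Matrix.diagonal d) ≤ Fintype.card ι := by
  have h1 : ∀ i : ι, Gen (Set.range (ev : ι → ι → ℂ)) 1 {d i • (ev i : ι → ℂ)} := fun i =>
    Gen.step (Step.smul (d i) (Or.inr ⟨i, rfl⟩)) (Gen.base fun f hf => Or.inr (Or.inl hf))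
  have h2 := Gen.iUnion (fun i : ι => {d i • (ev i : ι → ℂ)}) (fun _ => 1) h1
  have h3 : MC (Matrix.diagonal d) (∑ _i : ι, 1) := by
    refine h2.mono_right ?_
    rintro _ ⟨k, rfl⟩
    right
    refine Set.mem_iUnion.mpr ⟨k, ?_⟩
    rw [Set.mem_singleton_iff]
    funext j
    by_cases h : j = k
    · subst h
      simp [ev_apply]
    · simp [ev_apply, Matrix.diagonal_apply_ne _ (Ne.symm h), h]
  simpa using cost_le h3

theorem cost_one_eq {ι : Type} [DecidableEq ι] : cost (1 : Matrix ι ι ℂ) = 0 := by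
  refine Nat.le_zero.mp (cost_le (Gen.base ?_))
  rintro _ ⟨k, rfl⟩
  right
  refine ⟨k, ?_⟩
  funext j
  show (ev k : ι → ℂ) j = (1 : Matrix ι ι ℂ) k j
  by_cases h : j = k
  · subst h
    simp [ev_apply]
  · simp [ev_apply, h, Matrix.one_apply_ne (Ne.symm h)]

theorem cost_fromBlocks_le {κ κ' ι ι' : Type} [Finite κ] [Finite ι] [Finite κ'] [Finite ι']
    (A : Matrix κ ι ℂ) (D : Matrix κ' ι' ℂ) :
    cost (Matrix.fromBlocks A 0 0 D) ≤ cost A + cost D := by
  classical
  let φ : (ι → ℂ) →ₗ[ℂ] (ι ⊕ ι' → ℂ) :=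
    { toFun := fun v => Sum.elim v 0
      map_add' := by
        intro u v
        funext j
        cases j <;> simp
      map_smul' := by
        intro c v
        funext j
        cases j <;> simp }
  let ψ : (ι' → ℂ) →ₗ[ℂ] (ι ⊕ ι' → ℂ) :=
    { toFun := fun v => Sum.elim 0 v
      map_add' := by
        intro u v
        funext j
        cases j <;> simp
      map_smul' := by
        intro c v
        funext j
        cases j <;> simp }
  have h1 : Gen (Set.range (ev : ι ⊕ ι' → ι ⊕ ι' → ℂ)) (cost A)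
      (φ '' (Set.range fun k : κ => (A k : ι → ℂ))) := by
    refine ((MC_cost A).map φ).mono_left ?_
    rintro _ ⟨_, ⟨i, rfl⟩, rfl⟩
    right
    refine ⟨Sum.inl i, ?_⟩
    funext j
    show (ev (Sum.inl i) : ι ⊕ ι' → ℂ) j = Sum.elim (ev i) (0 : ι' → ℂ) j
    cases j <;> simp [ev_apply]
  have h2 : Gen (Set.range (ev : ι ⊕ ι' → ι ⊕ ι' → ℂ)) (cost D)
      (ψ '' (Set.range fun k : κ' => (D k : ι' → ℂ))) := by
    refine ((MC_cost D).map ψ).mono_left ?_
    rintro _ ⟨_, ⟨i, rfl⟩, rfl⟩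
    right
    refine ⟨Sum.inr i, ?_⟩
    funext j
    show (ev (Sum.inr i) : ι ⊕ ι' → ℂ) j = Sum.elim (0 : ι → ℂ) (ev i) j
    cases j <;> simp [ev_apply]
  refine cost_le ((h1.union h2).mono_right ?_)
  rintro _ ⟨k, rfl⟩
  right
  cases k with
  | inl k =>
    left
    refine ⟨_, ⟨k, rfl⟩, ?_⟩
    funext j
    show Sum.elim (A k) (0 : ι' → ℂ) j =
      (Matrix.fromBlocks A 0 0 D : Matrix (κ ⊕ κ') (ι ⊕ ι') ℂ) (Sum.inl k) j
    cases j <;> simp
  | inr k =>
    right
    refine ⟨_, ⟨k, rfl⟩, ?_⟩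
    funext j
    show Sum.elim (0 : ι → ℂ) (D k) j =
      (Matrix.fromBlocks A 0 0 D : Matrix (κ ⊕ κ') (ι ⊕ ι') ℂ) (Sum.inr k) j
    cases j <;> simp

theorem cost_bdiag_le {β κ ι : Type} [Fintype β] [Finite κ] [Finite ι] (M : β → Matrix κ ι ℂ) :
    cost (bdiag M) ≤ ∑ b, cost (M b) := by
  classical
  let φ : β → (ι → ℂ) →ₗ[ℂ] (β × ι → ℂ) := fun b =>
    { toFun := fun v q => if b = q.1 then v q.2 else 0
      map_add' := by
        intro u v
        funext q
        by_cases h : b = q.1 <;> simp [h]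
      map_smul' := by
        intro c v
        funext q
        by_cases h : b = q.1 <;> simp [h] }
  have h1 : ∀ b, Gen (Set.range (ev : β × ι → β × ι → ℂ)) (cost (M b))
      (φ b '' (Set.range fun k : κ => (M b k : ι → ℂ))) := by
    intro b
    refine ((MC_cost (M b)).map (φ b)).mono_left ?_
    rintro _ ⟨_, ⟨i, rfl⟩, rfl⟩
    right
    refine ⟨(b, i), ?_⟩
    funext q
    show (ev (b, i) : β × ι → ℂ) q = if b = q.1 then (ev i : ι → ℂ) q.2 else 0
    obtain ⟨b', i'⟩ := q
    by_cases h : b = b'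
    · subst h
      simp [ev_apply]
    · have h' : ¬ (b', i') = (b, i) := fun e => h (Prod.mk.inj e).1.symm
      rw [ev_apply, if_neg h', if_neg h]
  refine cost_le ((Gen.iUnion _ _ h1).mono_right ?_)
  rintro _ ⟨⟨b, k⟩, rfl⟩
  right
  refine Set.mem_iUnion.mpr ⟨b, _, ⟨k, rfl⟩, ?_⟩
  funext q
  show (if b = q.1 then M b k q.2 else 0) = bdiag M (b, k) q
  rw [bdiag_apply]

end Crest.Agent.FC
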