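import Mathlib
import Crest.Prelude.Def_LinCircuit

/-!
Row 324 (S0501): definitions for the cost calculus of linear straight-line programs.
-/

set_option autoImplicit false

namespace Crest.Agent.FC

open Matrix Finset

/-- One gate: a sum, a difference or a scalar multiple of available vectors. -/
inductive Step {F : Type} [AddCommGroup F] [Module ℂ F] (S : Set F) : F → Prop
  | add {u v : F} : u ∈ S → v ∈ S → Step S (u + v)
  | sub {u v : F} : u ∈ S → v ∈ S → Step S (u - v)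
  | smul (c : ℂ) {u : F} : u ∈ S → Step S (c • u)

/-- `Gen S c T`: starting from the available vectors `S` (and `0`), exactly `c` gates can produce
a set of available vectors containing `T`. -/
inductive Gen {F : Type} [AddCommGroup F] [Module ℂ F] : Set F → ℕ → Set F → Prop
  | base {S T : Set F} : T ⊆ insert 0 S → Gen S 0 T
  | step {S T : Set F} {c : ℕ} {f : F} :
      Step (insert 0 S) f → Gen (insert f S) c T → Gen S (c + 1) T

/-- The standard basis vector. -/
noncomputable def ev {ι : Type} (i : ι) : ι → ℂ := by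
  classical exact fun j => if j = i then 1 else 0

theorem ev_apply {ι : Type} [DecidableEq ι] (i j : ι) : ev i j = if j = i then 1 else 0 := by
  unfold ev
  by_cases h : j = i <;> simp [h]

/-- `MC M c`: the matrix `M` (rows indexed by `κ`, columns by `ι`) can be computed with `c` gates:
from the coordinate vectors one gets all the rows of `M`. -/
def MC {κ ι : Type} (M : Matrix κ ι ℂ) (c : ℕ) : Prop :=
  Gen (Set.range (ev : ι → ι → ℂ)) c (Set.range fun k : κ => (M k : ι → ℂ))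

/-- The least number of gates computing `M`. -/
noncomputable def cost {κ ι : Type} (M : Matrix κ ι ℂ) : ℕ := sInf {c | MC M c}

/-- Block diagonal matrix with blocks `M b`. -/
noncomputable def bdiag {β κ ι : Type} (M : β → Matrix κ ι ℂ) : Matrix (β × κ) (β × ι) ℂ := by
  classical exact Matrix.of fun p q => if p.1 = q.1 then M p.1 p.2 q.2 else 0

theorem bdiag_apply {β κ ι : Type} [DecidableEq β] (M : β → Matrix κ ι ℂ) (p : β × κ) (q : β × ι) :
    bdiag M p q = if p.1 = q.1 then M p.1 p.2 q.2 else 0 := by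
  unfold bdiag
  by_cases h : p.1 = q.1 <;> simp [h]

/-- Tensor product of a finite family of square matrices. -/
noncomputable def tens {k : ℕ} {σ : Fin k → Type} (A : ∀ i, Matrix (σ i) (σ i) ℂ) :
    Matrix (∀ i, σ i) (∀ i, σ i) ℂ :=
  Matrix.of fun s t => ∏ i, A i (s i) (t i)

/-- Tensor power. -/
noncomputable def kpow {σ : Type} (A : Matrix σ σ ℂ) (k : ℕ) : Matrix (Fin k → σ) (Fin k → σ) ℂ :=
  tens (σ := fun _ : Fin k => σ) (fun _ => A)

/-- `M ⊗ M ⊗ M`. -/
noncomputable def cube {σ : Type} (M : Matrix σ σ ℂ) : Matrix (σ × σ × σ) (σ × σ × σ) ℂ :=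
  Matrix.of fun s t => M s.1 t.1 * M s.2.1 t.2.1 * M s.2.2 t.2.2

/-- The elementary shear `x₁ += x₀`. -/
noncomputable def Sh : Matrix (Fin 2) (Fin 2) ℂ := !![1, 0; 1, 1]

/-- The general lower shear `x₁ += c x₀`. -/
noncomputable def Lc (c : ℂ) : Matrix (Fin 2) (Fin 2) ℂ := !![1, 0; c, 1]

/-- The fan (star) operator: every leaf `some i` receives `+ x_none`. -/
noncomputable def Fan (n : ℕ) : Matrix (Option (Fin n)) (Option (Fin n)) ℂ :=
  Matrix.of fun s t => if s = t ∨ t = none then 1 else 0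

/-- `ShProd w M`: `M` is a product of `w` transvections (`x_i += c x_j`, `i ≠ j`, `c ≠ 0`). -/
inductive ShProd {σ : Type} [DecidableEq σ] [Fintype σ] : ℕ → Matrix σ σ ℂ → Prop
  | one : ShProd 0 1
  | mul {w : ℕ} {M : Matrix σ σ ℂ} (i j : σ) (c : ℂ) : i ≠ j → c ≠ 0 → ShProd w M →
      ShProd (w + 1) (Matrix.transvection i j c * M)

/-- Binomial average: `∑_a C(k,a) (N-L)^(k-a) f(a)`. -/
noncomputable def Gb (L N : ℝ) (f : ℕ → ℝ) (k : ℕ) : ℝ :=
  ∑ a ∈ range (k + 1), (k.choose a : ℝ) * (N - L) ^ (k - a) * f a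

/-- The exponent `1 - 5·10⁻¹²`. -/
noncomputable def th : ℝ := 1 - 1 / (2 * 10 ^ 11)

/-- A layer: after relabelling rows and columns, a direct sum of `2 × 2` blocks. -/
def IsLayer {ι : Type} (M : Matrix ι ι ℂ) : Prop :=
  ∃ (β : Type) (_ : Fintype β) (e e' : ι ≃ β × Fin 2) (m : β → Matrix (Fin 2) (Fin 2) ℂ),
    M = (bdiag m).submatrix e e'

/-- `Lay ℓ M`: `M` is a product of `ℓ` layers. -/
inductive Lay {ι : Type} [Fintype ι] [DecidableEq ι] : ℕ → Matrix ι ι ℂ → Prop
  | one : Lay 0 1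
  | mul {ℓ : ℕ} {L M : Matrix ι ι ℂ} : IsLayer L → Lay ℓ M → Lay (ℓ + 1) (L * M)

/-- `M ⊕ M`. -/
noncomputable def dbl {ι : Type} (M : Matrix ι ι ℂ) : Matrix (ι ⊕ ι) (ι ⊕ ι) ℂ :=
  fromBlocks M 0 0 M

/-- upper block shear: `y₁ += X y₂`. -/
noncomputable def ush {ι : Type} [DecidableEq ι] (X : Matrix ι ι ℂ) : Matrix (ι ⊕ ι) (ι ⊕ ι) ℂ :=
  fromBlocks 1 X 0 1

/-- lower block shear: `y₂ += X y₁`. -/
noncomputable def lsh {ι : Type} [DecidableEq ι] (X : Matrix ι ι ℂ) : Matrix (ι ⊕ ι) (ι ⊕ ι) ℂ :=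
  fromBlocks 1 0 X 1

/-- Toeplitz matrix `X i j = x (i - j)`. -/
noncomputable def Toep (x : ℤ → ℂ) (H : ℕ) : Matrix (Fin H) (Fin H) ℂ :=
  Matrix.of fun i j => x ((i : ℤ) - (j : ℤ))

/-- Lower triangular Toeplitz matrix with entries `c (i - j)`. -/
noncomputable def LT (c : ℕ → ℂ) (Q : ℕ) : Matrix (Fin Q) (Fin Q) ℂ :=
  Matrix.of fun i j => if (j : ℕ) ≤ (i : ℕ) then c ((i : ℕ) - (j : ℕ)) else 0

/-- `∏_{1 ≤ i ≤ k} (w^i - 1)`. -/
noncomputable def qf (w : ℂ) (k : ℕ) : ℂ := ∏ i ∈ range k, (w ^ (i + 1) - 1)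

/-- Convolution matrix on a group. -/
noncomputable def circ {G : Type} [AddGroup G] (h : G → ℂ) : Matrix G G ℂ :=
  Matrix.of fun s t => h (s - t)

/-- Fourier matrix indexed by `ZMod m`. -/
noncomputable def Fm (m : ℕ) : Matrix (ZMod m) (ZMod m) ℂ :=
  Matrix.of fun s t => Complex.exp (2 * Real.pi * Complex.I / m) ^ (s.val * t.val)

end Crest.Agent.FC
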