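import Crest.Agent.FC.Defs

/-! T17 (row 324): the LDU decomposition of the Fourier matrix (q-Pascal / Newton interpolation).

Let `f k = qf w k = ∏_{1≤i≤k} (w^i - 1)`, nonzero for `k < q`.
(1) Newton: for all `x` and `j < q`:
`x^j = ∑_{m ≤ j} f j/(f m * f (j-m)) * ∏_{i<m} (x - w^i)`, by induction on `j`, using
the q-Pascal rule `[j+1,m] = [j,m-1] + w^m [j,m]` with `[j,m] = f j/(f m f (j-m))` and
`x * P_m(x) = P_{m+1}(x) + w^m P_m(x)`, `P_m(x) = ∏_{i<m}(x - w^i)`.
(2) `∏_{i<m} (w^k - w^i) = w^(m(m-1)/2) * f k / f (k-m)` for `m ≤ k`, and `= 0` for `m > k`.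
Put `x = w^k`. -/

set_option autoImplicit false

namespace Crest.Agent.FC

open Finset

/-- Gaussian binomial coefficients by the q-Pascal rule. -/
def gbin (w : ℂ) : ℕ → ℕ → ℂ
  | 0, 0 => 1
  | 0, _ + 1 => 0
  | j + 1, 0 => gbin w j 0
  | j + 1, m + 1 => gbin w j m + w ^ (m + 1) * gbin w j (m + 1)

/-- Newton products. -/
def newtonP (w x : ℂ) (m : ℕ) : ℂ := ∏ i ∈ range m, (x - w ^ i)

theorem newtonP_succ (w x : ℂ) (m : ℕ) : newtonP w x (m + 1) = newtonP w x m * (x - w ^ m) := by
  simp [newtonP, prod_range_succ]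

theorem qf_succ (w : ℂ) (k : ℕ) : qf w (k + 1) = qf w k * (w ^ (k + 1) - 1) := by
  simp [qf, prod_range_succ]

theorem qf_zero (w : ℂ) : qf w 0 = 1 := by simp [qf]

theorem gbin_zero_right (w : ℂ) (j : ℕ) : gbin w j 0 = 1 := by
  induction j with
  | zero => rfl
  | succ j ih => rw [gbin]; exact ih

theorem gbin_eq_zero (w : ℂ) : ∀ j m : ℕ, j < m → gbin w j m = 0
  | 0, 0, h => absurd h (lt_irrefl _)
  | 0, _ + 1, _ => by rw [gbin]
  | j + 1, 0, h => absurd h (Nat.not_lt_zero _)
  | j + 1, m + 1, h => by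
    rw [gbin, gbin_eq_zero w j m (by omega), gbin_eq_zero w j (m + 1) (by omega)]
    simp

theorem gbin_mul (w : ℂ) : ∀ j m : ℕ, m ≤ j → gbin w j m * (qf w m * qf w (j - m)) = qf w j
  | 0, 0, _ => by rw [gbin]; simp [qf_zero]
  | 0, m + 1, h => absurd h (by omega)
  | j + 1, 0, _ => by rw [gbin_zero_right, qf_zero]; simp
  | j + 1, m + 1, h => by
    have h1 := gbin_mul w j m (by omega)
    rw [gbin]
    rw [Nat.succ_sub_succ_eq_sub]
    rcases Nat.lt_or_ge j (m + 1) with h2 | h2
    · -- m = j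
      have h3 : m = j := by omega
      subst h3
      rw [gbin_eq_zero w m (m + 1) (by omega), mul_zero, add_zero, qf_succ]
      calc gbin w m m * (qf w m * (w ^ (m + 1) - 1) * qf w (m - m))
          = (gbin w m m * (qf w m * qf w (m - m))) * (w ^ (m + 1) - 1) := by ring
        _ = _ := by rw [h1]
    · have h3 := gbin_mul w j (m + 1) h2
      obtain ⟨d, rfl⟩ : ∃ d, j = m + 1 + d := ⟨j - (m + 1), by omega⟩
      have e1 : m + 1 + d - m = d + 1 := by omega
      have e2 : m + 1 + d - (m + 1) = d := by omega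
      rw [e1] at h1 ⊢
      rw [e2] at h3
      have e4 : qf w (m + 1 + d + 1) = qf w (m + 1 + d) * (w ^ (m + 1 + d + 1) - 1) := qf_succ w _
      rw [e4]
      have e5 : qf w (m + 1) = qf w m * (w ^ (m + 1) - 1) := qf_succ w m
      have e6 : qf w (d + 1) = qf w d * (w ^ (d + 1) - 1) := qf_succ w d
      calc (gbin w (m + 1 + d) m + w ^ (m + 1) * gbin w (m + 1 + d) (m + 1)) *
            (qf w (m + 1) * qf w (d + 1))
          = (gbin w (m + 1 + d) m * (qf w m * qf w (d + 1))) * (w ^ (m + 1) - 1) +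
            w ^ (m + 1) * (w ^ (d + 1) - 1) *
              (gbin w (m + 1 + d) (m + 1) * (qf w (m + 1) * qf w d)) := by
            rw [e6, e5]; ring
        _ = qf w (m + 1 + d) * (w ^ (m + 1 + d + 1) - 1) := by
            rw [h1, h3]
            have e7 : w ^ (m + 1 + d + 1) = w ^ (m + 1) * w ^ (d + 1) := by
              rw [← pow_add]; congr 1
            rw [e7]; ring

theorem newton_expand (w x : ℂ) (j : ℕ) :
    x ^ j = ∑ m ∈ range (j + 1), gbin w j m * newtonP w x m := by
  induction j with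
  | zero => simp [gbin, newtonP]
  | succ j ih =>
    have h1 : x ^ (j + 1) = (∑ m ∈ range (j + 1), gbin w j m * newtonP w x (m + 1)) +
        ∑ m ∈ range (j + 1), w ^ m * gbin w j m * newtonP w x m := by
      rw [pow_succ, ih, Finset.sum_mul, ← Finset.sum_add_distrib]
      refine Finset.sum_congr rfl fun m _ => ?_
      rw [newtonP_succ]; ring
    have h2 : ∑ m ∈ range (j + 1 + 1), gbin w (j + 1) m * newtonP w x m =
        (∑ m ∈ range (j + 1), gbin w j m * newtonP w x (m + 1)) +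
        ((∑ m ∈ range (j + 1), w ^ (m + 1) * gbin w j (m + 1) * newtonP w x (m + 1)) +
          w ^ 0 * gbin w j 0 * newtonP w x 0) := by
      rw [Finset.sum_range_succ', ← add_assoc, ← Finset.sum_add_distrib]
      congr 1
      · refine Finset.sum_congr rfl fun m _ => ?_
        rw [gbin]; ring
      · rw [gbin]; ring
    have h3 : (∑ m ∈ range (j + 1), w ^ (m + 1) * gbin w j (m + 1) * newtonP w x (m + 1)) +
          w ^ 0 * gbin w j 0 * newtonP w x 0 =
        ∑ m ∈ range (j + 1), w ^ m * gbin w j m * newtonP w x m := by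
      rw [← Finset.sum_range_succ' (fun m => w ^ m * gbin w j m * newtonP w x m) (j + 1),
        Finset.sum_range_succ, gbin_eq_zero w j (j + 1) (by omega)]
      simp
    rw [h1, h2, h3]

theorem newtonP_pow (w : ℂ) (k : ℕ) : ∀ m, m ≤ k →
    newtonP w (w ^ k) m * qf w (k - m) = w ^ (m * (m - 1) / 2) * qf w k
  | 0, _ => by simp [newtonP]
  | m + 1, h => by
    have ih := newtonP_pow w k m (by omega)
    obtain ⟨d, rfl⟩ : ∃ d, k = m + 1 + d := ⟨k - (m + 1), by omega⟩
    have e1 : m + 1 + d - m = d + 1 := by omega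
    have e2 : m + 1 + d - (m + 1) = d := by omega
    rw [e1, qf_succ] at ih
    rw [e2, newtonP_succ]
    have e3 : w ^ (m + 1 + d) - w ^ m = w ^ m * (w ^ (d + 1) - 1) := by
      rw [mul_sub, ← pow_add]; congr 2
      · ring
      · ring
    have e4 : (m + 1) * (m + 1 - 1) / 2 = m * (m - 1) / 2 + m := by
      rw [← Finset.sum_range_id, ← Finset.sum_range_id, Finset.sum_range_succ]
    calc newtonP w (w ^ (m + 1 + d)) m * (w ^ (m + 1 + d) - w ^ m) * qf w d
        = (newtonP w (w ^ (m + 1 + d)) m * (qf w d * (w ^ (d + 1) - 1))) * w ^ m := by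
          rw [e3]; ring
      _ = w ^ ((m + 1) * (m + 1 - 1) / 2) * qf w (m + 1 + d) := by
          rw [ih, e4, pow_add]; ring

theorem newtonP_pow_zero (w : ℂ) (k m : ℕ) (h : k < m) : newtonP w (w ^ k) m = 0 := by
  refine Finset.prod_eq_zero (Finset.mem_range.2 h) ?_
  simp

theorem qf_ne_zero (w : ℂ) (q : ℕ) (hw : ∀ i, 0 < i → i < q → w ^ i ≠ 1) (k : ℕ) (hk : k < q) :
    qf w k ≠ 0 := by
  refine Finset.prod_ne_zero_iff.2 fun i hi => sub_ne_zero.2 (hw (i + 1) (by omega) ?_)
  have := Finset.mem_range.1 hi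
  omega

theorem qpascal (w : ℂ) (q : ℕ) (hw : ∀ i, 0 < i → i < q → w ^ i ≠ 1) (j k : ℕ) (hj : j < q)
    (hk : k < q) :
    w ^ (j * k) = qf w j * (∑ m ∈ range (min j k + 1),
      (qf w (j - m))⁻¹ * (w ^ (m * (m - 1) / 2) / qf w m) * (qf w (k - m))⁻¹) * qf w k := by
  have h0 : w ^ (j * k) = (w ^ k) ^ j := by rw [← pow_mul, mul_comm]
  rw [h0, newton_expand w (w ^ k) j, Finset.mul_sum, Finset.sum_mul]
  have hsub : range (min j k + 1) ⊆ range (j + 1) := by
    intro m hm
    rw [Finset.mem_range] at hm ⊢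
    omega
  rw [← Finset.sum_subset hsub]
  · refine Finset.sum_congr rfl fun m hm => ?_
    rw [Finset.mem_range] at hm
    have hmj : m ≤ j := by omega
    have hmk : m ≤ k := by omega
    have h1 := gbin_mul w j m hmj
    have h2 := newtonP_pow w k m hmk
    have n1 := qf_ne_zero w q hw m (by omega)
    have n2 := qf_ne_zero w q hw (j - m) (by omega)
    have n3 := qf_ne_zero w q hw (k - m) (by omega)
    rw [← h1]
    have h3 : newtonP w (w ^ k) m = w ^ (m * (m - 1) / 2) * qf w k / qf w (k - m) := by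
      rw [eq_div_iff n3, h2]
    rw [h3]
    field_simp
  · intro m hm hm'
    rw [Finset.mem_range] at hm hm'
    rw [newtonP_pow_zero w k m (by omega), mul_zero]

end Crest.Agent.FC
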