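import Crest.Agent.FC.TriToep
import Crest.Agent.FC.QPascal

/-! T22 (row 324): every Fourier matrix of order `m ≤ 2^b` is the top-left block of a matrix of size
`2^b` with `O(b)` layers.

`w = exp(2πi/m)`, `c k = (qf w k)⁻¹` (`c 0 = 1`), `T = LT c (2^b)`,
`F = diagonal (qf w s) * T * diagonal (w^(u(u-1)/2)/qf w u) * Tᵀ * diagonal (qf w t)`; for `s, t < m`
use `qpascal` (`w^i ≠ 1` for `0 < i < m`: `Complex.isPrimitiveRoot_exp`). Layers: `lay_LT`,
`Lay.transpose`, `isLayer_diagonal` (`Fin (2^b) ≃ Fin (2^(b-1)) × Fin 2`). -/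

set_option autoImplicit false

namespace Crest.Agent.FC

open Matrix

/-- `Fin (2^b) ≃ Fin (2^(b-1)) × Fin 2` -/
noncomputable def finPowEquiv (b : ℕ) (hb : 1 ≤ b) : Fin (2 ^ b) ≃ Fin (2 ^ (b - 1)) × Fin 2 :=
  (finCongr (by rw [← pow_succ, Nat.sub_add_cancel hb] : 2 ^ b = 2 ^ (b - 1) * 2)).trans
    finProdFinEquiv.symm

theorem isLayer_diagonal_pow (b : ℕ) (hb : 1 ≤ b) (d : Fin (2 ^ b) → ℂ) :
    IsLayer (Matrix.diagonal d) :=
  isLayer_diagonal (finPowEquiv b hb) d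

theorem isLayer_one_pow (b : ℕ) (hb : 1 ≤ b) :
    IsLayer (1 : Matrix (Fin (2 ^ b)) (Fin (2 ^ b)) ℂ) := by
  rw [← Matrix.diagonal_one]
  exact isLayer_diagonal_pow b hb _

theorem lay_fourier : ∃ C : ℕ, ∀ (b m : ℕ), 1 ≤ b → 1 ≤ m → m ≤ 2 ^ b →
    ∃ F : Matrix (Fin (2 ^ b)) (Fin (2 ^ b)) ℂ, Lay (C * b) F ∧
      ∀ s t : Fin (2 ^ b), (s : ℕ) < m → (t : ℕ) < m →
        F s t = Complex.exp (2 * Real.pi * Complex.I / m) ^ ((s : ℕ) * (t : ℕ)) := by
  obtain ⟨C, hC⟩ := lay_LT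
  refine ⟨2 * C + 3, fun b m hb hm hmb => ?_⟩
  set w : ℂ := Complex.exp (2 * Real.pi * Complex.I / m) with hw
  have hprim : IsPrimitiveRoot w m := Complex.isPrimitiveRoot_exp m (by omega)
  have hne : ∀ i, 0 < i → i < m → w ^ i ≠ 1 := fun i h0 hi =>
    hprim.pow_ne_one_of_pos_of_lt h0.ne' hi
  set c : ℕ → ℂ := fun k => (qf w k)⁻¹ with hc
  have hc0 : c 0 = 1 := by simp [hc, qf]
  have hT := hC b c hb hc0
  set T := LT c (2 ^ b) with hTd
  set D : Matrix (Fin (2 ^ b)) (Fin (2 ^ b)) ℂ := Matrix.diagonal fun s => qf w s with hD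
  set G : Matrix (Fin (2 ^ b)) (Fin (2 ^ b)) ℂ :=
    Matrix.diagonal fun u => w ^ ((u : ℕ) * ((u : ℕ) - 1) / 2) / qf w u with hG
  have hlD : Lay 1 D := Lay.single (isLayer_diagonal_pow b hb _)
  have hlG : Lay 1 G := Lay.single (isLayer_diagonal_pow b hb _)
  have h1 : Lay (1 + (C * b + (1 + (C * b + 1)))) (D * (T * (G * (Tᵀ * D)))) :=
    hlD.comp (hT.comp (hlG.comp (hT.transpose.comp hlD)))
  refine ⟨D * (T * (G * (Tᵀ * D))), h1.pad ?_ (isLayer_one_pow b hb), fun s t hs ht => ?_⟩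
  · nlinarith
  · rw [hD, Matrix.diagonal_mul, ← mul_assoc, ← mul_assoc, Matrix.mul_diagonal, hG,
      Matrix.mul_apply, qpascal w m hne s t hs ht, mul_assoc]
    congr 2
    have hL : ∀ u : Fin (2 ^ b), (T * Matrix.diagonal fun u : Fin (2 ^ b) =>
        w ^ ((u : ℕ) * ((u : ℕ) - 1) / 2) / qf w u) s u * Tᵀ u t =
        (fun n : ℕ => if n < min (s : ℕ) t + 1 then (qf w (s - n))⁻¹ *
          (w ^ (n * (n - 1) / 2) / qf w n) * (qf w (t - n))⁻¹ else 0) u := by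
      intro u
      rw [Matrix.mul_diagonal, Matrix.transpose_apply, hTd]
      simp only [LT, Matrix.of_apply, hc]
      by_cases h1 : (u : ℕ) ≤ s
      · by_cases h2 : (u : ℕ) ≤ t
        · rw [if_pos h1, if_pos h2, if_pos (by omega)]
        · have h3 : ¬ (u : ℕ) < min (s : ℕ) t + 1 := by omega
          rw [if_neg h2, if_neg h3, mul_zero]
      · have h3 : ¬ (u : ℕ) < min (s : ℕ) t + 1 := by omega
        rw [if_neg h1, if_neg h3, zero_mul, zero_mul]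
    rw [Finset.sum_congr rfl fun u _ => hL u, Fin.sum_univ_eq_sum_range
      (fun n : ℕ => if n < min (s : ℕ) t + 1 then (qf w (s - n))⁻¹ *
          (w ^ (n * (n - 1) / 2) / qf w n) * (qf w (t - n))⁻¹ else 0) (2 ^ b),
      ← Finset.sum_filter]
    refine Finset.sum_congr ?_ fun _ _ => rfl
    ext n
    simp only [Finset.mem_filter, Finset.mem_range]
    omega

end Crest.Agent.FC
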