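import Crest.Agent.FC.Defs

/-! T15 (row 324): closure properties of layers. -/

set_option autoImplicit false

namespace Crest.Agent.FC

open Matrix

variable {ι ι' : Type} [Fintype ι] [DecidableEq ι] [Fintype ι'] [DecidableEq ι']

theorem IsLayer.submatrix {M : Matrix ι ι ℂ} (h : IsLayer M) (e e' : ι' ≃ ι) :
    IsLayer (M.submatrix e e') := by
  obtain ⟨β, hβ, f, f', m, rfl⟩ := h
  refine ⟨β, hβ, e.trans f, e'.trans f', m, ?_⟩
  ext i j
  simp

theorem bdiag_transpose {β κ : Type} (m : β → Matrix κ κ ℂ) :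
    (bdiag m)ᵀ = bdiag (fun b => (m b)ᵀ) := by
  classical
  ext p q
  rw [transpose_apply, bdiag_apply, bdiag_apply]
  by_cases h : p.1 = q.1
  · simp [h]
  · rw [if_neg h, if_neg (fun h' => h h'.symm)]

theorem IsLayer.transpose {M : Matrix ι ι ℂ} (h : IsLayer M) : IsLayer Mᵀ := by
  obtain ⟨β, hβ, f, f', m, rfl⟩ := h
  refine ⟨β, hβ, f', f, fun b => (m b)ᵀ, ?_⟩
  rw [transpose_submatrix, bdiag_transpose]

/-- blocks on both sides. -/
theorem IsLayer.sum {M : Matrix ι ι ℂ} {N : Matrix ι' ι' ℂ} (hM : IsLayer M) (hN : IsLayer N) :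
    IsLayer (Matrix.fromBlocks M 0 0 N) := by
  classical
  obtain ⟨β, hβ, f, f', m, rfl⟩ := hM
  obtain ⟨γ, hγ, g, g', m', rfl⟩ := hN
  refine ⟨β ⊕ γ, inferInstance, (Equiv.sumCongr f g).trans (Equiv.sumProdDistrib β γ (Fin 2)).symm,
    (Equiv.sumCongr f' g').trans (Equiv.sumProdDistrib β γ (Fin 2)).symm, Sum.elim m m', ?_⟩
  ext (i | i) (j | j)
  · simp [bdiag_apply]
  · simp [bdiag_apply]
  · simp [bdiag_apply]
  · simp [bdiag_apply]

theorem isLayer_diagonal {β : Type} [Fintype β] (e : ι ≃ β × Fin 2) (d : ι → ℂ) :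
    IsLayer (Matrix.diagonal d) := by
  classical
  refine ⟨β, inferInstance, e, e, fun b => Matrix.diagonal (fun k => d (e.symm (b, k))), ?_⟩
  ext i j
  rw [submatrix_apply, bdiag_apply]
  by_cases h : i = j
  · subst h
    simp
  · rw [diagonal_apply_ne _ h]
    by_cases h1 : (e i).1 = (e j).1
    · rw [if_pos h1]
      have h2 : (e i).2 ≠ (e j).2 := fun h2 => h (e.injective (Prod.ext h1 h2))
      rw [diagonal_apply_ne _ h2]
    · rw [if_neg h1]

/-- pairs `(inl i, inr i)`. -/
theorem isLayer_fromBlocks_diagonal (a b c d : ι → ℂ) :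
    IsLayer (Matrix.fromBlocks (Matrix.diagonal a) (Matrix.diagonal b) (Matrix.diagonal c)
      (Matrix.diagonal d)) := by
  classical
  let e : (ι ⊕ ι) ≃ ι × Fin 2 :=
    { toFun := Sum.elim (fun i => (i, 0)) (fun i => (i, 1))
      invFun := fun p => if p.2 = 0 then Sum.inl p.1 else Sum.inr p.1
      left_inv := by rintro (i | i) <;> simp
      right_inv := by
        rintro ⟨i, k⟩
        fin_cases k <;> simp }
  refine ⟨ι, inferInstance, e, e, fun i => !![a i, b i; c i, d i], ?_⟩
  ext (i | i) (j | j) <;> simp [e, bdiag_apply, diagonal_apply]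

theorem Lay.comp {a b : ℕ} {M N : Matrix ι ι ℂ} (hM : Lay a M) (hN : Lay b N) :
    Lay (a + b) (M * N) := by
  induction hM with
  | one => simpa using hN
  | mul hL _ ih =>
    rw [Matrix.mul_assoc]
    have := Lay.mul hL ih
    convert this using 1
    ring

theorem Lay.single {M : Matrix ι ι ℂ} (hM : IsLayer M) : Lay 1 M := by
  have := Lay.mul hM Lay.one
  simpa using this

/-- pad by identity layers. -/
theorem Lay.pad {a b : ℕ} {M : Matrix ι ι ℂ} (hM : Lay a M) (hab : a ≤ b)
    (h1 : IsLayer (1 : Matrix ι ι ℂ)) : Lay b M := by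
  induction b, hab using Nat.le_induction with
  | base => exact hM
  | succ n hn ih =>
    have := Lay.mul h1 ih
    simpa using this

theorem Lay.transpose {a : ℕ} {M : Matrix ι ι ℂ} (hM : Lay a M) : Lay a Mᵀ := by
  induction hM with
  | one => simpa using Lay.one
  | mul hL _ ih =>
    rw [Matrix.transpose_mul]
    exact Lay.comp ih (Lay.single hL.transpose)

theorem Lay.reindex {a : ℕ} {M : Matrix ι ι ℂ} (hM : Lay a M) (e : ι' ≃ ι) :
    Lay a (M.submatrix e e) := by
  induction hM with
  | one =>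
    rw [submatrix_one_equiv]
    exact Lay.one
  | mul hL _ ih =>
    rw [← submatrix_mul_equiv _ _ e e e]
    exact Lay.mul (hL.submatrix e e) ih

/-- different relabelling of rows and columns: one more layer is enough (a permutation matrix). -/
theorem Lay.reindex' {a : ℕ} {M : Matrix ι ι ℂ} (hM : Lay a M) (e e' : ι' ≃ ι)
    (h1 : IsLayer (1 : Matrix ι' ι' ℂ)) : Lay (a + 1) (M.submatrix e e') := by
  have h2 : Lay a (M.submatrix e' e') := hM.reindex e'
  have h3 : IsLayer ((1 : Matrix ι' ι' ℂ).submatrix (e.trans e'.symm) (Equiv.refl ι')) :=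
    h1.submatrix _ _
  have h4 := Lay.mul h3 h2
  have h5 : (1 : Matrix ι' ι' ℂ).submatrix (e.trans e'.symm) (Equiv.refl ι') * M.submatrix e' e' =
      M.submatrix e e' := by
    rw [show M.submatrix e' e' = (M.submatrix e' e').submatrix (Equiv.refl ι') id from rfl]
    rw [submatrix_mul_equiv]
    ext i j
    simp
  rwa [h5] at h4

theorem Lay.sum {a : ℕ} {M : Matrix ι ι ℂ} {N : Matrix ι' ι' ℂ} (hM : Lay a M) (hN : Lay a N) :
    Lay a (Matrix.fromBlocks M 0 0 N) := by
  induction a generalizing M N with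
  | zero =>
    cases hM; cases hN
    rw [fromBlocks_one]
    exact Lay.one
  | succ a ih =>
    cases hM with
    | mul hL hM' =>
      cases hN with
      | mul hL' hN' =>
        have := Lay.mul (hL.sum hL') (ih hM' hN')
        rw [fromBlocks_multiply] at this
        simpa using this

end Crest.Agent.FC
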