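import Crest.Agent.FC.Cost
import Crest.Agent.FC.Tens
import Crest.Agent.FC.Lay

/-! T16 (row 324): cost of a tensor product of matrices with the same number of layers.

By induction on `ℓ` (all `M i` have exactly `ℓ` layers: invert `Lay`), `tens_mul`, `cost_mul_le`;
`ℓ = 0`: `tens_one`, `cost_one_eq`. One layer: `M i = (bdiag (m i)).submatrix (e i) (e' i)` with
`e i, e' i : σ i ≃ β i × Fin 2`, `card (β i) = b i`; reindexing `∀ i, σ i ≃ (∀ i, β i) × (Fin k → Fin 2)`
(separately for rows and columns) the matrix `tens M` becomes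
`bdiag (fun B : ∀ i, β i => tens (fun i => m i (B i)))`; `cost_bdiag_le` and `hT`. -/

set_option autoImplicit false

namespace Crest.Agent.FC

open Matrix

/-- reindexing of a product of types `σ i ≃ β i × Fin 2` -/
def layE {k : ℕ} {σ β : Fin k → Type} (e : ∀ i, σ i ≃ β i × Fin 2) :
    (∀ i, σ i) ≃ (∀ i, β i) × (Fin k → Fin 2) where
  toFun s := (fun i => (e i (s i)).1, fun i => (e i (s i)).2)
  invFun p := fun i => (e i).symm (p.1 i, p.2 i)
  left_inv s := by
    funext i
    simp
  right_inv p := by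
    ext i <;> simp

theorem tens_layer_eq {k : ℕ} {σ β : Fin k → Type} (e e' : ∀ i, σ i ≃ β i × Fin 2)
    (m : ∀ i, β i → Matrix (Fin 2) (Fin 2) ℂ) :
    tens (fun i => (bdiag (m i)).submatrix (e i) (e' i)) =
      (bdiag (fun B : ∀ i, β i => tens (σ := fun _ : Fin k => Fin 2)
        (fun i => m i (B i)))).submatrix (layE e) (layE e') := by
  classical
  ext s t
  rw [Matrix.submatrix_apply, bdiag_apply]
  show ∏ i, (bdiag (m i)) (e i (s i)) (e' i (t i)) = _
  simp only [bdiag_apply]
  rw [Finset.prod_ite_zero]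
  by_cases h : ∀ i, (e i (s i)).1 = (e' i (t i)).1
  · have h1 : (layE e s).1 = (layE e' t).1 := funext h
    rw [if_pos (fun i _ => h i)]
    refine Eq.trans ?_ (if_pos h1).symm
    rfl
  · have h1 : ¬ (layE e s).1 = (layE e' t).1 := fun h' => h (congrFun h')
    rw [if_neg (fun h' => h fun i => h' i (Finset.mem_univ i))]
    exact (if_neg h1).symm

theorem cost_tens_layer {k : ℕ} {σ : Fin k → Type} [∀ i, Fintype (σ i)] [∀ i, DecidableEq (σ i)]
    (M : ∀ i, Matrix (σ i) (σ i) ℂ) (hM : ∀ i, IsLayer (M i)) (b : Fin k → ℕ)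
    (hb : ∀ i, Fintype.card (σ i) = 2 * b i) (T : ℕ)
    (hT : ∀ m : Fin k → Matrix (Fin 2) (Fin 2) ℂ,
      cost (tens (σ := fun _ : Fin k => Fin 2) m) ≤ T) :
    cost (tens M) ≤ (∏ i, b i) * T := by
  classical
  choose β fβ e e' m hm using hM
  have hM' : M = fun i => (bdiag (m i)).submatrix (e i) (e' i) := funext hm
  have hcard : ∀ i, Fintype.card (β i) = b i := by
    intro i
    have h1 := Fintype.card_congr (e i)
    rw [hb i, Fintype.card_prod, Fintype.card_fin] at h1
    omega
  rw [hM', tens_layer_eq e e' m]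
  refine (cost_submatrix_le _ _ _ (layE e').injective).trans ?_
  refine (cost_bdiag_le _).trans ?_
  refine (Finset.sum_le_sum fun B _ => hT _).trans ?_
  rw [Finset.sum_const, smul_eq_mul, Finset.card_univ, Fintype.card_pi]
  exact (congrArg (· * T) (Finset.prod_congr rfl fun i _ => hcard i)).le

theorem cost_tens_lay {k : ℕ} {σ : Fin k → Type} [∀ i, Fintype (σ i)] [∀ i, DecidableEq (σ i)]
    (M : ∀ i, Matrix (σ i) (σ i) ℂ) (ℓ : ℕ) (hM : ∀ i, Lay ℓ (M i)) (b : Fin k → ℕ)
    (hb : ∀ i, Fintype.card (σ i) = 2 * b i) (T : ℕ)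
    (hT : ∀ m : Fin k → Matrix (Fin 2) (Fin 2) ℂ,
      cost (tens (σ := fun _ : Fin k => Fin 2) m) ≤ T) :
    cost (tens M) ≤ ℓ * ((∏ i, b i) * T) := by
  induction ℓ generalizing M with
  | zero =>
    have h1 : M = fun i => (1 : Matrix (σ i) (σ i) ℂ) := by
      funext i
      have h2 := hM i
      generalize M i = X at h2
      cases h2 with
      | one => rfl
    rw [h1, tens_one, cost_one_eq]
    exact Nat.zero_le _
  | succ ℓ ih =>
    have h1 : ∀ i, ∃ L M' : Matrix (σ i) (σ i) ℂ, IsLayer L ∧ Lay ℓ M' ∧ M i = L * M' := by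
      intro i
      have h2 := hM i
      generalize M i = X at h2
      cases h2 with
      | mul hL hM' => exact ⟨_, _, hL, hM', rfl⟩
    choose L M' hL hM' hmul using h1
    have h3 : M = fun i => L i * M' i := funext hmul
    rw [h3, tens_mul]
    refine (cost_mul_le _ _).trans ?_
    have h4 := cost_tens_layer L hL b hb T hT
    have h5 := ih M' hM'
    calc cost (tens L) + cost (tens M') ≤ (∏ i, b i) * T + ℓ * ((∏ i, b i) * T) :=
          add_le_add h4 h5
      _ = (ℓ + 1) * ((∏ i, b i) * T) := by ring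

end Crest.Agent.FC
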