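import Crest.Agent.FC.TwoByTwo
import Crest.Agent.FC.LayTens
import Crest.Agent.FC.FQ
import Crest.Agent.FC.CircConv
import Crest.Agent.FC.Bluestein

/-! T26 (row 324): assembly: cost of the DFT for given moduli.
`lay_fourier` for each `i` (pad to `C0 * A` layers with `Lay.pad`, `isLayer_one_pow`),
`cost_tens_lay` with `b i = 2^(bb i - 1)`, `T = ⌊C 2^k (k+1)^th⌋`; `tens (Fm (m i))` is a submatrix of
`tens F` (`tens_submatrix`, `cost_submatrix_le`, `ZMod.val`). `∏ 2^(bb i - 1) * 2^k = 2^(∑ bb)`. -/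

set_option autoImplicit false

namespace Crest.Agent.FC

open Matrix Crest.FourierCircuit

theorem dft_cost : ∃ C : ℝ, 0 < C ∧ ∀ (n k A : ℕ) (m bb : Fin k → ℕ), 1 ≤ n →
    (∀ i, 1 ≤ bb i ∧ bb i ≤ A) → (∀ i, 1 ≤ m i ∧ m i ≤ 2 ^ (bb i)) →
    (Pairwise fun i j => Nat.Coprime (m i) (m j)) → 2 * n ≤ ∏ i, m i →
    (cost (dftMatrix n) : ℝ) ≤ C * 2 ^ (∑ i, bb i) * A * ((k : ℝ) + 1) ^ th := by
  obtain ⟨C1, hC1, h1⟩ := tens_two_bound
  obtain ⟨C0, h0⟩ := lay_fourier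
  refine ⟨2 * C0 * C1 + 3, by positivity, ?_⟩
  intro n k A m bb hn hbb hm hco hN
  have : ∀ i, NeZero (m i) := fun i => ⟨by have := (hm i).1; omega⟩
  -- the matrices `F i`
  choose F hF1 hF2 using fun i => h0 (bb i) (m i) (hbb i).1 (hm i).1 (hm i).2
  have hF3 : ∀ i, Lay (C0 * A) (F i) := fun i =>
    (hF1 i).pad (Nat.mul_le_mul_left _ (hbb i).2) (isLayer_one_pow (bb i) (hbb i).1)
  set K : ℝ := ((k : ℝ) + 1) ^ th with hK
  have hth : (0 : ℝ) ≤ th := by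
    unfold th
    norm_num
  have hK1 : 1 ≤ K := Real.one_le_rpow (by linarith [Nat.cast_nonneg (α := ℝ) k]) hth
  -- cost of the tensor product of the `F i`
  have hT : ∀ M : Fin k → Matrix (Fin 2) (Fin 2) ℂ,
      cost (tens (σ := fun _ : Fin k => Fin 2) M) ≤ ⌊C1 * 2 ^ k * K⌋₊ := by
    intro M
    exact Nat.le_floor (h1 k M)
  have hcF := cost_tens_lay (σ := fun i => Fin (2 ^ bb i)) F (C0 * A) hF3
    (fun i => 2 ^ (bb i - 1)) (fun i => by
      rw [Fintype.card_fin, ← pow_succ']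
      congr 1
      have := (hbb i).1
      omega) _ hT
  have hcF' : (cost (tens F) : ℝ) ≤ C0 * C1 * 2 ^ (∑ i, bb i) * A * K := by
    have e1 : ((cost (tens F) : ℕ) : ℝ) ≤
        ((C0 * A * ((∏ i, 2 ^ (bb i - 1)) * ⌊C1 * 2 ^ k * K⌋₊) : ℕ) : ℝ) := by
      exact_mod_cast hcF
    refine e1.trans ?_
    push_cast
    have e2 : ((⌊C1 * 2 ^ k * K⌋₊ : ℕ) : ℝ) ≤ C1 * 2 ^ k * K := Nat.floor_le (by positivity)
    have e3 : (∏ i, (2 : ℝ) ^ (bb i - 1)) * 2 ^ k = 2 ^ (∑ i, bb i) := by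
      have : (2 : ℝ) ^ k = ∏ _i : Fin k, (2 : ℝ) := by simp
      rw [this, ← Finset.prod_mul_distrib, ← Finset.prod_pow_eq_pow_sum]
      refine Finset.prod_congr rfl (fun i _ => ?_)
      rw [← pow_succ]
      congr 1
      have := (hbb i).1
      omega
    calc (C0 : ℝ) * A * ((∏ i, (2 : ℝ) ^ (bb i - 1)) * (⌊C1 * 2 ^ k * K⌋₊ : ℕ))
        ≤ (C0 : ℝ) * A * ((∏ i, (2 : ℝ) ^ (bb i - 1)) * (C1 * 2 ^ k * K)) := by
          gcongr
      _ = C0 * C1 * ((∏ i, (2 : ℝ) ^ (bb i - 1)) * 2 ^ k) * A * K := by ring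
      _ = _ := by rw [e3]
  -- submatrix
  let f : ∀ i, ZMod (m i) → Fin (2 ^ bb i) := fun i z =>
    ⟨z.val, lt_of_lt_of_le (ZMod.val_lt z) (hm i).2⟩
  have hf : ∀ i, Function.Injective (f i) := by
    intro i z w hzw
    exact ZMod.val_injective _ (congrArg Fin.val hzw)
  have hFm : (fun i => Fm (m i)) = fun i => (F i).submatrix (f i) (f i) := by
    funext i
    ext s t
    rw [submatrix_apply, hF2 i (f i s) (f i t) (ZMod.val_lt s) (ZMod.val_lt t)]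
    rfl
  have hsub : cost (tens (fun i => Fm (m i))) ≤ cost (tens F) := by
    rw [hFm, tens_submatrix F f f]
    refine cost_submatrix_le _ _ _ ?_
    intro s t hst
    funext i
    exact hf i (congrFun hst i)
  -- assembly
  obtain ⟨h, hh⟩ := bluestein n hn k m hco hN
  have h2 := cost_circ k m h
  have hk : 0 < k := by
    rcases Nat.eq_zero_or_pos k with hk | hk
    · subst hk
      simp at hN
      omega
    · exact hk
  have hA : 1 ≤ A := (hbb ⟨0, hk⟩).1.trans (hbb ⟨0, hk⟩).2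
  have hP : ((∏ i, m i : ℕ) : ℝ) ≤ 2 ^ (∑ i, bb i) := by
    have : (∏ i, m i) ≤ 2 ^ (∑ i, bb i) := by
      rw [← Finset.prod_pow_eq_pow_sum]
      exact Finset.prod_le_prod' (fun i _ => (hm i).2)
    exact_mod_cast this
  have hNR : (2 * n : ℝ) ≤ ((∏ i, m i : ℕ) : ℝ) := by exact_mod_cast hN
  have hsub' : (cost (tens (fun i => Fm (m i))) : ℝ) ≤ (cost (tens F) : ℝ) := by
    exact_mod_cast hsub
  have hh' : (cost (dftMatrix n) : ℝ) ≤ 2 * n + cost (circ h) := by exact_mod_cast hh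
  have h2' : (cost (circ h) : ℝ) ≤ 2 * cost (tens (fun i => Fm (m i))) +
      2 * ((∏ i, m i : ℕ) : ℝ) := by exact_mod_cast h2
  have hA' : (1 : ℝ) ≤ A := by exact_mod_cast hA
  have hAK : (1 : ℝ) ≤ A * K := by nlinarith
  have hQ : (0 : ℝ) < 2 ^ (∑ i, bb i) := by positivity
  have hfin : 3 * (2 : ℝ) ^ (∑ i, bb i) ≤ 3 * (2 : ℝ) ^ (∑ i, bb i) * (A * K) :=
    le_mul_of_one_le_right (by positivity) hAK
  calc (cost (dftMatrix n) : ℝ) ≤ 2 * (C0 * C1 * 2 ^ (∑ i, bb i) * A * K) +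
        3 * (2 : ℝ) ^ (∑ i, bb i) := by linarith
    _ ≤ 2 * (C0 * C1 * 2 ^ (∑ i, bb i) * A * K) + 3 * (2 : ℝ) ^ (∑ i, bb i) * (A * K) := by
        linarith
    _ = _ := by ring

end Crest.Agent.FC
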