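import Crest.Agent.FC.Lay

/-! T18 (row 324): power-of-two FFT in `O(a)` layers (for the doubled matrix `F ⊕ F`).

`dftMatrix (2^(a+1))`, rows `s = s' + 2^a β` (`β ∈ {0,1}`), columns `t = 2 t' + γ`:
`w^(s t) = (w²)^(s' t') * w^(s' γ) * (-1)^(β γ)`, hence
`F_{a+1} = (fromBlocks 1 Ω 1 (-Ω) * fromBlocks F_a 0 0 F_a).submatrix e1 e2`, `Ω = diagonal w^s'`,
`e1 : Fin (2^(a+1)) ≃ Fin (2^a) ⊕ Fin (2^a)` the row split and `e2` the column split.
Then `dbl F_{a+1}`: use `isLayer_fromBlocks_diagonal`, `IsLayer.sum`, `Lay.sum` (applied to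
`dbl F_a` twice), `Lay.reindex'`. `a = 0`: `F_0 = 1`, `dbl 1 = 1`. -/

set_option autoImplicit false

namespace Crest.Agent.FC

open Matrix Crest.FourierCircuit

/-- row split: `inl s ↦ s`, `inr s ↦ n + s`. -/
theorem fft_row (n N : ℕ) (h : N = n + n) :
    ∃ g : (Fin n ⊕ Fin n) ≃ Fin N, (∀ s : Fin n, (g (Sum.inl s) : ℕ) = s) ∧
      (∀ s : Fin n, (g (Sum.inr s) : ℕ) = n + s) := by
  refine ⟨finSumFinEquiv.trans (finCongr h.symm), fun s => ?_, fun s => ?_⟩
  · simp
  · simp [add_comm]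

/-- column split: `inl t ↦ 2 t`, `inr t ↦ 2 t + 1`. -/
theorem fft_col (n N : ℕ) (h : N = n + n) :
    ∃ g : (Fin n ⊕ Fin n) ≃ Fin N, (∀ s : Fin n, (g (Sum.inl s) : ℕ) = 2 * s) ∧
      (∀ s : Fin n, (g (Sum.inr s) : ℕ) = 2 * s + 1) := by
  let f : (Fin n ⊕ Fin n) → Fin N := fun x =>
    Sum.elim (fun s : Fin n => (⟨2 * s, by omega⟩ : Fin N))
      (fun s : Fin n => (⟨2 * s + 1, by omega⟩ : Fin N)) x
  have hf : Function.Bijective f := by
    rw [Fintype.bijective_iff_injective_and_card]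
    constructor
    · rintro (s | s) (t | t) hst <;> simp only [f, Sum.elim_inl, Sum.elim_inr, Fin.mk.injEq] at hst
      · congr 1; ext; omega
      · omega
      · omega
      · congr 1; ext; omega
    · simp [h]
  refine ⟨Equiv.ofBijective f hf, ?_, ?_⟩ <;> intro s <;> simp [f]

theorem isLayer_one_sum {ι : Type} [Fintype ι] [DecidableEq ι] :
    IsLayer (1 : Matrix (ι ⊕ ι) (ι ⊕ ι) ℂ) := by
  have h := isLayer_fromBlocks_diagonal (ι := ι) (fun _ => 1) (fun _ => 0) (fun _ => 0) (fun _ => 1)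
  have h1 : (diagonal fun _ : ι => (1 : ℂ)) = 1 := diagonal_one
  have h0 : (diagonal fun _ : ι => (0 : ℂ)) = 0 := diagonal_zero
  rwa [h1, h0, fromBlocks_one] at h

/-- primitive root facts. -/
theorem fft_root (n N : ℕ) (hn : 0 < n) (h : N = n + n) :
    Complex.exp (2 * Real.pi * Complex.I / (N : ℂ)) ^ 2
      = Complex.exp (2 * Real.pi * Complex.I / (n : ℂ)) ∧
    Complex.exp (2 * Real.pi * Complex.I / (N : ℂ)) ^ n = -1 := by
  have hn' : (n : ℂ) ≠ 0 := by exact_mod_cast hn.ne'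
  constructor
  · rw [← Complex.exp_nat_mul]
    congr 1
    rw [h]; push_cast
    field_simp
    ring
  · rw [← Complex.exp_nat_mul, ← Complex.exp_pi_mul_I]
    congr 1
    rw [h]; push_cast
    field_simp
    ring

/-- radix-2 step. -/
theorem fft_split (n N : ℕ) (hn : 0 < n) (h : N = n + n)
    (g1 g2 : (Fin n ⊕ Fin n) ≃ Fin N)
    (h1l : ∀ s : Fin n, (g1 (Sum.inl s) : ℕ) = s) (h1r : ∀ s : Fin n, (g1 (Sum.inr s) : ℕ) = n + s)
    (h2l : ∀ s : Fin n, (g2 (Sum.inl s) : ℕ) = 2 * s)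
    (h2r : ∀ s : Fin n, (g2 (Sum.inr s) : ℕ) = 2 * s + 1) :
    (dftMatrix N).submatrix g1 g2 =
      fromBlocks (diagonal fun _ : Fin n => (1 : ℂ))
        (diagonal fun s : Fin n => Complex.exp (2 * Real.pi * Complex.I / (N : ℂ)) ^ (s : ℕ))
        (diagonal fun _ : Fin n => (1 : ℂ))
        (diagonal fun s : Fin n => -Complex.exp (2 * Real.pi * Complex.I / (N : ℂ)) ^ (s : ℕ))
      * dbl (dftMatrix n) := by
  obtain ⟨hw2, hwn⟩ := fft_root n N hn h
  unfold dbl dftMatrix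
  generalize Complex.exp (2 * Real.pi * Complex.I / (N : ℂ)) = w at *
  generalize Complex.exp (2 * Real.pi * Complex.I / (n : ℂ)) = v at *
  subst hw2
  rw [fromBlocks_multiply]
  have e1 : w ^ (n * 2) = 1 := by rw [pow_mul, hwn]; norm_num
  ext (s | s) (t | t)
  · simp only [submatrix_apply, of_apply, h1l, h2l, fromBlocks_apply₁₁, diagonal_mul,
      Matrix.mul_zero, add_zero, one_mul]
    rw [← pow_mul]; congr 1; ring
  · simp only [submatrix_apply, of_apply, h1l, h2r, fromBlocks_apply₁₂, diagonal_mul,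
      Matrix.mul_zero, zero_add]
    rw [← pow_mul, ← pow_add]; congr 1; ring
  · simp only [submatrix_apply, of_apply, h1r, h2l, fromBlocks_apply₂₁, diagonal_mul,
      Matrix.mul_zero, add_zero, one_mul]
    rw [← pow_mul]
    have : (n + (s : ℕ)) * (2 * (t : ℕ)) = (n * 2) * t + 2 * (s * t) := by ring
    rw [this, pow_add, pow_mul, e1, one_pow, one_mul]
  · simp only [submatrix_apply, of_apply, h1r, h2r, fromBlocks_apply₂₂, diagonal_mul,
      Matrix.mul_zero, zero_add]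
    rw [← pow_mul]
    have : (n + (s : ℕ)) * (2 * (t : ℕ) + 1) = (n * 2) * t + n + s + 2 * (s * t) := by ring
    rw [this, pow_add, pow_add, pow_add, pow_mul, e1, one_pow, one_mul, hwn]
    ring

theorem fft_step (n N : ℕ) (hn : 0 < n) (h : N = n + n) (c : ℕ)
    (hL : Lay c (dbl (dftMatrix n))) : Lay (c + 2) (dbl (dftMatrix N)) := by
  obtain ⟨g1, h1l, h1r⟩ := fft_row n N h
  obtain ⟨g2, h2l, h2r⟩ := fft_col n N h
  have hs := fft_split n N hn h g1 g2 h1l h1r h2l h2r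
  have hP := isLayer_fromBlocks_diagonal (ι := Fin n) (fun _ => (1 : ℂ))
    (fun s : Fin n => Complex.exp (2 * Real.pi * Complex.I / (N : ℂ)) ^ (s : ℕ))
    (fun _ => (1 : ℂ))
    (fun s : Fin n => -Complex.exp (2 * Real.pi * Complex.I / (N : ℂ)) ^ (s : ℕ))
  set P : Matrix (Fin n ⊕ Fin n) (Fin n ⊕ Fin n) ℂ :=
    fromBlocks (diagonal fun _ : Fin n => (1 : ℂ))
        (diagonal fun s : Fin n => Complex.exp (2 * Real.pi * Complex.I / (N : ℂ)) ^ (s : ℕ))
        (diagonal fun _ : Fin n => (1 : ℂ))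
        (diagonal fun s : Fin n => -Complex.exp (2 * Real.pi * Complex.I / (N : ℂ)) ^ (s : ℕ))
    with hPdef
  have hPP : IsLayer (fromBlocks P 0 0 P) := hP.sum hP
  have hLL : Lay c (fromBlocks (dbl (dftMatrix n)) 0 0 (dbl (dftMatrix n))) := hL.sum hL
  have hprod : Lay (c + 1)
      (fromBlocks P 0 0 P * fromBlocks (dbl (dftMatrix n)) 0 0 (dbl (dftMatrix n))) :=
    Lay.mul hPP hLL
  have hfin := Lay.reindex' hprod (Equiv.sumCongr g1.symm g1.symm) (Equiv.sumCongr g2.symm g2.symm)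
    isLayer_one_sum
  have heq : dbl (dftMatrix N) =
      (fromBlocks P 0 0 P * fromBlocks (dbl (dftMatrix n)) 0 0 (dbl (dftMatrix n))).submatrix
        (Equiv.sumCongr g1.symm g1.symm) (Equiv.sumCongr g2.symm g2.symm) := by
    rw [fromBlocks_multiply]
    simp only [Matrix.mul_zero, Matrix.zero_mul, add_zero, zero_add]
    rw [← hs]
    ext (s | s) (t | t) <;> simp [dbl]
  rw [heq]
  exact hfin

theorem lay_fft : ∃ C : ℕ, ∀ a : ℕ, Lay (C * (a + 1)) (dbl (dftMatrix (2 ^ a))) := by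
  refine ⟨2, fun a => ?_⟩
  induction a with
  | zero =>
    have h1 : dbl (dftMatrix (2 ^ 0)) = 1 := by
      unfold dbl dftMatrix
      rw [← fromBlocks_one]
      congr 1
      · ext i j
        fin_cases i; fin_cases j; simp
      · ext i j
        fin_cases i; fin_cases j; simp
    rw [h1]
    exact Lay.pad Lay.one (Nat.zero_le _) isLayer_one_sum
  | succ a ih =>
    have := fft_step (2 ^ a) (2 ^ (a + 1)) (by positivity) (by ring) _ ih
    have e : 2 * (a + 1 + 1) = 2 * (a + 1) + 2 := by ring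
    rw [e]
    exact this

end Crest.Agent.FC
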