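import Mathlib

/-! T23 (row 324): choice of the moduli (elementary number theory + asymptotics).

For large `n` put `L = Nat.log 2 n`, `r = Nat.sqrt (Nat.sqrt L)` (so `r^4 ≤ L < (r+1)^4`),
`E = L + 4`, `a + 1 = (E-1)/r`, `e = E - (a+1) r ∈ [1, r]`, `k = r + 1`, `A = a + 1`,
`bb = (e, a+1, …, a+1)`, `∑ bb = E`, `2^E ≤ 16 n`. `m_0 = 2^e`,
`m_{j+1} = q_j = 1 + (s-j) r!`, `s = (2^(a+1)-1)/r!`, `0 ≤ j < r`:
`q_j ≤ 2^(a+1)`, `q_j ≥ 2^(a+1) - r r!`; pairwise coprime: a prime dividing `q_i, q_j` does not divide `r!`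
but divides `(i-j) r!`, so it divides `i-j`, hence is `≤ r` and divides `r!` (cf. `Nat.coprime_mul_succ`);
`q_j` is odd as `r ≥ 2`. `∏ q_j ≥ 2^((a+1)r) (1 - r r!/2^(a+1))^r ≥ 2^((a+1) r)/2` as
`2 r² r! ≤ 2^(a+1)` (`a + 1 ≥ r^3`, `r! ≤ r^r ≤ 2^(r²)`, `r` large), so
`∏ m ≥ 2^E/2 = 2^(L+3) ≥ 2 n`. `A (k+1) ≤ (E/r)(r+2) ≤ 3E ≤ C log n`,
`(log n)^(1/4) ≤ (L+1)^(1/4) ≤ C (k+1)`. -/

set_option autoImplicit false

namespace Crest.Agent.FC

open Finset

/-- the moduli `q_j` -/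
private def modq (r b j : ℕ) : ℕ := 1 + ((2 ^ b - 1) / r.factorial - j) * r.factorial

private lemma modq_le {r b j : ℕ} : modq r b j ≤ 2 ^ b := by
  unfold modq
  have h1 : ((2 ^ b - 1) / r.factorial - j) * r.factorial ≤ (2 ^ b - 1) / r.factorial * r.factorial :=
    Nat.mul_le_mul_right _ (Nat.sub_le _ _)
  have h2 : (2 ^ b - 1) / r.factorial * r.factorial ≤ 2 ^ b - 1 := Nat.div_mul_le_self _ _
  have h3 : 1 ≤ 2 ^ b := Nat.one_le_two_pow
  omega

private lemma le_modq {r b j : ℕ} (hj : j < r) (hb : r * r.factorial ≤ 2 ^ b) :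
    2 ^ b ≤ modq r b j + r * r.factorial := by
  unfold modq
  set F := r.factorial with hF
  have hFpos : 0 < F := Nat.factorial_pos r
  set s := (2 ^ b - 1) / F with hs
  have h2 : 2 ^ b - 1 < (s + 1) * F := by
    have h := Nat.lt_mul_div_succ (2 ^ b - 1) hFpos
    rw [mul_comm] at h
    exact h
  have hone : 1 ≤ 2 ^ b := Nat.one_le_two_pow
  -- s ≥ j since r F ≤ 2^b
  have hsj : j ≤ s := by
    by_contra hlt
    push Not at hlt
    have h3 : (s + 1) * F ≤ j * F := Nat.mul_le_mul_right _ hlt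
    have h4 : (j + 1) * F ≤ r * F := Nat.mul_le_mul_right _ hj
    have h5 : (j + 1) * F = j * F + F := by ring
    omega
  have h6 : (s - j) * F = s * F - j * F := Nat.sub_mul _ _ _
  have h7 : j * F ≤ s * F := Nat.mul_le_mul_right _ hsj
  have h8 : (j + 1) * F ≤ r * F := Nat.mul_le_mul_right _ hj
  have h9 : (j + 1) * F = j * F + F := by ring
  have h10 : (s + 1) * F = s * F + F := by ring
  omega

private lemma coprime_modq {r b i j : ℕ} (hi : i < r) (hj : j < r) (hij : i ≠ j)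
    (hb : r * r.factorial ≤ 2 ^ b) : Nat.Coprime (modq r b i) (modq r b j) := by
  wlog hlt : i < j generalizing i j
  · exact (this hj hi (Ne.symm hij) (by omega)).symm
  rw [Nat.coprime_iff_gcd_eq_one] 
  by_contra hne
  obtain ⟨p, hp, hpd⟩ := Nat.exists_prime_and_dvd hne
  have h1 : p ∣ modq r b i := hpd.trans (Nat.gcd_dvd_left _ _)
  have h2 : p ∣ modq r b j := hpd.trans (Nat.gcd_dvd_right _ _)
  unfold modq at h1 h2
  set F := r.factorial with hF
  have hFpos : 0 < F := Nat.factorial_pos r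
  set s := (2 ^ b - 1) / F with hs
  have h3 : 2 ^ b - 1 < (s + 1) * F := by
    have h := Nat.lt_mul_div_succ (2 ^ b - 1) hFpos
    rw [mul_comm] at h
    exact h
  have hone : 1 ≤ 2 ^ b := Nat.one_le_two_pow
  have hsj : j ≤ s := by
    by_contra hlt'
    push Not at hlt'
    have h3' : (s + 1) * F ≤ j * F := Nat.mul_le_mul_right _ hlt'
    have h4 : (j + 1) * F ≤ r * F := Nat.mul_le_mul_right _ hj
    have h5 : (j + 1) * F = j * F + F := by ring
    omega
  have hpF : ¬ p ∣ F := by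
    intro hd
    have h4 : p ∣ (s - i) * F := hd.mul_left _
    have h5 : p ∣ 1 := (Nat.dvd_add_left h4).1 h1
    exact hp.one_lt.ne' (Nat.dvd_one.1 h5)
  have h4 : p ∣ (1 + (s - i) * F) - (1 + (s - j) * F) := Nat.dvd_sub h1 h2
  have h5 : (1 + (s - i) * F) - (1 + (s - j) * F) = (j - i) * F := by
    have h6 : s - i = (s - j) + (j - i) := by omega
    rw [h6, add_mul]
    omega
  rw [h5] at h4
  rcases (hp.dvd_mul).1 h4 with h6 | h6
  · have h7 : p ≤ j - i := Nat.le_of_dvd (by omega) h6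
    exact hpF ((hp.dvd_factorial).2 (by omega))
  · exact hpF h6

private lemma coprime_two_pow_modq {r b e j : ℕ} (hr : 2 ≤ r) :
    Nat.Coprime (2 ^ e) (modq r b j) := by
  apply Nat.Coprime.pow_left
  rw [Nat.coprime_two_left]
  unfold modq
  have h1 : 2 ∣ r.factorial := Nat.dvd_factorial (by norm_num) hr
  obtain ⟨c, hc⟩ := h1
  rw [hc]
  exact ⟨((2 ^ b - 1) / (2 * c) - j) * c, by ring⟩

private lemma prod_modq {r b : ℕ} (hb : 2 * r ^ 2 * r.factorial ≤ 2 ^ b) (hr : 1 ≤ r) :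
    2 ^ (b * r) ≤ 2 * ∏ j : Fin r, modq r b j := by
  have hb1 : r * r.factorial ≤ 2 ^ b := by
    refine le_trans ?_ hb
    refine Nat.mul_le_mul_right _ ?_
    nlinarith
  have h1 : ∀ j : Fin r, (2 : ℝ) ^ b - r * r.factorial ≤ modq r b j := by
    intro j
    have := le_modq (b := b) j.2 hb1
    have h2 : ((2 ^ b : ℕ) : ℝ) ≤ ((modq r b j + r * r.factorial : ℕ) : ℝ) := by exact_mod_cast this
    push_cast at h2
    linarith
  have hb1' : (r : ℝ) * r.factorial ≤ 2 ^ b := by exact_mod_cast hb1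
  have h0 : (0 : ℝ) ≤ (2 : ℝ) ^ b - r * r.factorial := by linarith
  have h2 : ((2 : ℝ) ^ b - r * r.factorial) ^ r ≤ ∏ j : Fin r, (modq r b j : ℝ) := by
    calc ((2 : ℝ) ^ b - r * r.factorial) ^ r = ∏ _j : Fin r, ((2 : ℝ) ^ b - r * r.factorial) := by
          simp
      _ ≤ ∏ j : Fin r, (modq r b j : ℝ) := Finset.prod_le_prod (fun _ _ => h0) (fun j _ => h1 j)
  have hpos : (0 : ℝ) < 2 ^ b := by positivity
  have h3 : (2 : ℝ) ^ b - r * r.factorial = 2 ^ b * (1 + (-(r * r.factorial / 2 ^ b))) := by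
    field_simp
    ring
  have hle1 : (r : ℝ) * r.factorial / 2 ^ b ≤ 1 := by
    rw [div_le_one hpos]; exact hb1'
  have h4 : 1 + (r : ℝ) * (-(r * r.factorial / 2 ^ b)) ≤ (1 + (-(r * r.factorial / 2 ^ b))) ^ r :=
    one_add_mul_le_pow (by linarith) r
  have hb' : 2 * (r : ℝ) ^ 2 * r.factorial ≤ 2 ^ b := by exact_mod_cast hb
  have h5 : (r : ℝ) * (r * r.factorial / 2 ^ b) ≤ 1 / 2 := by
    rw [← mul_div_assoc, div_le_iff₀ hpos]
    nlinarith
  have h6 : (2 : ℝ) ^ (b * r) ≤ 2 * ((2 : ℝ) ^ b - r * r.factorial) ^ r := by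
    rw [h3, mul_pow, ← pow_mul]
    have h7 : (0 : ℝ) < (2 : ℝ) ^ (b * r) := by positivity
    have h8 : (1 / 2 : ℝ) ≤ (1 + (-(r * r.factorial / 2 ^ b))) ^ r := by
      refine le_trans ?_ h4
      linarith
    nlinarith
  have h9 : ((2 ^ (b * r) : ℕ) : ℝ) ≤ ((2 * ∏ j : Fin r, modq r b j : ℕ) : ℝ) := by
    push_cast
    linarith
  exact_mod_cast h9

private lemma bound_r {r b : ℕ} (hr : 3 ≤ r) (hb : r ^ 3 ≤ b) :
    2 * r ^ 2 * r.factorial ≤ 2 ^ b := by
  have h1 : r.factorial ≤ r ^ r := Nat.factorial_le_pow r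
  have h2 : r ≤ 2 ^ r := (Nat.lt_two_pow_self).le
  have h3 : r ^ r ≤ (2 ^ r) ^ r := Nat.pow_le_pow_left h2 r
  have h4 : r ^ 2 ≤ (2 ^ r) ^ 2 := Nat.pow_le_pow_left h2 2
  calc 2 * r ^ 2 * r.factorial ≤ 2 * (2 ^ r) ^ 2 * (2 ^ r) ^ r :=
        Nat.mul_le_mul (Nat.mul_le_mul_left _ h4) (h1.trans h3)
    _ = 2 ^ (1 + r * 2 + r * r) := by rw [← pow_mul, ← pow_mul, pow_add, pow_add, pow_one]
    _ ≤ 2 ^ b := by
        apply Nat.pow_le_pow_right (by norm_num)
        refine le_trans ?_ hb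
        nlinarith [Nat.mul_le_mul hr hr, Nat.mul_le_mul hr (le_refl (r * r))]

private lemma rpow_quarter {x : ℝ} (hx : 0 ≤ x) : (x ^ 4) ^ ((1 : ℝ) / 4) = x := by
  rw [← Real.rpow_natCast, ← Real.rpow_mul hx]
  norm_num

set_option maxHeartbeats 1000000 in
theorem moduli : ∃ (C : ℝ) (n0 : ℕ), 0 < C ∧ ∀ n : ℕ, n0 ≤ n →
    ∃ (k A : ℕ) (m bb : Fin k → ℕ),
      (∀ i, 1 ≤ bb i ∧ bb i ≤ A) ∧ (∀ i, 1 ≤ m i ∧ m i ≤ 2 ^ (bb i)) ∧
      (Pairwise fun i j => Nat.Coprime (m i) (m j)) ∧ 2 * n ≤ ∏ i, m i ∧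
      ((2 : ℝ) ^ (∑ i, bb i) ≤ C * n) ∧ ((A : ℝ) * (k + 1) ≤ C * Real.log n) ∧
      (Real.log n) ^ ((1 : ℝ) / 4) ≤ C * (k + 1) := by
  refine ⟨16, 2 ^ 81, by norm_num, ?_⟩
  intro n hn
  have hn0 : n ≠ 0 := by
    have : 0 < 2 ^ 81 := by positivity
    omega
  obtain ⟨L, hL⟩ : ∃ L, L = Nat.log 2 n := ⟨_, rfl⟩
  have hLlow : 2 ^ L ≤ n := by rw [hL]; exact Nat.pow_log_le_self 2 hn0
  have hLup : n < 2 ^ (L + 1) := by rw [hL]; exact Nat.lt_pow_succ_log_self (by norm_num) n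
  have hL81 : 81 ≤ L := by
    by_contra hlt
    push Not at hlt
    have : 2 ^ (L + 1) ≤ 2 ^ 81 := Nat.pow_le_pow_right (by norm_num) (by omega)
    omega
  obtain ⟨u, hu⟩ : ∃ u, u = Nat.sqrt L := ⟨_, rfl⟩
  obtain ⟨r, hrdef⟩ : ∃ r, r = Nat.sqrt u := ⟨_, rfl⟩
  have hu1 : u * u ≤ L := by rw [hu]; exact Nat.sqrt_le L
  have hu2 : L < (u + 1) * (u + 1) := by rw [hu]; exact Nat.lt_succ_sqrt L
  have hr1 : r * r ≤ u := by rw [hrdef]; exact Nat.sqrt_le u
  have hr2 : u < (r + 1) * (r + 1) := by rw [hrdef]; exact Nat.lt_succ_sqrt u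
  have hr3 : 3 ≤ r := by
    by_contra hlt
    push Not at hlt
    have h1 : u < 9 := by nlinarith
    have h2 : L < 81 := by nlinarith
    omega
  have hr4 : r ^ 4 ≤ L := by
    calc r ^ 4 = (r * r) * (r * r) := by ring
      _ ≤ u * u := Nat.mul_le_mul hr1 hr1
      _ ≤ L := hu1
  have hr5 : L + 1 ≤ (r + 1) ^ 4 := by
    calc L + 1 ≤ (u + 1) * (u + 1) := hu2
      _ ≤ ((r + 1) * (r + 1)) * ((r + 1) * (r + 1)) := Nat.mul_le_mul hr2 hr2
      _ = (r + 1) ^ 4 := by ring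
  obtain ⟨b, hbdef⟩ : ∃ b, b = (L + 3) / r := ⟨_, rfl⟩
  have hrpos : 0 < r := by omega
  have hbr : b * r ≤ L + 3 := by rw [hbdef]; exact Nat.div_mul_le_self _ _
  have hbr' : L + 3 < (b + 1) * r := by
    have h := Nat.lt_mul_div_succ (L + 3) hrpos
    rw [mul_comm, ← hbdef] at h
    exact h
  have hb3 : r ^ 3 ≤ b := by
    rw [hbdef, Nat.le_div_iff_mul_le hrpos]
    calc r ^ 3 * r = r ^ 4 := by ring
      _ ≤ L + 3 := by omega
  obtain ⟨e, hedef⟩ : ∃ e, e = L + 4 - b * r := ⟨_, rfl⟩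
  have he1 : 1 ≤ e := by omega
  have her : e ≤ r := by
    have : (b + 1) * r = b * r + r := by ring
    omega
  have hrb : r ≤ b := by
    refine le_trans ?_ hb3
    calc r = r * 1 := by ring
      _ ≤ r * (r * r) := Nat.mul_le_mul_left _ (by nlinarith)
      _ = r ^ 3 := by ring
  have heb : e ≤ b := her.trans hrb
  have hbb := bound_r hr3 hb3
  have hbb1 : r * r.factorial ≤ 2 ^ b := by
    refine le_trans ?_ hbb
    refine Nat.mul_le_mul_right _ ?_
    nlinarith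
  have hsum : e + r * b = L + 4 := by
    have : r * b = b * r := by ring
    omega
  have hlogpos : (0 : ℝ) < Real.log n := Real.log_pos (by
    have : 1 < n := lt_of_lt_of_le (by norm_num) hn
    exact_mod_cast this)
  have hlogL : (L : ℝ) * Real.log 2 ≤ Real.log n := by
    rw [← Real.log_pow]
    apply Real.log_le_log (by positivity)
    exact_mod_cast hLlow
  have hlogU : Real.log n ≤ ((L : ℝ) + 1) * Real.log 2 := by
    have h := Real.log_le_log (x := (n : ℝ)) (y := 2 ^ (L + 1)) (by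
      have : 0 < n := Nat.pos_of_ne_zero hn0
      exact_mod_cast this) (by exact_mod_cast hLup.le)
    rw [Real.log_pow] at h
    push_cast at h
    exact h
  have hlog2 : (0.69 : ℝ) < Real.log 2 := by
    have := Real.log_two_gt_d9
    linarith
  have hlog2' : Real.log 2 < 1 := by
    have := Real.log_two_lt_d9
    linarith
  refine ⟨r + 1, b, Fin.cons (2 ^ e) (fun j : Fin r => modq r b j),
    Fin.cons e (fun _ : Fin r => b), ?_, ?_, ?_, ?_, ?_, ?_, ?_⟩
  · intro i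
    refine Fin.cases ?_ (fun j => ?_) i
    · simp only [Fin.cons_zero]
      exact ⟨he1, heb⟩
    · simp only [Fin.cons_succ]
      exact ⟨by omega, le_refl _⟩
  · intro i
    refine Fin.cases ?_ (fun j => ?_) i
    · simp only [Fin.cons_zero]
      exact ⟨Nat.one_le_two_pow, le_refl _⟩
    · simp only [Fin.cons_succ]
      exact ⟨by unfold modq; omega, modq_le⟩
  · intro i j hij
    induction i using Fin.cases with
    | zero =>
      induction j using Fin.cases with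
      | zero => exact absurd rfl hij
      | succ j =>
        simp only [Fin.cons_zero, Fin.cons_succ]
        exact coprime_two_pow_modq (by omega)
    | succ i =>
      induction j using Fin.cases with
      | zero =>
        simp only [Fin.cons_zero, Fin.cons_succ]
        exact (coprime_two_pow_modq (by omega)).symm
      | succ j =>
        simp only [Fin.cons_succ]
        exact coprime_modq i.2 j.2 (fun h => hij (by rw [Fin.ext h])) hbb1
  · rw [Fin.prod_univ_succ]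
    simp only [Fin.cons_zero, Fin.cons_succ]
    have h1 := prod_modq hbb (by omega)
    have h2 : 2 ^ e * 2 ^ (b * r) = 2 ^ (L + 4) := by
      rw [← pow_add]
      congr 1
      rw [mul_comm b r]; exact hsum
    have h3 : 2 ^ (L + 4) = 8 * 2 ^ (L + 1) := by
      rw [pow_succ, pow_succ, pow_succ]; ring
    have h4 : 2 ^ e * 2 ^ (b * r) ≤ 2 ^ e * (2 * ∏ j : Fin r, modq r b j) :=
      Nat.mul_le_mul_left _ h1
    have h5 : 2 ^ e * (2 * ∏ j : Fin r, modq r b j) = 2 * (2 ^ e * ∏ j : Fin r, modq r b j) := by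
      ring
    omega
  · rw [Fin.sum_univ_succ]
    simp only [Fin.cons_zero, Fin.cons_succ, Finset.sum_const, Finset.card_univ, Fintype.card_fin,
      smul_eq_mul]
    rw [hsum, pow_add]
    have : ((2 ^ L : ℕ) : ℝ) ≤ (n : ℝ) := by exact_mod_cast hLlow
    push_cast at this
    linarith
  · have h1 : (b : ℝ) * r ≤ L + 3 := by exact_mod_cast hbr
    have h2 : (3 : ℝ) ≤ r := by exact_mod_cast hr3
    have h3 : (81 : ℝ) ≤ L := by exact_mod_cast hL81
    have h4 : (0 : ℝ) ≤ b := Nat.cast_nonneg b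
    push_cast
    have h5 : (b : ℝ) * (r + 1 + 1) ≤ 2 * ((b : ℝ) * r) := by nlinarith
    have h6 : (L : ℝ) * 0.69 ≤ Real.log n := by nlinarith
    linarith
  · have h1 : Real.log n ≤ ((r : ℝ) + 1) ^ 4 := by
      have h2 : (L : ℝ) + 1 ≤ ((r : ℝ) + 1) ^ 4 := by exact_mod_cast hr5
      have h3 : (0 : ℝ) ≤ (L : ℝ) + 1 := by positivity
      nlinarith
    have h2 : (Real.log n) ^ ((1 : ℝ) / 4) ≤ (((r : ℝ) + 1) ^ 4) ^ ((1 : ℝ) / 4) :=
      Real.rpow_le_rpow hlogpos.le h1 (by norm_num)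
    rw [rpow_quarter (by positivity)] at h2
    push_cast
    have h4 : (0 : ℝ) ≤ r := Nat.cast_nonneg r
    linarith

end Crest.Agent.FC
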