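import Mathlib
import Crest.Prelude.Def_LinCircuit

/-! T27 (row 324): `1 - θ ≈ 2.106e-13`. `θ = logb (10^6) (10^6 (1-δ))`, `δ = 6871402692000000/2^71/10^6
≈ 2.91e-12`: `1 - θ = -log(1-δ)/log(10^6) ≤ (δ/(1-δ))/13.8 ≤ 3e-13` (`log 10 > 2.3`: e.g.
`Real.log_two_gt_d9`, `log 10 > 3.3 * log 2`). -/

set_option autoImplicit false

namespace Crest.Agent.FC

open Crest.FourierCircuit

theorem savingExponent_bounds : 1 - 3 / 10 ^ 13 ≤ savingExponent ∧ savingExponent ≤ 1 := by
  unfold savingExponent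
  set lam : ℝ := 10 ^ 6 - 6871402692000000 / 2 ^ 71 with hlam
  have hpos : 0 < lam := by rw [hlam]; norm_num
  have hle : lam ≤ 10 ^ 6 := by rw [hlam]; norm_num
  have hlog : (13 : ℝ) ≤ Real.log (10 ^ 6) := by
    have h1 : Real.log ((2 : ℝ) ^ 19) ≤ Real.log (10 ^ 6) :=
      Real.log_le_log (by norm_num) (by norm_num)
    rw [Real.log_pow] at h1
    have h2 := Real.log_two_gt_d9
    push_cast at h1
    linarith
  have hlog0 : (0 : ℝ) < Real.log (10 ^ 6) := by linarith
  constructor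
  · rw [Real.logb, le_div_iff₀ hlog0]
    have h1 : 1 - (lam / 10 ^ 6)⁻¹ ≤ Real.log (lam / 10 ^ 6) :=
      Real.one_sub_inv_le_log_of_pos (by positivity)
    rw [Real.log_div hpos.ne' (by norm_num)] at h1
    have h2 : -(3 / 10 ^ 13 * 13) ≤ 1 - (lam / 10 ^ 6)⁻¹ := by
      rw [inv_div, hlam]
      norm_num
    generalize Real.log (10 ^ 6) = L at *
    generalize Real.log lam = M at *
    generalize (lam / 10 ^ 6)⁻¹ = K at *
    linarith
  · rw [Real.logb, div_le_one hlog0]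
    exact Real.log_le_log hpos hle

end Crest.Agent.FC
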