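import Crest.Agent.FC.DftCost
import Crest.Agent.FC.Moduli
import Crest.Agent.FC.SavingExp

/-! T28 (row 324): final asymptotics.
From `moduli` and `dft_cost`: `cost ≤ C5 C4 n * A (k+1)^th`,
`A (k+1)^th = A (k+1) (k+1)^(-ε) ≤ C4 log n * ((log n)^(1/4)/C4)^(-ε) = C (log n)^(1 - ε/4)`,
`ε/4 = 1.25e-12 ≥ 3e-13 ≥ 1 - savingExponent`; and `log n ≥ 1`, `log log n ≥ 1` for large `n`. -/

set_option autoImplicit false

namespace Crest.Agent.FC

open Crest.FourierCircuit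

theorem final_bound : ∃ C : ℝ, ∃ N₀ : ℕ, ∀ n ≥ N₀,
    (cost (dftMatrix n) : ℝ) ≤ C * n * Real.log n ^ savingExponent *
      Real.log (Real.log n) ^ (4 - savingExponent) := by
  obtain ⟨C5, hC5, hcost⟩ := dft_cost
  obtain ⟨C4, n0, hC4, hmod⟩ := moduli
  obtain ⟨hs1, hs2⟩ := savingExponent_bounds
  have hlim : Filter.Tendsto (fun n : ℕ => Real.log (n : ℝ)) Filter.atTop Filter.atTop :=
    Real.tendsto_log_atTop.comp tendsto_natCast_atTop_atTop
  obtain ⟨n1, hn1⟩ := (Filter.eventually_atTop.1 (hlim.eventually_ge_atTop (Real.exp 1)))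
  refine ⟨C5 * C4 * C4 * C4 ^ ((1 : ℝ) - th), max 1 (max n0 n1), fun n hn => ?_⟩
  have h1 : 1 ≤ n := (le_max_left _ _).trans hn
  have h2 : n0 ≤ n := ((le_max_left _ _).trans (le_max_right _ _)).trans hn
  have h3 : n1 ≤ n := ((le_max_right _ _).trans (le_max_right _ _)).trans hn
  have hlog : Real.exp 1 ≤ Real.log n := hn1 n h3
  have hlog1 : (1 : ℝ) ≤ Real.log n := (Real.one_le_exp (by norm_num)).trans hlog
  have hlog0 : (0 : ℝ) < Real.log n := by linarith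
  have hloglog : (1 : ℝ) ≤ Real.log (Real.log n) := by
    rwa [Real.le_log_iff_exp_le hlog0]
  obtain ⟨k, A, m, bb, hbb, hm, hcop, hprod, hsum, hA, hk⟩ := hmod n h2
  have hc := hcost n k A m bb h1 hbb hm hcop hprod
  have hth1 : (0 : ℝ) ≤ 1 - th := by unfold th; norm_num
  have hk0 : (0 : ℝ) < (k : ℝ) + 1 := by positivity
  have hn0 : (0 : ℝ) ≤ (n : ℝ) := by positivity
  have hA0 : (0 : ℝ) ≤ (A : ℝ) := by positivity
  -- (k+1)^th = (k+1) * (k+1)^(-(1-th))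
  have e1 : ((k : ℝ) + 1) ^ th = ((k : ℝ) + 1) * ((k : ℝ) + 1) ^ (-(1 - th)) := by
    nth_rewrite 2 [← Real.rpow_one ((k : ℝ) + 1)]
    rw [← Real.rpow_add hk0]
    congr 1; ring
  -- lower bound for k + 1
  have e2 : Real.log n ^ ((1 : ℝ) / 4) / C4 ≤ (k : ℝ) + 1 := by
    rw [div_le_iff₀ hC4, mul_comm]; exact hk
  have hbase : 0 < Real.log n ^ ((1 : ℝ) / 4) / C4 := by positivity
  have e3 : ((k : ℝ) + 1) ^ (-(1 - th)) ≤ (Real.log n ^ ((1 : ℝ) / 4) / C4) ^ (-(1 - th)) :=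
    Real.rpow_le_rpow_of_nonpos hbase e2 (by linarith)
  have e4 : (Real.log n ^ ((1 : ℝ) / 4) / C4) ^ (-(1 - th)) =
      Real.log n ^ (-((1 - th) / 4)) * C4 ^ ((1 : ℝ) - th) := by
    rw [Real.div_rpow (by positivity) hC4.le, ← Real.rpow_mul hlog0.le, Real.rpow_neg hC4.le,
      div_inv_eq_mul]
    congr 2; ring
  have e5 : (A : ℝ) * ((k : ℝ) + 1) ^ th ≤
      C4 * Real.log n * (Real.log n ^ (-((1 - th) / 4)) * C4 ^ ((1 : ℝ) - th)) := by
    rw [e1, ← mul_assoc]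
    refine mul_le_mul hA (e3.trans e4.le) (by positivity) (by positivity)
  have e6 : Real.log n * Real.log n ^ (-((1 - th) / 4)) ≤ Real.log n ^ savingExponent := by
    nth_rewrite 1 [← Real.rpow_one (Real.log n)]
    rw [← Real.rpow_add hlog0]
    refine Real.rpow_le_rpow_of_exponent_le hlog1 ?_
    have : 1 + -((1 - th) / 4) ≤ 1 - 3 / 10 ^ 13 := by unfold th; norm_num
    linarith
  have e7 : (1 : ℝ) ≤ Real.log (Real.log n) ^ (4 - savingExponent) :=
    Real.one_le_rpow hloglog (by linarith)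
  have hC4p : 0 < C4 ^ ((1 : ℝ) - th) := Real.rpow_pos_of_pos hC4 _
  have hLs : 0 < Real.log n ^ savingExponent := Real.rpow_pos_of_pos hlog0 _
  calc (cost (dftMatrix n) : ℝ) ≤ C5 * 2 ^ (∑ i, bb i) * A * ((k : ℝ) + 1) ^ th := hc
    _ = C5 * (2 ^ (∑ i, bb i)) * (A * ((k : ℝ) + 1) ^ th) := by ring
    _ ≤ C5 * (C4 * n) *
        (C4 * Real.log n * (Real.log n ^ (-((1 - th) / 4)) * C4 ^ ((1 : ℝ) - th))) := by
        refine mul_le_mul (mul_le_mul_of_nonneg_left hsum hC5.le) e5 (by positivity) (by positivity)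
    _ = (C5 * C4 * C4 * C4 ^ ((1 : ℝ) - th) * n) *
        (Real.log n * Real.log n ^ (-((1 - th) / 4))) := by ring
    _ ≤ (C5 * C4 * C4 * C4 ^ ((1 : ℝ) - th) * n) * Real.log n ^ savingExponent :=
        mul_le_mul_of_nonneg_left e6 (by positivity)
    _ = C5 * C4 * C4 * C4 ^ ((1 : ℝ) - th) * n * Real.log n ^ savingExponent * 1 := by ring
    _ ≤ C5 * C4 * C4 * C4 ^ ((1 : ℝ) - th) * n * Real.log n ^ savingExponent *
        Real.log (Real.log n) ^ (4 - savingExponent) :=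
        mul_le_mul_of_nonneg_left e7 (by positivity)

end Crest.Agent.FC
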