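import Crest.Agent.FC.GadgetData

/-! Row 324: soundness of the symbolic simulator. -/

set_option autoImplicit false

namespace Crest.Agent.FC.Gad

/-- sign of a boolean. -/
def sgn (s : Bool) (z : ℂ) : ℂ := if s then z else -z

def evalV (x : ℕ → ℂ) : Vec → ℂ
  | [] => 0
  | (k, s) :: t => sgn s (x k) + evalV x t

theorem evalV_ins (x : ℕ → ℂ) (k : ℕ) (s : Bool) (v : Vec) :
    evalV x (ins k s v) = sgn s (x k) + evalV x v := by
  induction v with
  | nil => rfl
  | cons a t ih =>
    obtain ⟨k', s'⟩ := a
    unfold ins
    cases h1 : Nat.blt k k' with
    | true => rfl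
    | false =>
      cases h2 : Nat.beq k k' with
      | true =>
        have hk : k = k' := Nat.eq_of_beq_eq_true h2
        subst hk
        cases h3 : Bool.xor s s' with
        | true =>
          simp only [cond_true, cond_false, evalV]
          cases s <;> cases s' <;> simp_all [sgn]
        | false => rfl
      | false =>
        simp only [cond_false, evalV, ih]
        ring

theorem evalV_addV (x : ℕ → ℂ) (sg : Bool) (u v : Vec) :
    evalV x (addV sg u v) = sgn sg (evalV x u) + evalV x v := by
  induction u generalizing v with
  | nil => cases sg <;> simp [addV, evalV, sgn]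
  | cons a u ih =>
    obtain ⟨k, s⟩ := a
    simp only [addV, ih, evalV_ins, evalV]
    cases sg <;> cases s <;> simp [sgn] <;> ring

def Full : ℕ → Tr → Prop
  | 0, Tr.leaf _ => True
  | 0, Tr.node _ _ => False
  | _ + 1, Tr.leaf _ => False
  | d + 1, Tr.node l r => Full d l ∧ Full d r

theorem b00 : Nat.beq 0 0 = true := rfl

theorem b10 : Nat.beq 1 0 = false := rfl

theorem beq0 (i : ℕ) : Nat.beq (i % 2) 0 = decide (i % 2 = 0) := by
  rcases Nat.mod_two_eq_zero_or_one i with h | h <;> simp [h, Nat.beq]

theorem get_set (d : ℕ) (t : Tr) (ht : Full d t) (i j : ℕ) (hi : i < 2 ^ d) (hj : j < 2 ^ d)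
    (v : Vec) : get d (set' d t i v) j = if j = i then v else get d t j := by
  induction d generalizing t i j with
  | zero =>
    cases t with
    | node l r => exact absurd ht (by simp [Full])
    | leaf w =>
      have : i = 0 := by simpa using hi
      have : j = 0 := by simpa using hj
      subst_vars
      simp [set', get]
  | succ d ih =>
    cases t with
    | leaf w => exact absurd ht (by simp [Full])
    | node l r =>
      obtain ⟨hl, hr⟩ := ht
      have hi2 : i / 2 < 2 ^ d := by omega
      have hj2 : j / 2 < 2 ^ d := by omega
      have IHl := ih l hl (i / 2) (j / 2) hi2 hj2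
      have IHr := ih r hr (i / 2) (j / 2) hi2 hj2
      unfold set'
      rw [beq0]
      rcases Nat.mod_two_eq_zero_or_one i with h | h <;>
      rcases Nat.mod_two_eq_zero_or_one j with h' | h' <;>
      simp only [h, h', get, b00, b10, decide_true, decide_false, cond_true, cond_false, one_ne_zero,
        IHl, IHr]
      · have : (j / 2 = i / 2) ↔ (j = i) := by omega
        simp only [this]
      · have : ¬ (j = i) := by omega
        simp only [this, if_false]
      · have : ¬ (j = i) := by omega
        simp only [this, if_false]
      · have : (j / 2 = i / 2) ↔ (j = i) := by omega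
        simp only [this]

theorem full_set (d : ℕ) (t : Tr) (ht : Full d t) (i : ℕ) (v : Vec) : Full d (set' d t i v) := by
  induction d generalizing t i with
  | zero =>
    cases t with
    | node l r => exact absurd ht (by simp [Full])
    | leaf w => simp [set', Full]
  | succ d ih =>
    cases t with
    | leaf w => exact absurd ht (by simp [Full])
    | node l r =>
      obtain ⟨hl, hr⟩ := ht
      unfold set'
      cases Nat.beq (i % 2) 0
      · exact ⟨hl, ih r hr _⟩
      · exact ⟨ih l hl _, hr⟩

theorem full_init (d b s : ℕ) : Full d (init d b s) := by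
  induction d generalizing b s with
  | zero => simp [init, Full]
  | succ d ih => exact ⟨ih _ _, ih _ _⟩

theorem get_init (d b s i : ℕ) (hi : i < 2 ^ d) : get d (init d b s) i = [(b + s * i, true)] := by
  induction d generalizing b s i with
  | zero =>
    have : i = 0 := by simpa using hi
    subst this
    simp [init, get]
  | succ d ih =>
    have hi2 : i / 2 < 2 ^ d := by omega
    unfold init get
    rw [beq0]
    rcases Nat.mod_two_eq_zero_or_one i with h | h
    · simp only [h, decide_true, cond_true, ih _ _ _ hi2]
      have h3 : s * i = 2 * s * (i / 2) := by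
        have : i = 2 * (i / 2) := by omega
        calc s * i = s * (2 * (i / 2)) := by rw [← this]
          _ = _ := by ring
      rw [h3]
    · simp only [h, one_ne_zero, decide_false, cond_false, ih _ _ _ hi2]
      have h3 : b + s + 2 * s * (i / 2) = b + s * i := by
        have : i = 2 * (i / 2) + 1 := by omega
        calc b + s + 2 * s * (i / 2) = b + s * (2 * (i / 2) + 1) := by ring
          _ = _ := by rw [← this]
      rw [h3]

theorem forceV_eq {α : Type} (v : Vec) (k : Vec → α) : forceV v k = k v := by
  induction v generalizing k with
  | nil => rfl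
  | cons a t ih =>
    obtain ⟨a, s⟩ := a
    simp only [forceV, ih]

/-- concrete semantics of an operation. -/
noncomputable def evalOp (o : Op) (y : ℕ → ℂ) : ℕ → ℂ :=
  Function.update y o.1 (sgn o.2.2 (y o.2.1) + y o.1)

noncomputable def evalOps : List Op → (ℕ → ℂ) → (ℕ → ℂ)
  | [], y => y
  | o :: os, y => evalOps os (evalOp o y)

def okOp (o : Op) : Bool := Nat.blt o.1 1875 && Nat.blt o.2.1 1875

theorem run_sound (x : ℕ → ℂ) (os : List Op) (hos : ∀ o ∈ os, okOp o = true) (t : Tr)
    (ht : Full 11 t) (y : ℕ → ℂ) (hy : ∀ i < 2048, y i = evalV x (get 11 t i)) :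
    ∀ i < 2048, evalOps os y i = evalV x (get 11 (run os t) i) := by
  induction os generalizing t y with
  | nil => exact hy
  | cons o os ih =>
    have ho := hos o (by simp)
    simp only [okOp, Bool.and_eq_true, Nat.blt_eq] at ho
    cases t with
    | leaf w => exact absurd ht (by simp [Full])
    | node l r =>
      simp only [run, evalOps]
      apply ih
      · intro o' ho'
        exact hos o' (by simp [ho'])
      · simp only [step, forceV_eq]
        exact full_set _ _ ht _ _
      · intro i hi
        simp only [step, forceV_eq]
        rw [get_set 11 _ ht o.1 i (by omega) (by simpa using hi)]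
        unfold evalOp
        by_cases h : i = o.1
        · subst h
          simp only [Function.update_self, if_true, evalV_addV]
          rw [hy _ (by omega), hy _ (by omega)]
        · simp only [Function.update_of_ne h, h, if_false]
          exact hy i hi

theorem eqV_eq (u v : Vec) (h : eqV u v = true) : u = v := by
  induction u generalizing v with
  | nil =>
    cases v with
    | nil => rfl
    | cons b v => simp [eqV] at h
  | cons a u ih =>
    cases v with
    | nil => simp [eqV] at h
    | cons b v =>
      obtain ⟨a, s⟩ := a
      obtain ⟨b, t⟩ := b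
      simp only [eqV, Bool.and_eq_true, Nat.beq_eq, beq_iff_eq] at h
      obtain ⟨⟨h1, h2⟩, h3⟩ := h
      rw [h1, h2, ih v h3]

theorem chk_spec (t : Tr) (c : ℕ) (h : chk t c = true) : ∀ i < c, get 11 t i = expV i := by
  induction c with
  | zero => intro i hi; omega
  | succ c ih =>
    simp only [chk, Bool.and_eq_true] at h
    intro i hi
    rcases Nat.lt_succ_iff_lt_or_eq.mp hi with h' | h'
    · exact ih h.2 i h'
    · subst h'
      exact eqV_eq _ _ h.1

set_option maxRecDepth 100000 in
theorem allOk_true : allOk = true := by decide +kernel

def opsOk (o : Op) : Bool :=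
  Nat.blt o.1 1875 && Nat.blt o.2.1 1875 && Bool.not (Nat.beq o.1 o.2.1) &&
    (bif Nat.beq ((o.1 / 25) % 3) 0 then Nat.beq ((o.2.1 / 25) % 3) 0 else true)

set_option maxRecDepth 100000 in
theorem word_ok : word.all opsOk = true := by decide +kernel

set_option maxRecDepth 100000 in
theorem word_count :
    (word.foldl (fun n o => n + (bif Nat.beq ((o.1 / 25) % 3) 0 then 1 else 12)) 0) = 44923 := by
  decide +kernel

/-- the local theorem. -/
theorem word_spec (x : ℕ → ℂ) (i : ℕ) (hi : i < 1875) :
    evalOps word x i = evalV x (expV i) := by
  have h := run_sound x word (by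
    intro o ho
    have := List.all_eq_true.mp word_ok o ho
    simp only [opsOk, Bool.and_eq_true] at this
    simp only [okOp, Bool.and_eq_true]
    exact this.1.1) (init 11 0 1) (full_init _ _ _) x (by
    intro i hi
    rw [get_init 11 0 1 i (by simpa using hi)]
    simp [evalV, sgn]) i (by omega)
  rw [h, chk_spec _ 1875 allOk_true i hi]

end Crest.Agent.FC.Gad
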