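import Crest.Agent.FC.Defs
import Crest.Agent.FC.GadgetSound

/-! T8 (row 324, helper19): the gadget, checked by kernel computation. -/

set_option autoImplicit false

namespace Crest.Agent.FC

open Matrix Gad

/-- global registers. -/
abbrev GR := Option (Fin 24) × Option (Fin 24) × Option (Fin 24)

/-- decoding of an outer index. -/
def oP (p : ℕ) : Option (Fin 24) :=
  if h : 1 ≤ p ∧ p ≤ 24 then some ⟨p - 1, by omega⟩ else none

/-- middle index of territory `t`. -/
def oQ (t : Fin 12) (q : ℕ) : Option (Fin 24) :=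
  if h : q = 1 then some ⟨2 * t.1, by omega⟩
  else if h : q = 2 then some ⟨2 * t.1 + 1, by omega⟩ else none

def Gc (t : Fin 12) (c : ℕ) : GR := (oP (c / 75), oQ t ((c / 25) % 3), oP (c % 25))

/-- is a shared register. -/
def isC (c : ℕ) : Prop := (c / 25) % 3 = 0

instance (c : ℕ) : Decidable (isC c) := inferInstanceAs (Decidable (_ = _))

theorem oP_inj {p p' : ℕ} (hp : p ≤ 24) (hp' : p' ≤ 24) (h : oP p = oP p') : p = p' := by
  unfold oP at h
  split_ifs at h with h1 h2 h2
  · simp only [Option.some.injEq, Fin.mk.injEq] at h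
    omega
  · omega

theorem oQ_inj {t t' : Fin 12} {q q' : ℕ} (hq : q < 3) (hq' : q' < 3) (h : oQ t q = oQ t' q') :
    q = q' ∧ (q ≠ 0 → t = t') := by
  unfold oQ at h
  split_ifs at h with h1 h2 h3 h4 h5 h6 h7 h8 <;>
    simp only [Option.some.injEq, Fin.mk.injEq, reduceCtorEq] at h
  · refine ⟨by omega, fun _ => Fin.ext (by omega)⟩
  · omega
  · omega
  · refine ⟨by omega, fun _ => Fin.ext (by omega)⟩
  · refine ⟨by omega, fun hq0 => by omega⟩

theorem Gc_inj {t t' : Fin 12} {c c' : ℕ} (hc : c < 1875) (hc' : c' < 1875)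
    (h : Gc t c = Gc t' c') : c = c' ∧ (¬ isC c → t = t') := by
  unfold Gc at h
  simp only [Prod.mk.injEq] at h
  obtain ⟨h1, h2, h3⟩ := h
  have e1 := oP_inj (by omega) (by omega) h1
  have e3 := oP_inj (by omega) (by omega) h3
  have e2 := oQ_inj (Nat.mod_lt _ (by norm_num)) (Nat.mod_lt _ (by norm_num)) h2
  refine ⟨by omega, fun hh => e2.2 hh⟩

theorem Gc_isC {t t' : Fin 12} {c : ℕ} (h : isC c) : Gc t c = Gc t' c := by
  unfold isC at h
  unfold Gc oQ
  simp [h]

/-- global operations. -/
abbrev GOp := GR × GR × Bool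

/-- expansion of a local operation. -/
def expand (o : Op) : List GOp :=
  if isC o.1 then [(Gc 0 o.1, Gc 0 o.2.1, o.2.2)]
  else (List.finRange 12).map fun t => (Gc t o.1, Gc t o.2.1, o.2.2)

noncomputable def evalG (o : GOp) (x : GR → ℂ) : GR → ℂ :=
  Function.update x o.1 (sgn o.2.2 (x o.2.1) + x o.1)

noncomputable def evalGs : List GOp → (GR → ℂ) → (GR → ℂ)
  | [], x => x
  | o :: os, x => evalGs os (evalG o x)

theorem evalGs_append (a b : List GOp) (x : GR → ℂ) :
    evalGs (a ++ b) x = evalGs b (evalGs a x) := by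
  induction a generalizing x with
  | nil => rfl
  | cons o a ih => exact ih _

theorem evalG_of_ne (o : GOp) (x : GR → ℂ) {g : GR} (h : g ≠ o.1) : evalG o x g = x g := by
  unfold evalG
  exact Function.update_of_ne h _ _

theorem evalG_self (o : GOp) (x : GR → ℂ) : evalG o x o.1 = sgn o.2.2 (x o.2.1) + x o.1 := by
  unfold evalG
  exact Function.update_self _ _ _

theorem evalGs_map_of_ne (ts : List (Fin 12)) (a b : ℕ) (s : Bool) (x : GR → ℂ) (g : GR)
    (hg : ∀ t ∈ ts, g ≠ Gc t a) :
    evalGs (ts.map fun t => (Gc t a, Gc t b, s)) x g = x g := by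
  induction ts generalizing x with
  | nil => rfl
  | cons t ts ih =>
    simp only [List.map_cons, evalGs]
    rw [ih _ (fun t' ht' => hg t' (by simp [ht']))]
    exact evalG_of_ne _ _ (hg t (by simp))

theorem evalGs_map_self (ts : List (Fin 12)) (hts : ts.Nodup) (a b : ℕ) (ha : a < 1875)
    (hb : b < 1875) (hab : a ≠ b) (hCa : ¬ isC a) (s : Bool) (x : GR → ℂ) (t : Fin 12)
    (ht : t ∈ ts) :
    evalGs (ts.map fun t => (Gc t a, Gc t b, s)) x (Gc t a) =
      sgn s (x (Gc t b)) + x (Gc t a) := by
  induction ts generalizing x with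
  | nil => simp at ht
  | cons t0 ts ih =>
    simp only [List.map_cons, evalGs]
    rw [List.nodup_cons] at hts
    by_cases h : t = t0
    · subst h
      rw [evalGs_map_of_ne]
      · exact evalG_self _ _
      · intro t' ht' he
        have := (Gc_inj ha ha he).2 hCa
        subst this
        exact hts.1 ht'
    · have ht' : t ∈ ts := by simpa [h] using ht
      rw [ih hts.2 _ ht', evalG_of_ne, evalG_of_ne]
      · intro he
        exact h ((Gc_inj ha ha he).2 hCa)
      · intro he
        exact hab (Gc_inj hb ha he).1.symm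

/-- one local step versus the expanded global step. -/
theorem expand_spec (o : Op) (ho : opsOk o = true) (x : GR → ℂ) (t : Fin 12) (c : ℕ)
    (hc : c < 1875) :
    evalOp o (fun c => x (Gc t c)) c = evalGs (expand o) x (Gc t c) := by
  obtain ⟨a, b, s⟩ := o
  simp only [opsOk, Bool.and_eq_true, Nat.blt_eq, Bool.not_eq_true'] at ho
  obtain ⟨⟨⟨ha, hb⟩, hab⟩, hC⟩ := ho
  have hab' : a ≠ b := by
    intro h
    subst h
    have h2 : Nat.beq a a = true := Nat.beq_refl a
    rw [h2] at hab
    exact absurd hab (by simp)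
  unfold expand evalOp
  by_cases h : isC a
  · have hCb : isC b := by
      have h2 : Nat.beq ((a / 25) % 3) 0 = true := by
        unfold isC at h
        rw [h]; rfl
      rw [h2] at hC
      exact Nat.eq_of_beq_eq_true (by simpa using hC)
    simp only [h, if_true, evalGs]
    by_cases hca : c = a
    · subst hca
      rw [Function.update_self, Gc_isC (t := t) (t' := 0) h]
      unfold evalG
      rw [Function.update_self, Gc_isC (t := t) (t' := 0) hCb]
    · rw [Function.update_of_ne hca, evalG_of_ne]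
      intro he
      exact hca (Gc_inj hc ha he).1
  · simp only [h, if_false]
    by_cases hca : c = a
    · subst hca
      rw [Function.update_self,
        evalGs_map_self _ (List.nodup_finRange 12) _ _ ha hb hab' h _ _ _ (List.mem_finRange t)]
    · rw [Function.update_of_ne hca, evalGs_map_of_ne]
      intro t' _ he
      exact hca (Gc_inj hc ha he).1

theorem expands_spec (os : List Op) (hos : ∀ o ∈ os, opsOk o = true) (x : GR → ℂ) (t : Fin 12) :
    ∀ y : ℕ → ℂ, (∀ c < 1875, y c = x (Gc t c)) →
      ∀ c < 1875, evalOps os y c = evalGs (os.flatMap expand) x (Gc t c) := by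
  induction os generalizing x with
  | nil => intro y hy c hc; exact hy c hc
  | cons o os ih =>
    intro y hy c hc
    simp only [List.flatMap_cons, evalGs_append, evalOps]
    apply ih (fun o' ho' => hos o' (by simp [ho'])) _ _ _ c hc
    intro c' hc'
    rw [← expand_spec o (hos o (by simp)) x t c' hc']
    unfold evalOp
    have ho := hos o (by simp)
    simp only [opsOk, Bool.and_eq_true, Nat.blt_eq] at ho
    by_cases h : c' = o.1
    · subst h
      rw [Function.update_self, Function.update_self, hy _ hc', hy _ ho.1.1.2]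
    · rw [Function.update_of_ne h, Function.update_of_ne h, hy _ hc']

/-! the expected result -/

def dsum (p : ℕ) (f : ℕ → ℂ) : ℂ := if p = 0 then f 0 else f 0 + f p

def osum : Option (Fin 24) → (Option (Fin 24) → ℂ) → ℂ
  | none, f => f none
  | some i, f => f none + f (some i)

theorem osum_oP (p : ℕ) (hp : p ≤ 24) (f : Option (Fin 24) → ℂ) :
    osum (oP p) f = dsum p (fun p' => f (oP p')) := by
  unfold dsum
  have h0 : oP 0 = none := by simp [oP]
  by_cases h : p = 0
  · subst h; rw [h0]; simp [osum, h0]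
  · have h1 : oP p = some ⟨p - 1, by omega⟩ := by
      unfold oP
      rw [dif_pos (by omega)]
    simp only [h, if_false, h0]
    rw [h1]
    rfl

theorem osum_oQ (t : Fin 12) (q : ℕ) (hq : q < 3) (f : Option (Fin 24) → ℂ) :
    osum (oQ t q) f = dsum q (fun q' => f (oQ t q')) := by
  unfold dsum
  have h0 : oQ t 0 = none := by simp [oQ]
  by_cases h : q = 0
  · subst h; rw [h0]; simp [osum, h0]
  · simp only [h, if_false, h0]
    interval_cases q
    · exact absurd rfl h
    · have h1 : oQ t 1 = some ⟨2 * t.1, by omega⟩ := by simp [oQ]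
      rw [h1]; rfl
    · have h1 : oQ t 2 = some ⟨2 * t.1 + 1, by omega⟩ := by simp [oQ]
      rw [h1]; rfl

theorem b0 (n : ℕ) : Nat.beq n 0 = decide (n = 0) := by
  cases n <;> simp [Nat.beq]

theorem evalV_expV (y : ℕ → ℂ) (c : ℕ) :
    evalV y (expV c) = dsum (c / 75) (fun p => dsum ((c / 25) % 3) (fun q =>
      dsum (c % 25) (fun r => y ((p * 3 + q) * 25 + r)))) := by
  unfold expV dsum
  simp only [b0]
  by_cases h1 : c / 75 = 0 <;> by_cases h2 : (c / 25) % 3 = 0 <;> by_cases h3 : c % 25 = 0 <;>
    simp [h1, h2, h3, evalV_ins, evalV, sgn] <;> ring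

theorem Gc_code (t : Fin 12) (p q r : ℕ) (hq : q < 3) (hr : r < 25) :
    Gc t ((p * 3 + q) * 25 + r) = (oP p, oQ t q, oP r) := by
  unfold Gc
  have h1 : ((p * 3 + q) * 25 + r) / 75 = p := by omega
  have h2 : (((p * 3 + q) * 25 + r) / 25) % 3 = q := by omega
  have h3 : ((p * 3 + q) * 25 + r) % 25 = r := by omega
  rw [h1, h2, h3]

theorem dsum_congr (p : ℕ) {f g : ℕ → ℂ} (h0 : f 0 = g 0) (hp : f p = g p) :
    dsum p f = dsum p g := by
  unfold dsum
  split_ifs
  · exact h0
  · rw [h0, hp]

theorem exp_spec (x : GR → ℂ) (t : Fin 12) (c : ℕ) (hc : c < 1875) :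
    evalV (fun c => x (Gc t c)) (expV c) =
      osum (Gc t c).1 (fun P => osum (Gc t c).2.1 (fun Q => osum (Gc t c).2.2 (fun R =>
        x (P, Q, R)))) := by
  rw [evalV_expV]
  have hp : c / 75 ≤ 24 := by omega
  have hq : (c / 25) % 3 < 3 := Nat.mod_lt _ (by norm_num)
  have hr : c % 25 ≤ 24 := by omega
  have key : ∀ p q r, q < 3 → r < 25 → x (Gc t ((p * 3 + q) * 25 + r)) =
      x (oP p, oQ t q, oP r) := by
    intro p q r hq hr
    rw [Gc_code t p q r hq hr]
  have hG : Gc t c = (oP (c / 75), oQ t ((c / 25) % 3), oP (c % 25)) := rfl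
  rw [hG]
  simp only
  rw [osum_oP _ hp]
  have e1 : ∀ p, dsum ((c / 25) % 3) (fun q => dsum (c % 25) (fun r =>
      x (Gc t ((p * 3 + q) * 25 + r)))) = osum (oQ t ((c / 25) % 3)) (fun Q =>
        osum (oP (c % 25)) (fun R => x (oP p, Q, R))) := by
    intro p
    rw [osum_oQ t _ hq]
    have e2 : ∀ q, q < 3 → dsum (c % 25) (fun r => x (Gc t ((p * 3 + q) * 25 + r))) =
        osum (oP (c % 25)) (fun R => x (oP p, oQ t q, R)) := by
      intro q hq
      rw [osum_oP _ hr]
      exact dsum_congr _ (key _ _ _ hq (by norm_num)) (key _ _ _ hq (by omega))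
    exact dsum_congr _ (e2 _ (by norm_num)) (e2 _ hq)
  exact dsum_congr _ (e1 _) (e1 _)

theorem Gc_surj (g : GR) : ∃ (t : Fin 12) (c : ℕ), c < 1875 ∧ Gc t c = g := by
  obtain ⟨P, Q, R⟩ := g
  have hP : ∀ P : Option (Fin 24), ∃ p, p ≤ 24 ∧ oP p = P := by
    intro P
    cases P with
    | none => exact ⟨0, by norm_num, by simp [oP]⟩
    | some i =>
      refine ⟨i.1 + 1, by omega, ?_⟩
      unfold oP
      rw [dif_pos (by omega)]
      simp
  have hQ : ∀ Q : Option (Fin 24), ∃ (t : Fin 12) (q : ℕ), q < 3 ∧ oQ t q = Q := by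
    intro Q
    cases Q with
    | none => exact ⟨0, 0, by norm_num, by simp [oQ]⟩
    | some i =>
      rcases Nat.mod_two_eq_zero_or_one i.1 with h | h
      · refine ⟨⟨i.1 / 2, by omega⟩, 1, by norm_num, ?_⟩
        unfold oQ
        simp only [dif_pos]
        congr 1
        exact Fin.ext (by simp only; omega)
      · refine ⟨⟨i.1 / 2, by omega⟩, 2, by norm_num, ?_⟩
        unfold oQ
        simp only [dif_pos, OfNat.ofNat_ne_one, dif_neg, not_false_eq_true]
        congr 1
        exact Fin.ext (by simp only; omega)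
  obtain ⟨p, hp, hpP⟩ := hP P
  obtain ⟨r, hr, hrR⟩ := hP R
  obtain ⟨t, q, hq, hqQ⟩ := hQ Q
  refine ⟨t, (p * 3 + q) * 25 + r, by omega, ?_⟩
  rw [Gc_code t p q r hq (by omega), hpP, hqQ, hrR]

theorem evalGs_word (x : GR → ℂ) (g : GR) :
    evalGs (word.flatMap expand) x g =
      osum g.1 (fun P => osum g.2.1 (fun Q => osum g.2.2 (fun R => x (P, Q, R)))) := by
  obtain ⟨t, c, hc, hg⟩ := Gc_surj g
  subst hg
  rw [← exp_spec x t c hc, ← word_spec _ c hc]
  exact (expands_spec word (fun o ho => List.all_eq_true.mp word_ok o ho) x t _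
    (fun c _ => rfl) c hc).symm

/-! matrices -/

theorem fan_sum (s : Option (Fin 24)) (f : Option (Fin 24) → ℂ) :
    ∑ t, Fan 24 s t * f t = osum s f := by
  rw [Fintype.sum_option]
  cases s with
  | none => simp [Fan, osum]
  | some j => simp [Fan, osum]

theorem cube_mulVec (x : GR → ℂ) (g : GR) :
    (cube (Fan 24)).mulVec x g =
      osum g.1 (fun P => osum g.2.1 (fun Q => osum g.2.2 (fun R => x (P, Q, R)))) := by
  simp only [← fan_sum]
  unfold Matrix.mulVec dotProduct cube
  simp only [Matrix.of_apply]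
  rw [Fintype.sum_prod_type]
  refine Finset.sum_congr rfl fun P _ => ?_
  rw [Fintype.sum_prod_type, Finset.mul_sum]
  refine Finset.sum_congr rfl fun Q _ => ?_
  rw [Finset.mul_sum, Finset.mul_sum]
  refine Finset.sum_congr rfl fun R _ => ?_
  ring

noncomputable def mOp (o : GOp) : Matrix GR GR ℂ :=
  Matrix.transvection o.1 o.2.1 (if o.2.2 then 1 else -1)

theorem mOp_mulVec (o : GOp) (x : GR → ℂ) : (mOp o).mulVec x = evalG o x := by
  funext g
  unfold mOp Matrix.transvection
  rw [Matrix.add_mulVec, Matrix.one_mulVec, Matrix.single_mulVec]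
  unfold evalG
  by_cases h : g = o.1
  · subst h
    rw [Function.update_self]
    cases o.2.2 <;> simp [sgn] <;> ring
  · rw [Function.update_of_ne h]
    simp [h]

noncomputable def mOps : List GOp → Matrix GR GR ℂ → Matrix GR GR ℂ
  | [], M => M
  | o :: os, M => mOps os (mOp o * M)

theorem mOps_mulVec (os : List GOp) (M : Matrix GR GR ℂ) (x : GR → ℂ) :
    (mOps os M).mulVec x = evalGs os (M.mulVec x) := by
  induction os generalizing M with
  | nil => rfl
  | cons o os ih =>
    simp only [mOps, evalGs]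
    rw [ih, ← Matrix.mulVec_mulVec, mOp_mulVec]

theorem mOps_ShProd (os : List GOp) (hos : ∀ o ∈ os, o.1 ≠ o.2.1) (w : ℕ) (M : Matrix GR GR ℂ)
    (h : ShProd w M) : ShProd (w + os.length) (mOps os M) := by
  induction os generalizing M w with
  | nil => exact h
  | cons o os ih =>
    have := ih (fun o' ho' => hos o' (by simp [ho'])) (w + 1) (mOp o * M)
      (ShProd.mul o.1 o.2.1 _ (hos o (by simp)) (by cases o.2.2 <;> simp) h)
    simp only [mOps, List.length_cons]
    convert this using 1
    ring

theorem expand_ne (o : Op) (ho : opsOk o = true) : ∀ g ∈ expand o, g.1 ≠ g.2.1 := by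
  obtain ⟨a, b, s⟩ := o
  simp only [opsOk, Bool.and_eq_true, Nat.blt_eq, Bool.not_eq_true'] at ho
  obtain ⟨⟨⟨ha, hb⟩, hab⟩, -⟩ := ho
  have hab' : a ≠ b := by
    intro h
    subst h
    have h2 : Nat.beq a a = true := Nat.beq_refl a
    rw [h2] at hab
    exact absurd hab (by simp)
  unfold expand
  intro g hg
  split_ifs at hg
  · simp only [List.mem_singleton] at hg
    subst hg
    exact fun he => hab' (Gc_inj ha hb he).1
  · simp only [List.mem_map] at hg
    obtain ⟨t, -, rfl⟩ := hg
    exact fun he => hab' (Gc_inj ha hb he).1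

theorem expand_length (o : Op) :
    (expand o).length = (bif Nat.beq ((o.1 / 25) % 3) 0 then 1 else 12) := by
  unfold expand
  rw [b0]
  by_cases h : isC o.1
  · have h' : (o.1 / 25) % 3 = 0 := h
    simp [h, h']
  · have h' : ¬ ((o.1 / 25) % 3 = 0) := h
    simp [h, h']

theorem flat_length (os : List Op) (n : ℕ) :
    n + (os.flatMap expand).length =
      os.foldl (fun n o => n + (bif Nat.beq ((o.1 / 25) % 3) 0 then 1 else 12)) n := by
  induction os generalizing n with
  | nil => simp
  | cons o os ih =>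
    simp only [List.flatMap_cons, List.length_append, List.foldl_cons]
    rw [← ih, expand_length]
    ring

/-- the gadget: `Fan 24 ⊗ Fan 24 ⊗ Fan 24` is a product of `44923 < 45000` transvections. -/
theorem gadget : ShProd 44923 (cube (Fan 24)) := by
  have hlen : (word.flatMap expand).length = 44923 := by
    have h := flat_length word 0
    rw [word_count] at h
    omega
  have h := mOps_ShProd (word.flatMap expand) (by
    intro g hg
    rw [List.mem_flatMap] at hg
    obtain ⟨o, ho, hg⟩ := hg
    exact expand_ne o (List.all_eq_true.mp word_ok o ho) g hg) 0 1 ShProd.one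
  rw [hlen, zero_add] at h
  convert h using 1
  apply Matrix.ext_of_mulVec_single
  intro i
  rw [mOps_mulVec, Matrix.one_mulVec]
  funext g
  rw [cube_mulVec, evalGs_word]

end Crest.Agent.FC
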