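import Crest.Agent.FC.Defs

/-! T1 (row 324): basic calculus of `Gen`.  All by induction on `Gen`. -/

set_option autoImplicit false

namespace Crest.Agent.FC

variable {F : Type} [AddCommGroup F] [Module ℂ F]

theorem Step.mono {S S' : Set F} {f : F} (h : Step S f) (hS : S ⊆ S') : Step S' f := by
  cases h with
  | add hu hv => exact Step.add (hS hu) (hS hv)
  | sub hu hv => exact Step.sub (hS hu) (hS hv)
  | smul c hu => exact Step.smul c (hS hu)

/-- enlarge the available set. (`Step` is monotone in the set.) -/
theorem Gen.mono_left {S S' T : Set F} {c : ℕ} (h : Gen S c T) (hS : S ⊆ insert 0 S') :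
    Gen S' c T := by
  induction h generalizing S' with
  | base hT =>
    refine Gen.base (hT.trans ?_)
    exact Set.insert_subset (Set.mem_insert _ _) hS
  | @step S T c f hf _ ih =>
    refine Gen.step (hf.mono (Set.insert_subset (Set.mem_insert _ _) hS)) (ih ?_)
    refine Set.insert_subset (Set.mem_insert_of_mem _ (Set.mem_insert _ _)) (hS.trans ?_)
    exact Set.insert_subset_insert (Set.subset_insert _ _)

theorem Gen.mono_right {S T T' : Set F} {c : ℕ} (h : Gen S c T) (hT : T' ⊆ insert 0 T) :
    Gen S c T' := by
  induction h with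
  | base hT0 =>
    exact Gen.base (hT.trans (Set.insert_subset (Set.mem_insert _ _) hT0))
  | step hf _ ih => exact Gen.step hf (ih hT)

/-- dummy gates `0 + 0`. -/
theorem Gen.mono_count {S T : Set F} {c d : ℕ} (h : Gen S c T) (hcd : c ≤ d) : Gen S d T := by
  induction d, hcd using Nat.le_induction with
  | base => exact h
  | succ d _ ih =>
    have h0 : Step (insert 0 S) ((0 : F) + 0) :=
      Step.add (Set.mem_insert _ _) (Set.mem_insert _ _)
    refine Gen.step h0 (ih.mono_left ?_)
    exact (Set.subset_insert _ _).trans (Set.subset_insert _ _)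

theorem Gen.trans {S T U : Set F} {c d : ℕ} (h : Gen S c T) (h' : Gen T d U) :
    Gen S (c + d) U := by
  induction h with
  | base hT => rw [Nat.zero_add]; exact h'.mono_left hT
  | step hf _ ih =>
    rw [Nat.add_right_comm]
    exact Gen.step hf (ih h')

/-- the available vectors stay available -/
theorem Gen.keep {S T : Set F} {c : ℕ} (h : Gen S c T) : Gen S c (S ∪ T) := by
  induction h with
  | base hT => exact Gen.base (Set.union_subset (Set.subset_insert _ _) hT)
  | @step S T c f hf _ ih =>
    refine Gen.step hf (ih.mono_right ?_)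
    refine (Set.union_subset_union_left _ (Set.subset_insert f S)).trans (Set.subset_insert _ _)

theorem Gen.union {S T U : Set F} {c d : ℕ} (h : Gen S c T) (h' : Gen S d U) :
    Gen S (c + d) (T ∪ U) := by
  induction h with
  | @base S T hT =>
    rw [Nat.zero_add]
    refine h'.keep.mono_right ?_
    refine Set.union_subset (hT.trans ?_) ?_
    · exact Set.insert_subset_insert Set.subset_union_left
    · exact Set.subset_union_right.trans (Set.subset_insert _ _)
  | @step S T c f hf _ ih =>
    rw [Nat.add_right_comm]
    refine Gen.step hf (ih (h'.mono_left ?_))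
    exact (Set.subset_insert _ _).trans (Set.subset_insert _ _)

theorem Gen.iUnion {β : Type} [Fintype β] {S : Set F} (T : β → Set F) (c : β → ℕ)
    (h : ∀ b, Gen S (c b) (T b)) : Gen S (∑ b, c b) (⋃ b, T b) := by
  classical
  have key : ∀ s : Finset β, Gen S (∑ b ∈ s, c b) (⋃ b ∈ s, T b) := by
    intro s
    induction s using Finset.induction_on with
    | empty =>
      refine Gen.base ?_
      simp
    | insert a s ha ih =>
      rw [Finset.sum_insert ha, Finset.set_biUnion_insert]
      exact (h a).union ih
  have := key Finset.univ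
  simpa using this

theorem Gen.map {F' : Type} [AddCommGroup F'] [Module ℂ F'] (φ : F →ₗ[ℂ] F') {S T : Set F} {c : ℕ}
    (h : Gen S c T) : Gen (φ '' S) c (φ '' T) := by
  induction h with
  | base hT =>
    refine Gen.base ((Set.image_mono hT).trans ?_)
    rw [Set.image_insert_eq, map_zero]
  | @step S T c f hf _ ih =>
    rw [Set.image_insert_eq] at ih
    refine Gen.step ?_ ih
    have himg : insert (0 : F') (φ '' S) = φ '' (insert 0 S) := by
      rw [Set.image_insert_eq, map_zero]
    rw [himg]
    cases hf with
    | add hu hv => rw [map_add]; exact Step.add ⟨_, hu, rfl⟩ ⟨_, hv, rfl⟩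
    | sub hu hv => rw [map_sub]; exact Step.sub ⟨_, hu, rfl⟩ ⟨_, hv, rfl⟩
    | smul c hu => rw [map_smul]; exact Step.smul c ⟨_, hu, rfl⟩

theorem Gen.exists_single {S : Set F} {x : F} (h : x ∈ Submodule.span ℂ S) :
    ∃ c, Gen S c {x} := by
  induction h using Submodule.span_induction with
  | mem x hx => exact ⟨0, Gen.base (Set.singleton_subset_iff.mpr (Set.mem_insert_of_mem _ hx))⟩
  | zero => exact ⟨0, Gen.base (Set.singleton_subset_iff.mpr (Set.mem_insert _ _))⟩
  | add x y _ _ hx hy =>
    obtain ⟨c, hc⟩ := hx
    obtain ⟨d, hd⟩ := hy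
    refine ⟨c + d + 1, (hc.union hd).trans (Gen.step (f := x + y) ?_ (Gen.base ?_))⟩
    · exact Step.add (by simp) (by simp)
    · simp
  | smul a x _ hx =>
    obtain ⟨c, hc⟩ := hx
    refine ⟨c + 1, hc.trans (Gen.step (f := a • x) ?_ (Gen.base ?_))⟩
    · exact Step.smul a (by simp)
    · simp

/-- every finite subset of the span can be generated with finitely many gates. -/
theorem Gen.exists_of_subset_span {S T : Set F} (hT : T.Finite)
    (h : T ⊆ (Submodule.span ℂ S : Set F)) : ∃ c, Gen S c T := by
  induction T, hT using Set.Finite.induction_on with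
  | empty => exact ⟨0, Gen.base (Set.empty_subset _)⟩
  | @insert a s _ _ ih =>
    obtain ⟨c, hc⟩ := ih ((Set.subset_insert _ _).trans h)
    obtain ⟨d, hd⟩ := Gen.exists_single (h (Set.mem_insert a s))
    refine ⟨d + c, ?_⟩
    rw [Set.insert_eq]
    exact hd.union hc

end Crest.Agent.FC
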