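import Crest.Agent.FC.Defs

/-! T11 (row 324): binomial averages.
`Gb L N f k = ∑_a C(k,a) (N-L)^(k-a) f a`. With `p = L/N`, `Gb L N (L^a g a) k = N^k * E g(Bin(k,p))`.
`Gb_rpow_le`: Jensen (`Real.concaveOn_rpow`, `ConcaveOn.le_map_sum`) with the weights
`C(k,a) p^a (1-p)^(k-a)` (sum `1`, mean `k p`). -/

set_option autoImplicit false

namespace Crest.Agent.FC

open Finset

theorem Gb_pow (L N : ℝ) (k : ℕ) : Gb L N (fun a => L ^ a) k = N ^ k := by
  unfold Gb
  have h := add_pow L (N - L) k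
  rw [add_sub_cancel] at h
  rw [h]
  refine sum_congr rfl fun a _ => ?_
  ring

theorem Gb_add (L N : ℝ) (f g : ℕ → ℝ) (k : ℕ) :
    Gb L N (fun a => f a + g a) k = Gb L N f k + Gb L N g k := by
  unfold Gb
  rw [← sum_add_distrib]
  refine sum_congr rfl fun a _ => ?_
  ring

theorem Gb_mul (L N : ℝ) (c : ℝ) (f : ℕ → ℝ) (k : ℕ) :
    Gb L N (fun a => c * f a) k = c * Gb L N f k := by
  unfold Gb
  rw [mul_sum]
  refine sum_congr rfl fun a _ => ?_
  ring

theorem Gb_mono {L N : ℝ} (hN : L ≤ N) {f g : ℕ → ℝ} {k : ℕ} (h : ∀ a ≤ k, f a ≤ g a) :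
    Gb L N f k ≤ Gb L N g k := by
  unfold Gb
  refine sum_le_sum fun a ha => ?_
  have h1 : f a ≤ g a := h a (by simpa [Nat.lt_succ_iff] using ha)
  have h2 : 0 ≤ N - L := by linarith
  exact mul_le_mul_of_nonneg_left h1 (by positivity)

/-- the mean of the binomial distribution -/
private theorem mean (L M : ℝ) (k : ℕ) :
    ∑ a ∈ range (k + 1), (k.choose a : ℝ) * M ^ (k - a) * L ^ a * a = k * L * (L + M) ^ (k - 1) := by
  rcases k with _ | k
  · simp
  rw [sum_range_succ']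
  simp only [Nat.cast_zero, mul_zero, add_zero]
  rw [Nat.add_sub_cancel, add_pow L M k, mul_sum]
  refine sum_congr rfl fun a _ => ?_
  have h1 : ((k + 1).choose (a + 1) : ℝ) * ((a + 1 : ℕ) : ℝ) = ((k + 1 : ℕ) : ℝ) * (k.choose a : ℝ) := by
    have := Nat.add_one_mul_choose_eq k a
    have h2 : ((k + 1) * k.choose a : ℕ) = ((k + 1).choose (a + 1) * (a + 1) : ℕ) := this
    have h3 := congrArg (fun n : ℕ => (n : ℝ)) h2
    push_cast at h3
    push_cast
    linarith
  have h3 : k + 1 - (a + 1) = k - a := by omega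
  rw [h3]
  calc ((k + 1).choose (a + 1) : ℝ) * M ^ (k - a) * L ^ (a + 1) * ((a + 1 : ℕ) : ℝ)
      = (((k + 1).choose (a + 1) : ℝ) * ((a + 1 : ℕ) : ℝ)) * M ^ (k - a) * L ^ (a + 1) := by ring
    _ = _ := by rw [h1]; ring

theorem Gb_rpow_le {L N : ℝ} (hL : 0 ≤ L) (hN : L ≤ N) (hN0 : 0 < N) {q : ℝ} (h0 : 0 < q)
    (h1 : q ≤ 1) (k : ℕ) :
    Gb L N (fun a => L ^ a * (a : ℝ) ^ q) k ≤ N ^ k * ((k : ℝ) * L / N) ^ q := by
  have hNL : 0 ≤ N - L := by linarith
  set w : ℕ → ℝ := fun a => (k.choose a : ℝ) * (N - L) ^ (k - a) * L ^ a / N ^ k with hw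
  have hw0 : ∀ a ∈ range (k + 1), 0 ≤ w a := fun a _ => by rw [hw]; positivity
  have hw1 : ∑ a ∈ range (k + 1), w a = 1 := by
    have := Gb_pow L N k
    unfold Gb at this
    rw [hw]
    simp only
    rw [← sum_div, this, div_self (by positivity)]
  have hconc := Real.concaveOn_rpow h0.le h1
  have hJ := hconc.le_map_sum (t := range (k + 1)) (w := w) (p := fun a : ℕ => (a : ℝ)) hw0 hw1
    (fun a _ => by simp)
  have hmean : ∑ a ∈ range (k + 1), w a • ((a : ℕ) : ℝ) = (k : ℝ) * L / N := by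
    have hm := mean L (N - L) k
    rw [add_sub_cancel] at hm
    have e : ∀ a, w a • ((a : ℕ) : ℝ) =
        ((k.choose a : ℝ) * (N - L) ^ (k - a) * L ^ a * a) / N ^ k := by
      intro a; rw [hw, smul_eq_mul]; ring
    simp only [e]
    rw [← sum_div, hm]
    rcases Nat.eq_zero_or_pos k with hk | hk
    · subst hk; simp
    · have : N ^ k = N ^ (k - 1) * N := by rw [← pow_succ]; congr 1; omega
      rw [this]
      field_simp
  rw [hmean] at hJ
  have e2 : Gb L N (fun a => L ^ a * (a : ℝ) ^ q) k =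
      N ^ k * ∑ a ∈ range (k + 1), w a • ((fun x : ℝ => x ^ q) (a : ℝ)) := by
    unfold Gb
    rw [mul_sum]
    refine sum_congr rfl fun a _ => ?_
    rw [hw, smul_eq_mul]
    field_simp
  rw [e2]
  exact mul_le_mul_of_nonneg_left hJ (by positivity)

end Crest.Agent.FC
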