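import Crest.Agent.FC.Cost
import Crest.Agent.FC.Tens

/-! T7 (row 324): splitting and regrouping tensor powers (only reindexing).

* `cost_kpow_add`: on `(Fin a → σ) × (Fin b → σ)`: `kpow M (a+b) ≅ (kpow M a ⊗ 1) * (1 ⊗ kpow M b)`,
  each factor is (after reindexing) a `bdiag` of `card σ ^ b` copies of `kpow M a`, resp.
  `card σ ^ a` copies of `kpow M b`.
* `cost_kpow_mul_le`: `(Fin (n*k) → σ) ≃ (Fin k → Fin n → σ)` (`finProdFinEquiv`), the entries agree.
* `cost_kpow_cube`: same with `n = 3` and `(Fin 3 → σ) ≃ σ × σ × σ`. -/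

set_option autoImplicit false

namespace Crest.Agent.FC

open Matrix Finset

theorem kpow_apply {σ : Type} (A : Matrix σ σ ℂ) (k : ℕ) (s t : Fin k → σ) :
    kpow A k s t = ∏ i, A (s i) (t i) := rfl

theorem cost_kpow_add {σ : Type} [Fintype σ] [DecidableEq σ] (M : Matrix σ σ ℂ) (a b : ℕ) :
    cost (kpow M (a + b)) ≤
      Fintype.card σ ^ b * cost (kpow M a) + Fintype.card σ ^ a * cost (kpow M b) := by
  classical
  -- the two factors, on pairs `(y, x)`, `y : Fin b → σ`, `x : Fin a → σ`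
  obtain ⟨P, hP⟩ : ∃ P : Matrix ((Fin b → σ) × (Fin a → σ)) ((Fin b → σ) × (Fin a → σ)) ℂ,
    P = bdiag (fun _ : Fin b → σ => kpow M a) := ⟨_, rfl⟩
  obtain ⟨Q, hQ⟩ : ∃ Q : Matrix ((Fin a → σ) × (Fin b → σ)) ((Fin a → σ) × (Fin b → σ)) ℂ,
    Q = bdiag (fun _ : Fin a → σ => kpow M b) := ⟨_, rfl⟩
  obtain ⟨e, he⟩ : ∃ e : (Fin (a + b) → σ) ≃ (Fin b → σ) × (Fin a → σ),
      ∀ s, e s = (fun i => s (Fin.natAdd a i), fun i => s (Fin.castAdd b i)) := by
    refine ⟨(Fin.appendEquiv a b).symm.trans (Equiv.prodComm _ _), fun s => ?_⟩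
    rfl
  have hcostP : cost P ≤ Fintype.card σ ^ b * cost (kpow M a) := by
    rw [hP]
    refine (cost_bdiag_le _).trans ?_
    simp
  have hcostQ : cost Q ≤ Fintype.card σ ^ a * cost (kpow M b) := by
    rw [hQ]
    refine (cost_bdiag_le _).trans ?_
    simp
  have hkey : kpow M (a + b) =
      (P * Q.submatrix (Equiv.prodComm _ _) (Equiv.prodComm _ _)).submatrix e e := by
    ext s t
    rw [Matrix.submatrix_apply, Matrix.mul_apply, kpow_apply, Fin.prod_univ_add]
    rw [Finset.sum_eq_single ((fun i => s (Fin.natAdd a i), fun i => t (Fin.castAdd b i)))]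
    · rw [he, he, hP, hQ, Matrix.submatrix_apply, bdiag_apply, bdiag_apply]
      simp [kpow_apply]
    · intro p _ hp
      rw [he, he, hP, hQ, Matrix.submatrix_apply, bdiag_apply, bdiag_apply]
      by_cases h1 : (fun i => s (Fin.natAdd a i)) = p.1
      · by_cases h2 : p.2 = (fun i => t (Fin.castAdd b i))
        · exact absurd (Prod.ext h1.symm h2) hp
        · simp [h2]
      · simp [h1]
    · intro h
      exact absurd (Finset.mem_univ _) h
  rw [hkey, cost_submatrix_equiv]
  refine (cost_mul_le _ _).trans ?_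
  rw [cost_submatrix_equiv]
  exact Nat.add_le_add hcostP hcostQ

theorem cost_kpow_mul_le {σ : Type} [Fintype σ] (M : Matrix σ σ ℂ) (n k : ℕ) :
    cost (kpow M (n * k)) ≤ cost (kpow (kpow M n) k) := by
  classical
  obtain ⟨f, hf⟩ : ∃ f : (Fin (n * k) → σ) → (Fin k → Fin n → σ),
      f = fun s i j => s (finProdFinEquiv (j, i)) := ⟨_, rfl⟩
  have hinj : Function.Injective f := by
    intro s t hst
    funext x
    have h := congrFun (congrFun hst (finProdFinEquiv.symm x).2) (finProdFinEquiv.symm x).1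
    rw [hf] at h
    change s (finProdFinEquiv (finProdFinEquiv.symm x)) =
      t (finProdFinEquiv (finProdFinEquiv.symm x)) at h
    rwa [Equiv.apply_symm_apply] at h
  have hkey : kpow M (n * k) = (kpow (kpow M n) k).submatrix f f := by
    ext s t
    rw [Matrix.submatrix_apply, kpow_apply, kpow_apply, hf]
    simp only [kpow_apply]
    rw [Finset.prod_comm, ← Fintype.prod_prod_type' (f := fun (j : Fin n) (i : Fin k) =>
      M (s (finProdFinEquiv (j, i))) (t (finProdFinEquiv (j, i))))]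
    exact (Fintype.prod_equiv finProdFinEquiv _ _ (fun x => rfl)).symm
  rw [hkey]
  exact cost_submatrix_le _ _ _ hinj

theorem cost_kpow_reindex {σ τ : Type} [Fintype σ] [Fintype τ] (e : σ ≃ τ) (M : Matrix τ τ ℂ)
    (k : ℕ) : cost (kpow (M.submatrix e e) k) ≤ cost (kpow M k) := by
  classical
  rw [kpow_submatrix]
  refine cost_submatrix_le _ _ _ ?_
  intro s t hst
  funext i
  exact e.injective (congrFun hst i)

theorem cost_kpow_cube {σ : Type} [Fintype σ] (M : Matrix σ σ ℂ) (m : ℕ) :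
    cost (kpow M (3 * m)) ≤ cost (kpow (cube M) m) := by
  classical
  refine (cost_kpow_mul_le M 3 m).trans ?_
  obtain ⟨e, he⟩ : ∃ e : (Fin 3 → σ) ≃ σ × σ × σ, ∀ s, e s = (s 0, s 1, s 2) := by
    refine ⟨⟨fun s => (s 0, s 1, s 2), fun p => ![p.1, p.2.1, p.2.2], ?_, ?_⟩, fun s => rfl⟩
    · intro s
      funext i
      fin_cases i <;> rfl
    · intro p
      rfl
  have hkey : kpow M 3 = (cube M).submatrix e e := by
    ext s t
    rw [Matrix.submatrix_apply, kpow_apply, he, he, Fin.prod_univ_three]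
    rfl
  rw [hkey]
  exact cost_kpow_reindex e (cube M) m

end Crest.Agent.FC
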