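import Crest.Agent.FC.Defs

/-! T20 (row 324): algebra of lower triangular Toeplitz matrices (power series mod `x^Q`).

* `LT c Q * LT d Q = LT (cauchy product) Q`.
* given `c 0 = 1`, define `d` by `d 0 = 1`, `(2^k - 1) d k = ∑_{j=1}^k c j d (k-j)` (`k ≥ 1`; strong
  recursion), i.e. `∑_k 2^k d_k x^k = c(x) d(x)`, i.e. `D * LT d * D⁻¹ = LT c * LT d`,
  `D = diagonal 2^i`; and `d'` the inverse power series of `d`.
* block decomposition of `LT c (2*H)`. -/

set_option autoImplicit false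

namespace Crest.Agent.FC

open Matrix

private theorem LT_mul (c d : ℕ → ℂ) (Q : ℕ) :
    LT c Q * LT d Q =
      LT (fun k => ∑ p ∈ Finset.HasAntidiagonal.antidiagonal k, c p.1 * d p.2) Q := by
  ext i j
  rw [Matrix.mul_apply]
  simp only [LT, Matrix.of_apply]
  by_cases hij : (j : ℕ) ≤ (i : ℕ)
  · rw [if_pos hij]
    have h1 : ∑ l : Fin Q, (if (l : ℕ) ≤ (i : ℕ) then c ((i : ℕ) - (l : ℕ)) else 0) *
        (if (j : ℕ) ≤ (l : ℕ) then d ((l : ℕ) - (j : ℕ)) else 0) =
        ∑ l ∈ Finset.univ.filter (fun l : Fin Q => (j : ℕ) ≤ (l : ℕ) ∧ (l : ℕ) ≤ (i : ℕ)),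
          c ((i : ℕ) - (l : ℕ)) * d ((l : ℕ) - (j : ℕ)) := by
      rw [Finset.sum_filter]
      refine Finset.sum_congr rfl fun l _ => ?_
      by_cases a : (l : ℕ) ≤ (i : ℕ) <;> by_cases b : (j : ℕ) ≤ (l : ℕ) <;> simp [a, b]
    rw [h1]
    refine Finset.sum_bij' (fun l _ => ((i : ℕ) - (l : ℕ), (l : ℕ) - (j : ℕ)))
      (fun p hp => ⟨(j : ℕ) + p.2, by
        have := Finset.HasAntidiagonal.mem_antidiagonal.1 hp
        have := i.2
        omega⟩) ?_ ?_ ?_ ?_ ?_
    · intro l hl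
      simp only [Finset.mem_filter, Finset.mem_univ, true_and] at hl
      rw [Finset.HasAntidiagonal.mem_antidiagonal]
      show ((i : ℕ) - (l : ℕ)) + ((l : ℕ) - (j : ℕ)) = _
      omega
    · intro p hp
      have := Finset.HasAntidiagonal.mem_antidiagonal.1 hp
      simp only [Finset.mem_filter, Finset.mem_univ, true_and]
      omega
    · intro l hl
      simp only [Finset.mem_filter, Finset.mem_univ, true_and] at hl
      ext
      show (j : ℕ) + ((l : ℕ) - (j : ℕ)) = l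
      omega
    · intro p hp
      have := Finset.HasAntidiagonal.mem_antidiagonal.1 hp
      ext
      · show (i : ℕ) - ((j : ℕ) + p.2) = p.1
        omega
      · show (j : ℕ) + p.2 - (j : ℕ) = p.2
        omega
    · intro l hl
      rfl
  · rw [if_neg hij]
    refine Finset.sum_eq_zero fun l _ => ?_
    by_cases a : (l : ℕ) ≤ (i : ℕ)
    · have b : ¬ (j : ℕ) ≤ (l : ℕ) := by omega
      simp [b]
    · simp [a]

private theorem LT_one (Q : ℕ) : LT (fun k => if k = 0 then 1 else 0) Q = 1 := by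
  ext i j
  simp only [LT, Matrix.of_apply, Matrix.one_apply]
  by_cases h : i = j
  · subst h; simp
  · rw [if_neg h]
    by_cases a : (j : ℕ) ≤ (i : ℕ)
    · have : (i : ℕ) - (j : ℕ) ≠ 0 := by
        intro h0
        apply h
        ext
        omega
      simp [this]
    · simp [a]

/-- the solution of `d(2x) = c(x) d(x)` -/
private noncomputable def dser (c : ℕ → ℂ) : ℕ → ℂ
  | 0 => 1
  | (k + 1) => (∑ j : Fin (k + 1), c (k + 1 - j) * dser c j) / (2 ^ (k + 1) - 1)

private theorem dser_rec (c : ℕ → ℂ) (hc : c 0 = 1) (k : ℕ) :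
    ∑ p ∈ Finset.HasAntidiagonal.antidiagonal k, c p.1 * dser c p.2 = 2 ^ k * dser c k := by
  rw [Finset.Nat.sum_antidiagonal_eq_sum_range_succ (fun a b => c a * dser c b) k,
    ← Finset.sum_range_reflect]
  rcases k with _ | k
  · simp [hc]
  rw [Finset.sum_range_succ]
  have h2 : ((2 : ℂ) ^ (k + 1) - 1) ≠ 0 := by
    intro h
    have h3 : ((2 : ℂ) ^ (k + 1)) = 1 := sub_eq_zero.1 h
    have h4 : ((2 ^ (k + 1) : ℕ) : ℂ) = ((1 : ℕ) : ℂ) := by push_cast; exact h3
    have h5 : (2 ^ (k + 1) : ℕ) = 1 := Nat.cast_injective h4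
    have h6 : 2 ≤ 2 ^ (k + 1) := by
      calc 2 = 2 ^ 1 := by norm_num
        _ ≤ 2 ^ (k + 1) := Nat.pow_le_pow_right (by norm_num) (by omega)
    omega
  have h3 : ∑ x ∈ Finset.range (k + 1), c (k + 1 + 1 - 1 - x) *
      dser c (k + 1 - (k + 1 + 1 - 1 - x)) =
      ∑ j : Fin (k + 1), c (k + 1 - j) * dser c j := by
    rw [← Fin.sum_univ_eq_sum_range (fun x => c (k + 1 + 1 - 1 - x) *
      dser c (k + 1 - (k + 1 + 1 - 1 - x)))]
    refine Finset.sum_congr rfl fun j _ => ?_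
    have := j.2
    have e1 : k + 1 + 1 - 1 - (j : ℕ) = k + 1 - j := by omega
    have e2 : k + 1 - (k + 1 - (j : ℕ)) = j := by omega
    rw [e1, e2]
  rw [h3]
  have h4 : (k + 1 + 1 - 1 - (k + 1)) = 0 := by omega
  rw [h4, hc, one_mul, Nat.sub_zero]
  have h5 : dser c (k + 1) = (∑ j : Fin (k + 1), c (k + 1 - j) * dser c j) / (2 ^ (k + 1) - 1) := by
    rw [dser]
  have h6 : (∑ j : Fin (k + 1), c (k + 1 - j) * dser c j) = dser c (k + 1) * (2 ^ (k + 1) - 1) := by
    rw [h5, div_mul_cancel₀ _ h2]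
  rw [h6]
  ring

/-- commutator form of a unitriangular Toeplitz matrix. -/
theorem LT_commutator (c : ℕ → ℂ) (hc : c 0 = 1) (Q : ℕ) :
    ∃ d d' : ℕ → ℂ, LT d Q * LT d' Q = 1 ∧ LT d' Q * LT d Q = 1 ∧
      LT c Q = Matrix.diagonal (fun i : Fin Q => (2 : ℂ) ^ (i : ℕ)) * LT d Q *
        Matrix.diagonal (fun i : Fin Q => ((2 : ℂ) ^ (i : ℕ))⁻¹) * LT d' Q := by
  set f : PowerSeries ℂ := PowerSeries.mk (dser c) with hf
  have hf0 : PowerSeries.constantCoeff f ≠ 0 := by
    rw [hf, ← PowerSeries.coeff_zero_eq_constantCoeff_apply, PowerSeries.coeff_mk]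
    rw [dser]; exact one_ne_zero
  have h1 : LT (dser c) Q * LT (fun n => PowerSeries.coeff n f⁻¹) Q = 1 := by
    rw [LT_mul, ← LT_one Q]
    congr 1
    funext k
    have := congrArg (PowerSeries.coeff k) (PowerSeries.mul_inv_cancel f hf0)
    rw [PowerSeries.coeff_mul, PowerSeries.coeff_one] at this
    rw [← this]
    refine Finset.sum_congr rfl fun p _ => ?_
    rw [hf, PowerSeries.coeff_mk]
  refine ⟨dser c, fun n => PowerSeries.coeff n f⁻¹, h1, mul_eq_one_comm.1 h1, ?_⟩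
  have h2 : Matrix.diagonal (fun i : Fin Q => (2 : ℂ) ^ (i : ℕ)) * LT (dser c) Q *
        Matrix.diagonal (fun i : Fin Q => ((2 : ℂ) ^ (i : ℕ))⁻¹) = LT c Q * LT (dser c) Q := by
    rw [LT_mul]
    ext i j
    rw [Matrix.mul_diagonal, Matrix.diagonal_mul]
    simp only [LT, Matrix.of_apply]
    by_cases hij : (j : ℕ) ≤ (i : ℕ)
    · rw [if_pos hij, if_pos hij, dser_rec c hc]
      have h3 : (2 : ℂ) ^ (i : ℕ) = 2 ^ ((i : ℕ) - (j : ℕ)) * 2 ^ (j : ℕ) := by
        rw [← pow_add]; congr 1; omega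
      have h4 : (2 : ℂ) ^ (j : ℕ) ≠ 0 := pow_ne_zero _ two_ne_zero
      rw [h3]
      field_simp
    · rw [if_neg hij, if_neg hij]; simp
  rw [h2, mul_assoc, h1, mul_one]

/-- `LT` is a Toeplitz matrix. -/
theorem LT_eq_Toep (c : ℕ → ℂ) (Q : ℕ) :
    LT c Q = Toep (fun k => if 0 ≤ k then c k.toNat else 0) Q := by
  ext i j
  simp only [LT, Toep, Matrix.of_apply]
  by_cases h : (j : ℕ) ≤ (i : ℕ)
  · have h1 : (0 : ℤ) ≤ (i : ℤ) - (j : ℤ) := by omega
    rw [if_pos h, if_pos h1]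
    congr 1
    omega
  · have h1 : ¬ (0 : ℤ) ≤ (i : ℤ) - (j : ℤ) := by omega
    rw [if_neg h, if_neg h1]

/-- splitting into halves. -/
theorem LT_split (c : ℕ → ℂ) (H : ℕ) :
    ∃ (e : Fin (2 * H) ≃ Fin H ⊕ Fin H) (x : ℤ → ℂ),
      LT c (2 * H) = (Matrix.fromBlocks (LT c H) 0 0 1 * lsh (Toep x H) *
        Matrix.fromBlocks 1 0 0 (LT c H)).submatrix e e := by
  refine ⟨(finCongr (two_mul H)).trans finSumFinEquiv.symm, fun k => c (k + H).toNat, ?_⟩
  unfold lsh
  rw [Matrix.fromBlocks_multiply, Matrix.fromBlocks_multiply]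
  simp only [mul_one, mul_zero, add_zero, zero_mul, zero_add, one_mul]
  set e : Fin (2 * H) ≃ Fin H ⊕ Fin H := (finCongr (two_mul H)).trans finSumFinEquiv.symm with he
  have hl : ∀ i : Fin H, ((e.symm (Sum.inl i) : Fin (2 * H)) : ℕ) = i := by
    intro i; rw [he]; simp [add_comm]
  have hr : ∀ i : Fin H, ((e.symm (Sum.inr i) : Fin (2 * H)) : ℕ) = H + i := by
    intro i; rw [he]; simp [add_comm]
  have key : (LT c (2 * H)).submatrix e.symm e.symm =
      Matrix.fromBlocks (LT c H) 0 (Toep (fun k => c (k + H).toNat) H) (LT c H) := by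
    ext s t
    rcases s with i | i <;> rcases t with j | j
    · simp only [Matrix.submatrix_apply, LT, Matrix.of_apply, Matrix.fromBlocks_apply₁₁, hl]
    · simp only [Matrix.submatrix_apply, LT, Matrix.of_apply, Matrix.fromBlocks_apply₁₂, hl, hr,
        Matrix.zero_apply]
      have := i.2
      rw [if_neg (by omega)]
    · simp only [Matrix.submatrix_apply, LT, Toep, Matrix.of_apply, Matrix.fromBlocks_apply₂₁, hl, hr]
      have := i.2
      have := j.2
      rw [if_pos (by omega)]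
      congr 1
      omega
    · simp only [Matrix.submatrix_apply, LT, Matrix.of_apply, Matrix.fromBlocks_apply₂₂, hr]
      by_cases h : (j : ℕ) ≤ (i : ℕ)
      · rw [if_pos (by omega), if_pos h]
        congr 1
        omega
      · rw [if_neg (by omega), if_neg h]
  rw [← key, Matrix.submatrix_submatrix]
  simp

/-- Whitehead: `M ⊕ M⁻¹` as a product of block shears. -/
theorem whitehead {ι : Type} [Fintype ι] [DecidableEq ι] (M M' : Matrix ι ι ℂ) (h : M * M' = 1)
    (h' : M' * M = 1) :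
    Matrix.fromBlocks M 0 0 M' = ush M * lsh (-M') * ush M *
      Matrix.fromBlocks 0 (-1) 1 0 := by
  unfold ush lsh
  simp only [Matrix.fromBlocks_multiply]
  simp [h, h']

end Crest.Agent.FC
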