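import Crest.Agent.FC.Defs

/-! T9 (row 324): the zeta transform `Sh^{⊗n}` as (shears) * (fan) * (shears), `n 2^(n-1)` shears
in total. By induction on `n`, with block form over the two halves `0 × σ`, `1 × σ`:
`[[Z,0],[Z,Z]] = [[B,0],[0,Z]] * [[K,0],[E,1]] * [[A,0],[D,1]]`, where row `∅` of `A` is `ev ∅`,
`D = diag(X ≠ ∅)`, `E` the single entry `(∅,∅)`. -/

set_option autoImplicit false

namespace Crest.Agent.FC

open Matrix

namespace ZetaFact

theorem shProd_append {σ : Type} [DecidableEq σ] [Fintype σ] {a b : ℕ} {A B : Matrix σ σ ℂ}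
    (hA : ShProd a A) (hB : ShProd b B) : ShProd (a + b) (A * B) := by
  induction hA with
  | one => simpa using hB
  | mul i j c hij hc _ ih =>
    rw [Nat.add_right_comm, Matrix.mul_assoc]
    exact ShProd.mul i j c hij hc ih

theorem shProd_reindex {σ τ : Type} [DecidableEq σ] [Fintype σ] [DecidableEq τ] [Fintype τ]
    (e : τ ≃ σ) {w : ℕ} {M : Matrix σ σ ℂ} (hM : ShProd w M) :
    ShProd w (M.submatrix e e) := by
  induction hM with
  | one => simpa using ShProd.one
  | @mul w M i j c hij hc _ ih =>
    have h : (Matrix.transvection i j c * M).submatrix e e =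
        Matrix.transvection (e.symm i) (e.symm j) c * M.submatrix e e := by
      rw [← Matrix.submatrix_mul_equiv _ _ e e e]
      congr 1
      ext s t
      simp only [Matrix.submatrix_apply, Matrix.transvection, Matrix.add_apply, Matrix.one_apply,
        Matrix.single_apply, e.injective.eq_iff, Equiv.symm_apply_eq]
    rw [h]
    exact ShProd.mul _ _ c (fun h => hij (e.symm.injective h)) hc ih

theorem shProd_left {σ τ : Type} [DecidableEq σ] [Fintype σ] [DecidableEq τ] [Fintype τ]
    {w : ℕ} {M : Matrix σ σ ℂ} (hM : ShProd w M) :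
    ShProd w (Matrix.fromBlocks M 0 0 (1 : Matrix τ τ ℂ)) := by
  induction hM with
  | one => simpa using (ShProd.one : ShProd 0 (1 : Matrix (σ ⊕ τ) (σ ⊕ τ) ℂ))
  | @mul w M i j c hij hc _ ih =>
    have h : (Matrix.fromBlocks (Matrix.transvection i j c * M) 0 0 (1 : Matrix τ τ ℂ)) =
        Matrix.transvection (Sum.inl i) (Sum.inl j) c * Matrix.fromBlocks M 0 0 (1 : Matrix τ τ ℂ) := by
      have h2 : Matrix.transvection (Sum.inl i : σ ⊕ τ) (Sum.inl j) c =
          Matrix.fromBlocks (Matrix.transvection i j c) 0 0 (1 : Matrix τ τ ℂ) := by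
        ext s t
        rcases s with s | s <;> rcases t with t | t <;>
          simp [Matrix.transvection, Matrix.single_apply, Matrix.one_apply]
      rw [h2, Matrix.fromBlocks_multiply]
      simp
    rw [h]
    exact ShProd.mul _ _ c (fun h => hij (Sum.inl_injective h)) hc ih

theorem shProd_right {σ τ : Type} [DecidableEq σ] [Fintype σ] [DecidableEq τ] [Fintype τ]
    {w : ℕ} {M : Matrix σ σ ℂ} (hM : ShProd w M) :
    ShProd w (Matrix.fromBlocks (1 : Matrix τ τ ℂ) 0 0 M) := by
  induction hM with
  | one => simpa using (ShProd.one : ShProd 0 (1 : Matrix (τ ⊕ σ) (τ ⊕ σ) ℂ))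
  | @mul w M i j c hij hc _ ih =>
    have h : (Matrix.fromBlocks (1 : Matrix τ τ ℂ) 0 0 (Matrix.transvection i j c * M)) =
        Matrix.transvection (Sum.inr i) (Sum.inr j) c *
          Matrix.fromBlocks (1 : Matrix τ τ ℂ) 0 0 M := by
      have h2 : Matrix.transvection (Sum.inr i : τ ⊕ σ) (Sum.inr j) c =
          Matrix.fromBlocks (1 : Matrix τ τ ℂ) 0 0 (Matrix.transvection i j c) := by
        ext s t
        rcases s with s | s <;> rcases t with t | t <;>
          simp [Matrix.transvection, Matrix.single_apply, Matrix.one_apply]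
      rw [h2, Matrix.fromBlocks_multiply]
      simp
    rw [h]
    exact ShProd.mul _ _ c (fun h => hij (Sum.inr_injective h)) hc ih

theorem shProd_diag {σ : Type} [DecidableEq σ] [Fintype σ] (S : Finset σ) :
    ShProd S.card (Matrix.fromBlocks (1 : Matrix σ σ ℂ) 0
      (Matrix.diagonal fun s => if s ∈ S then (1 : ℂ) else 0) 1) := by
  classical
  induction S using Finset.induction_on with
  | empty =>
    have : (Matrix.diagonal fun s : σ => if s ∈ (∅ : Finset σ) then (1 : ℂ) else 0) = 0 := by
      ext s t; simp [Matrix.diagonal_apply]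
    rw [this]
    simpa using (ShProd.one : ShProd 0 (1 : Matrix (σ ⊕ σ) (σ ⊕ σ) ℂ))
  | @insert i S hi ih =>
    rw [Finset.card_insert_of_notMem hi]
    have h : (Matrix.fromBlocks (1 : Matrix σ σ ℂ) 0
        (Matrix.diagonal fun s => if s ∈ insert i S then (1 : ℂ) else 0) 1) =
        Matrix.transvection (Sum.inr i) (Sum.inl i) 1 * (Matrix.fromBlocks (1 : Matrix σ σ ℂ) 0
          (Matrix.diagonal fun s => if s ∈ S then (1 : ℂ) else 0) 1) := by
      have h2 : Matrix.transvection (Sum.inr i : σ ⊕ σ) (Sum.inl i) (1 : ℂ) =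
          Matrix.fromBlocks 1 0 (Matrix.single i i 1) 1 := by
        ext s t
        rcases s with s | s <;> rcases t with t | t <;>
          simp [Matrix.transvection, Matrix.single_apply, Matrix.one_apply]
      rw [h2, Matrix.fromBlocks_multiply]
      congr 1
      · simp
      · simp
      · ext s t
        simp only [Matrix.mul_one, Matrix.one_mul, Matrix.add_apply, Matrix.single_apply,
          Matrix.diagonal_apply, Finset.mem_insert]
        by_cases hst : s = t
        · subst hst
          by_cases his : i = s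
          · subst his; simp [hi]
          · simp [his, Ne.symm his]
        · have : ¬ (i = s ∧ i = t) := fun h => hst (h.1.symm.trans h.2)
          simp [hst, this]
      · simp
    rw [h]
    exact ShProd.mul _ _ 1 (by simp) one_ne_zero ih

/-- The two halves. -/
def phi (n : ℕ) : (Fin (n + 1) → Fin 2) ≃ (Fin n → Fin 2) ⊕ (Fin n → Fin 2) where
  toFun s := if s 0 = 0 then Sum.inl (Fin.tail s) else Sum.inr (Fin.tail s)
  invFun := Sum.elim (fun s => Fin.cons 0 s) (fun s => Fin.cons 1 s)
  left_inv s := by
    by_cases h : s 0 = 0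
    · simp only [h, if_true, Sum.elim_inl]
      rw [← h]; exact Fin.cons_self_tail s
    · have h1 : s 0 = 1 := by omega
      simp only [h, if_false, Sum.elim_inr]
      rw [← h1]; exact Fin.cons_self_tail s
  right_inv x := by
    rcases x with s | s <;> simp

theorem eq_submatrix {n : ℕ} {M : Matrix (Fin (n + 1) → Fin 2) (Fin (n + 1) → Fin 2) ℂ}
    {N : Matrix ((Fin n → Fin 2) ⊕ (Fin n → Fin 2)) ((Fin n → Fin 2) ⊕ (Fin n → Fin 2)) ℂ}
    (h : ∀ x y, M ((phi n).symm x) ((phi n).symm y) = N x y) :
    M = N.submatrix (phi n) (phi n) := by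
  ext s t
  rw [Matrix.submatrix_apply, ← h]
  simp

/-- The fan. -/
noncomputable def K (n : ℕ) : Matrix (Fin n → Fin 2) (Fin n → Fin 2) ℂ := by
  classical
  exact Matrix.of fun s t => if s = t ∨ (t = 0 ∧ ∃ i, s = Pi.single i 1) then 1 else 0

theorem Z_succ (n : ℕ) : kpow Sh (n + 1) =
    (Matrix.fromBlocks (kpow Sh n) 0 (kpow Sh n) (kpow Sh n)).submatrix (phi n) (phi n) := by
  apply eq_submatrix
  intro x y
  rcases x with s | s <;> rcases y with t | t <;>
    simp [phi, kpow, tens, Sh, Fin.prod_univ_succ]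

theorem K_succ (n : ℕ) : K (n + 1) =
    (Matrix.fromBlocks (K n) 0 (Matrix.single 0 0 1) 1).submatrix (phi n) (phi n) := by
  classical
  have cons_eq : ∀ (a b : Fin 2) (s t : Fin n → Fin 2),
      (Fin.cons a s : Fin (n + 1) → Fin 2) = Fin.cons b t ↔ a = b ∧ s = t := by
    intro a b s t
    exact Fin.cons_inj
  have zero_eq : (0 : Fin (n + 1) → Fin 2) = Fin.cons 0 (0 : Fin n → Fin 2) := by
    ext i
    refine Fin.cases ?_ (fun j => ?_) i <;> simp
  have single_zero : (Pi.single (0 : Fin (n + 1)) (1 : Fin 2) : Fin (n + 1) → Fin 2) =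
      Fin.cons 1 (0 : Fin n → Fin 2) := by
    ext i
    refine Fin.cases ?_ (fun j => ?_) i
    · simp
    · simp [Pi.single_apply]
  have single_succ : ∀ i : Fin n, (Pi.single i.succ (1 : Fin 2) : Fin (n + 1) → Fin 2) =
      Fin.cons 0 (Pi.single i 1 : Fin n → Fin 2) := by
    intro i
    ext j
    refine Fin.cases ?_ (fun j => ?_) j
    · simp [Pi.single_apply, (Fin.succ_ne_zero i).symm]
    · simp [Pi.single_apply]
  have ex_iff : ∀ (u : Fin (n + 1) → Fin 2), (∃ i, u = Pi.single i 1) ↔
      (u = Fin.cons 1 (0 : Fin n → Fin 2) ∨ ∃ i : Fin n, u = Fin.cons 0 (Pi.single i 1 : Fin n → Fin 2)) := by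
    intro u
    rw [Fin.exists_fin_succ, single_zero]
    simp only [single_succ]
  apply eq_submatrix
  intro x y
  rcases x with s | s <;> rcases y with t | t <;>
    simp only [phi, K, Equiv.coe_fn_symm_mk, Sum.elim_inl, Sum.elim_inr, Matrix.of_apply,
      Matrix.fromBlocks_apply₁₁, Matrix.fromBlocks_apply₁₂, Matrix.fromBlocks_apply₂₁,
      Matrix.fromBlocks_apply₂₂, ex_iff, cons_eq, zero_eq, Matrix.single_apply,
      Matrix.one_apply, Matrix.zero_apply]
  · simp
  · simp
  · simp [and_comm, eq_comm]
  · simp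

theorem zeta_aux (n : ℕ) :
    ShProd n (K n) ∧ ∃ (a b : ℕ) (A B : Matrix (Fin n → Fin 2) (Fin n → Fin 2) ℂ),
      ShProd a A ∧ ShProd b B ∧ a + b + n = n * 2 ^ (n - 1) ∧
      (∀ t, A 0 t = if t = 0 then 1 else 0) ∧ kpow Sh n = B * K n * A := by
  classical
  induction n with
  | zero =>
    have hK : K 0 = 1 := by
      ext s t
      obtain rfl : s = t := Subsingleton.elim _ _
      simp [K]
    refine ⟨hK ▸ ShProd.one, 0, 0, 1, 1, ShProd.one, ShProd.one, by simp, ?_, ?_⟩
    · intro t
      rw [Matrix.one_apply]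
      simp [Subsingleton.elim t 0]
    · rw [hK]
      ext s t
      obtain rfl : s = t := Subsingleton.elim _ _
      simp [kpow, tens]
  | succ n ih =>
    obtain ⟨hK, a, b, A, B, hA, hB, hab, hrow, hZ⟩ := ih
    have hE : Matrix.single (0 : Fin n → Fin 2) (0 : Fin n → Fin 2) (1 : ℂ) * A =
        Matrix.single 0 0 1 := by
      ext s t
      rw [Matrix.mul_apply]
      rw [Finset.sum_eq_single (0 : Fin n → Fin 2)]
      · rw [hrow t]
        simp only [Matrix.single_apply]
        by_cases hs : s = 0
        · subst hs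
          by_cases ht : t = 0
          · subst ht; simp
          · simp [ht, Ne.symm ht, eq_comm]
        · simp [Ne.symm hs, hs, eq_comm]
      · intro u _ hu
        simp [Matrix.single_apply, Ne.symm hu]
      · intro h; exact absurd (Finset.mem_univ _) h
    have hZs : ShProd (n * 2 ^ (n - 1)) (kpow Sh n) := by
      rw [hZ, ← hab]
      have := shProd_append (shProd_append hB hK) hA
      have e : b + n + a = a + b + n := by ring
      rwa [e] at this
    set D : Matrix (Fin n → Fin 2) (Fin n → Fin 2) ℂ :=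
      Matrix.diagonal fun s => if s ∈ (Finset.univ.erase 0 : Finset (Fin n → Fin 2)) then (1 : ℂ) else 0
      with hD
    have hDE : Matrix.single (0 : Fin n → Fin 2) (0 : Fin n → Fin 2) (1 : ℂ) + D = 1 := by
      ext s t
      simp only [hD, Matrix.add_apply, Matrix.single_apply, Matrix.diagonal_apply,
        Matrix.one_apply, Finset.mem_erase, Finset.mem_univ, and_true]
      by_cases hst : s = t
      · subst hst
        by_cases hs : s = 0
        · subst hs; simp
        · simp [hs, Ne.symm hs]
      · have : ¬ ((0 : Fin n → Fin 2) = s ∧ (0 : Fin n → Fin 2) = t) :=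
          fun h => hst (h.1.symm.trans h.2)
        simp [hst, this]
    have hcard : (Finset.univ.erase 0 : Finset (Fin n → Fin 2)).card = 2 ^ n - 1 := by
      rw [Finset.card_erase_of_mem (Finset.mem_univ _), Finset.card_univ]
      simp
    have hDs : ShProd (2 ^ n - 1) (Matrix.fromBlocks (1 : Matrix (Fin n → Fin 2) (Fin n → Fin 2) ℂ) 0 D 1) := by
      rw [← hcard]; exact shProd_diag _
    refine ⟨?_, a + (2 ^ n - 1), b + n * 2 ^ (n - 1),
      (Matrix.fromBlocks A 0 D 1).submatrix (phi n) (phi n),
      (Matrix.fromBlocks B 0 0 (kpow Sh n)).submatrix (phi n) (phi n), ?_, ?_, ?_, ?_, ?_⟩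
    · rw [K_succ]
      apply shProd_reindex
      have h : Matrix.fromBlocks (K n) 0 (Matrix.single 0 0 1) (1 : Matrix (Fin n → Fin 2) (Fin n → Fin 2) ℂ) =
          Matrix.fromBlocks (K n) 0 0 1 *
            (Matrix.transvection (Sum.inr 0) (Sum.inl 0) 1 * 1) := by
        have h2 : Matrix.transvection (Sum.inr 0 : (Fin n → Fin 2) ⊕ (Fin n → Fin 2)) (Sum.inl 0) (1 : ℂ) =
            Matrix.fromBlocks 1 0 (Matrix.single 0 0 1) 1 := by
          ext s t
          rcases s with s | s <;> rcases t with t | t <;>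
            simp [Matrix.transvection, Matrix.single_apply, Matrix.one_apply]
        rw [h2, Matrix.mul_one, Matrix.fromBlocks_multiply]
        simp
      rw [h]
      exact shProd_append (shProd_left hK) (ShProd.mul _ _ 1 (by simp) one_ne_zero ShProd.one)
    · apply shProd_reindex
      have h : Matrix.fromBlocks A 0 D (1 : Matrix (Fin n → Fin 2) (Fin n → Fin 2) ℂ) =
          Matrix.fromBlocks A 0 0 1 * Matrix.fromBlocks 1 0 D 1 := by
        rw [Matrix.fromBlocks_multiply]; simp
      rw [h]
      exact shProd_append (shProd_left hA) hDs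
    · apply shProd_reindex
      have h : Matrix.fromBlocks B 0 0 (kpow Sh n) =
          Matrix.fromBlocks B 0 0 1 * Matrix.fromBlocks 1 0 0 (kpow Sh n) := by
        rw [Matrix.fromBlocks_multiply]; simp
      rw [h]
      exact shProd_append (shProd_left hB) (shProd_right hZs)
    · have h1 : 1 ≤ 2 ^ n := Nat.one_le_two_pow
      rw [Nat.add_sub_cancel]
      have h2 : n * 2 ^ (n - 1) + n * 2 ^ (n - 1) = n * 2 ^ n := by
        rcases n with _ | n
        · simp
        · rw [Nat.add_sub_cancel, pow_succ]; ring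
      have h3 : (n + 1) * 2 ^ n = n * 2 ^ n + 2 ^ n := by ring
      omega
    · intro t
      obtain ⟨y, rfl⟩ := (phi n).symm.surjective t
      have h0 : (phi n) 0 = Sum.inl 0 := by
        simp [phi]; rfl
      rw [Matrix.submatrix_apply, Equiv.apply_symm_apply, h0]
      have hz : (phi n).symm y = 0 ↔ y = Sum.inl 0 := by
        rw [Equiv.symm_apply_eq, h0]
      rw [show (if (phi n).symm y = 0 then (1 : ℂ) else 0) = if y = Sum.inl 0 then 1 else 0 from
        if_congr hz rfl rfl]
      rcases y with y | y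
      · rw [Matrix.fromBlocks_apply₁₁, hrow]
        simp
      · rw [Matrix.fromBlocks_apply₁₂]
        simp
    · rw [K_succ, Z_succ, Matrix.submatrix_mul_equiv, Matrix.submatrix_mul_equiv,
        Matrix.fromBlocks_multiply, Matrix.fromBlocks_multiply]
      congr 1
      congr 1
      · simp [hZ]
      · simp
      · simp only [Matrix.zero_mul, zero_add, Matrix.mul_zero, Matrix.mul_one, add_zero]
        rw [Matrix.mul_assoc, hE, ← Matrix.mul_add, hDE, Matrix.mul_one]
      · simp

end ZetaFact

open ZetaFact in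
theorem zeta_fact (n : ℕ) :
    ∃ (Rst : Type) (_ : Fintype Rst) (_ : DecidableEq Rst)
      (e : (Fin n → Fin 2) ≃ Option (Fin n) ⊕ Rst) (a b : ℕ)
      (A B : Matrix (Fin n → Fin 2) (Fin n → Fin 2) ℂ),
      ShProd a A ∧ ShProd b B ∧ a + b + n = n * 2 ^ (n - 1) ∧
      Fintype.card Rst + (n + 1) = 2 ^ n ∧
      kpow Sh n =
        B * (Matrix.fromBlocks (Fan n) 0 0 (1 : Matrix Rst Rst ℂ)).submatrix e e * A := by
  classical
  obtain ⟨_, a, b, A, B, hA, hB, hab, _, hZ⟩ := zeta_aux n
  let f : Option (Fin n) → (Fin n → Fin 2) := fun o => o.elim 0 (fun i => Pi.single i 1)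
  have hf : Function.Injective f := by
    intro x y h
    rcases x with _ | i <;> rcases y with _ | j
    · rfl
    · exfalso
      have := congrFun h j
      simp [f] at this
    · exfalso
      have := congrFun h i
      simp [f] at this
    · have := congrFun h i
      by_cases hij : i = j
      · rw [hij]
      · simp [f, Pi.single_apply, hij] at this
  let Rst : Type := {s : Fin n → Fin 2 // s ∉ Set.range f}
  let e : (Fin n → Fin 2) ≃ Option (Fin n) ⊕ Rst :=
    ((Equiv.Set.sumCompl (Set.range f)).symm.trans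
      (Equiv.sumCongr (Equiv.ofInjective f hf).symm (Equiv.refl _)))
  have he1 : ∀ o, e.symm (Sum.inl o) = f o := by
    intro o
    simp [e]
  have he2 : ∀ r : Rst, e.symm (Sum.inr r) = r.1 := by
    intro r
    simp [e]
    rfl
  refine ⟨Rst, inferInstance, inferInstance, e, a, b, A, B, hA, hB, hab, ?_, ?_⟩
  · have := Fintype.card_congr e
    rw [Fintype.card_sum, Fintype.card_option, Fintype.card_fin] at this
    simp only [Fintype.card_pi, Fintype.card_fin, Finset.prod_const, Finset.card_univ] at this
    omega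
  · rw [hZ]
    congr 2
    ext s t
    obtain ⟨x, rfl⟩ := e.symm.surjective s
    obtain ⟨y, rfl⟩ := e.symm.surjective t
    rw [Matrix.submatrix_apply, Equiv.apply_symm_apply, Equiv.apply_symm_apply]
    rcases x with x | x <;> rcases y with y | y
    · rw [he1, he1, Matrix.fromBlocks_apply₁₁]
      simp only [K, Fan, Matrix.of_apply, hf.eq_iff]
      rcases y with _ | y
      · rcases x with _ | x
        · simp
        · simp only [f, Option.elim, Option.some_ne_none, false_or]
          have : ∃ i, (Pi.single x 1 : Fin n → Fin 2) = Pi.single i 1 := ⟨x, rfl⟩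
          simp [this]
      · have : f (some y) ≠ 0 := by
          intro h
          have := congrFun h y
          simp [f] at this
        simp [this]
    · rw [he1, he2, Matrix.fromBlocks_apply₁₂]
      have h1 : f x ≠ y.1 := fun h => y.2 ⟨x, h⟩
      have h2 : y.1 ≠ 0 := fun h => y.2 ⟨none, by simp [f, h]⟩
      simp [K, h1, h2]
    · rw [he1, he2, Matrix.fromBlocks_apply₂₁]
      have h1 : x.1 ≠ f y := fun h => x.2 ⟨y, h.symm⟩
      have h2 : ¬ ∃ i, x.1 = Pi.single i 1 := fun ⟨i, h⟩ => x.2 ⟨some i, by simp [f, h]⟩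
      simp [K, h1, h2]
    · rw [he2, he2, Matrix.fromBlocks_apply₂₂]
      have h2 : ¬ ∃ i, x.1 = Pi.single i 1 := fun ⟨i, h⟩ => x.2 ⟨some i, by simp [f, h]⟩
      simp only [K, Matrix.of_apply, h2, and_false, or_false, Matrix.one_apply]
      by_cases h : x = y
      · simp [h]
      · have : x.1 ≠ y.1 := fun h' => h (Subtype.ext h')
        simp [h, this]

end Crest.Agent.FC
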