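import Crest.Agent.FC.TensShear
import Crest.Agent.FC.KpowSplit
import Crest.Agent.FC.Gadget
import Crest.Agent.FC.ZetaFact

/-! T10 (row 324): the recursion inequalities (assembly of T5, T6, T7, T8, T9).
`rec_uu`: `cost (kpow Sh (24*k)) ≤ cost (kpow (kpow Sh 24) k)`, then `zeta_fact 24`, `kpow_mul`,
`cost_mul_le`, `cost_kpow_ShProd` for `A` and `B` (`a + b = 24*2^23 - 24`,
`card = 2^24`), and `cost_kpow_reindex`, `cost_kpow_ext` for the fan (`card Rst = 2^24 - 25`).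
`rec_kk`: `cost_kpow_cube`, `gadget`, `cost_kpow_ShProd` (`card = 25^3 = 15625`). Cast to `ℝ`. -/

set_option autoImplicit false

namespace Crest.Agent.FC

open Matrix Finset

noncomputable def uu (a : ℕ) : ℝ := (cost (kpow Sh a) : ℝ)

noncomputable def kk (b : ℕ) : ℝ := (cost (kpow (Fan 24) b) : ℝ)

theorem uu_zero : uu 0 = 0 := by
  unfold uu
  rw [kpow_zero, cost_one_eq, Nat.cast_zero]

theorem cast_Gb (L N : ℕ) (hLN : L ≤ N) (g : ℕ → ℕ) (k : ℕ) :
    ((∑ a ∈ range (k + 1), k.choose a * (N - L) ^ (k - a) * g a : ℕ) : ℝ) =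
      Gb (L : ℝ) (N : ℝ) (fun a => (g a : ℝ)) k := by
  unfold Gb
  rw [Nat.cast_sum]
  apply Finset.sum_congr rfl
  intro a _
  rw [Nat.cast_mul, Nat.cast_mul, Nat.cast_pow, Nat.cast_sub hLN]

theorem shprod_real {σ : Type} [Fintype σ] [DecidableEq σ] {w : ℕ} {M : Matrix σ σ ℂ}
    (h : ShProd w M) (k : ℕ) (h2 : 2 ≤ Fintype.card σ) :
    (cost (kpow M k) : ℝ) ≤
      w * Gb 2 (Fintype.card σ : ℝ) (fun a => uu a + 2 * 2 ^ a) k := by
  have h1 := cost_kpow_ShProd h k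
  have h3 : (cost (kpow M k) : ℝ) ≤ ((w * ∑ a ∈ range (k + 1),
        k.choose a * (Fintype.card σ - 2) ^ (k - a) * (cost (kpow Sh a) + 2 * 2 ^ a) : ℕ) : ℝ) :=
    by exact_mod_cast h1
  refine h3.trans (le_of_eq ?_)
  rw [Nat.cast_mul, cast_Gb 2 (Fintype.card σ) h2 (fun a => cost (kpow Sh a) + 2 * 2 ^ a) k]
  have h4 : (fun a => ((cost (kpow Sh a) + 2 * 2 ^ a : ℕ) : ℝ)) = fun a => uu a + 2 * 2 ^ a := by
    funext a
    unfold uu
    push_cast
    ring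
  rw [h4]
  norm_num

theorem rec_uu (k : ℕ) :
    uu (24 * k) ≤ (24 * 2 ^ 23 - 24) * Gb 2 (2 ^ 24) (fun a => uu a + 2 * 2 ^ a) k +
      Gb 25 (2 ^ 24) kk k := by
  obtain ⟨Rst, hF, hD, e, a, b, A, B, hA, hB, hab, hcard, hfac⟩ := zeta_fact 24
  have hc : Fintype.card (Fin 24 → Fin 2) = 2 ^ 24 := by simp
  have hc2 : (2 : ℕ) ≤ Fintype.card (Fin 24 → Fin 2) := by rw [hc]; norm_num
  have hR : Fintype.card Rst = 2 ^ 24 - 25 := by omega
  have h1 : cost (kpow Sh (24 * k)) ≤ cost (kpow B k) +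
      cost (kpow (Matrix.fromBlocks (Fan 24) 0 0 (1 : Matrix Rst Rst ℂ)) k) +
      cost (kpow A k) := by
    refine (cost_kpow_mul_le Sh 24 k).trans ?_
    rw [hfac, kpow_mul, kpow_mul]
    refine (cost_mul_le _ _).trans ?_
    refine Nat.add_le_add_right ?_ _
    refine (cost_mul_le _ _).trans ?_
    exact Nat.add_le_add_left (cost_kpow_reindex e _ k) _
  have h2 := cost_kpow_ext (R := Rst) (Fan 24) k
  have h3 : (cost (kpow (Matrix.fromBlocks (Fan 24) 0 0 (1 : Matrix Rst Rst ℂ)) k) : ℝ) ≤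
      Gb 25 (2 ^ 24) kk k := by
    have h5 : (cost (kpow (Matrix.fromBlocks (Fan 24) 0 0 (1 : Matrix Rst Rst ℂ)) k) : ℝ) ≤
        ((∑ a ∈ range (k + 1), k.choose a * (2 ^ 24 - 25) ^ (k - a) * cost (kpow (Fan 24) a) : ℕ) :
          ℝ) := by
      rw [hR] at h2
      exact_mod_cast h2
    refine h5.trans (le_of_eq ?_)
    rw [cast_Gb 25 (2 ^ 24) (by norm_num) (fun a => cost (kpow (Fan 24) a)) k]
    norm_num
    rfl
  have hAr := shprod_real hA k hc2
  have hBr := shprod_real hB k hc2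
  rw [hc] at hAr hBr
  have h6 : uu (24 * k) ≤ (cost (kpow B k) : ℝ) +
      (cost (kpow (Matrix.fromBlocks (Fan 24) 0 0 (1 : Matrix Rst Rst ℂ)) k) : ℝ) +
      (cost (kpow A k) : ℝ) := by
    unfold uu
    exact_mod_cast h1
  have habr : (a : ℝ) + b = 24 * 2 ^ 23 - 24 := by
    have : (a : ℝ) + b + 24 = 24 * 2 ^ 23 := by exact_mod_cast hab
    linarith
  rw [← habr]
  rw [Nat.cast_pow, Nat.cast_ofNat] at hAr hBr
  have h7 : ((a : ℝ) + b) * Gb 2 (2 ^ 24) (fun a => uu a + 2 * 2 ^ a) k =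
      a * Gb 2 (2 ^ 24) (fun a => uu a + 2 * 2 ^ a) k +
      b * Gb 2 (2 ^ 24) (fun a => uu a + 2 * 2 ^ a) k := by ring
  rw [h7]
  linarith

theorem rec_kk (m : ℕ) :
    kk (3 * m) ≤ 44923 * Gb 2 15625 (fun a => uu a + 2 * 2 ^ a) m := by
  have hc : Fintype.card (Option (Fin 24) × Option (Fin 24) × Option (Fin 24)) = 15625 := by
    simp
  have h1 := shprod_real gadget m (by rw [hc]; norm_num)
  rw [hc] at h1
  have h2 : kk (3 * m) ≤ (cost (kpow (cube (Fan 24)) m) : ℝ) := by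
    unfold kk
    exact_mod_cast cost_kpow_cube (Fan 24) m
  refine h2.trans (h1.trans (le_of_eq ?_))
  norm_num

theorem rec_kk_add (m r : ℕ) : kk (3 * m + r) ≤ 25 ^ r * kk (3 * m) + 25 ^ (3 * m) * kk r := by
  have hc : Fintype.card (Option (Fin 24)) = 25 := by simp
  have h1 := cost_kpow_add (Fan 24) (3 * m) r
  rw [hc] at h1
  unfold kk
  exact_mod_cast h1

theorem rec_uu_add (k r : ℕ) : uu (24 * k + r) ≤ 2 ^ r * uu (24 * k) + 2 ^ (24 * k) * uu r := by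
  have hc : Fintype.card (Fin 2) = 2 := by simp
  have h1 := cost_kpow_add Sh (24 * k) r
  rw [hc] at h1
  unfold uu
  exact_mod_cast h1

end Crest.Agent.FC
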