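import Crest.Agent.FC.Cost
import Crest.Agent.FC.Tens

/-! T5 (row 324): tensor powers of a matrix extended by an identity block.

Proof: for `a k : ℕ` let `N a k` be the matrix on `(Fin a → Λ) × (Fin k → Λ ⊕ R)`,
`N a k (s,u) (t,v) = (∏ i, M0 (s i) (t i)) * ∏ i, (M0 ⊕ 1) (u i) (v i)`.
Splitting the first letter of the second word (`inl λ` or `inr ρ`) and reindexing,
`N a (k+1)` is block diagonal: one block `N (a+1) k` and, for each `ρ : R`, one block `N a k`.
Hence `cost (N a (k+1)) ≤ cost (N (a+1) k) + card R * cost (N a k)` (`cost_submatrix_equiv`,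
`cost_fromBlocks_le`, `cost_bdiag_le`), and `cost (N a 0) = cost (kpow M0 a)`. By induction on `k`,
`cost (N a k) ≤ ∑ b ∈ range (k+1), k.choose b * card R ^ (k-b) * cost (kpow M0 (a+b))` (Pascal).
Finally `kpow (M0 ⊕ 1) k ≅ N 0 k`. -/

set_option autoImplicit false

namespace Crest.Agent.FC

open Matrix Finset

/-- the mixed tensor power -/
private noncomputable def Nmix {Λ R : Type} [DecidableEq R] (M0 : Matrix Λ Λ ℂ) (a k : ℕ) :
    Matrix ((Fin a → Λ) × (Fin k → Λ ⊕ R)) ((Fin a → Λ) × (Fin k → Λ ⊕ R)) ℂ :=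
  Matrix.of fun s t => (∏ i, M0 (s.1 i) (t.1 i)) *
    ∏ i, (Matrix.fromBlocks M0 0 0 (1 : Matrix R R ℂ)) (s.2 i) (t.2 i)

private theorem Nmix_apply {Λ R : Type} [DecidableEq R] (M0 : Matrix Λ Λ ℂ) (a k : ℕ)
    (s t : (Fin a → Λ) × (Fin k → Λ ⊕ R)) :
    Nmix M0 a k s t = (∏ i, M0 (s.1 i) (t.1 i)) *
      ∏ i, (Matrix.fromBlocks M0 0 0 (1 : Matrix R R ℂ)) (s.2 i) (t.2 i) := rfl

/-- splitting the first letter of the second word -/
private def splitF {Λ R : Type} (a k : ℕ) (p : (Fin a → Λ) × (Fin (k + 1) → Λ ⊕ R)) :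
    ((Fin (a + 1) → Λ) × (Fin k → Λ ⊕ R)) ⊕ (R × ((Fin a → Λ) × (Fin k → Λ ⊕ R))) :=
  match p.2 0 with
  | Sum.inl l => Sum.inl (Fin.cons l p.1, fun i => p.2 i.succ)
  | Sum.inr r => Sum.inr (r, (p.1, fun i => p.2 i.succ))

private theorem splitF_inl {Λ R : Type} (a k : ℕ) (p : (Fin a → Λ) × (Fin (k + 1) → Λ ⊕ R))
    {l : Λ} (h : p.2 0 = Sum.inl l) :
    splitF a k p = Sum.inl (Fin.cons l p.1, fun i => p.2 i.succ) := by
  unfold splitF; rw [h]

private theorem splitF_inr {Λ R : Type} (a k : ℕ) (p : (Fin a → Λ) × (Fin (k + 1) → Λ ⊕ R))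
    {r : R} (h : p.2 0 = Sum.inr r) :
    splitF a k p = Sum.inr (r, (p.1, fun i => p.2 i.succ)) := by
  unfold splitF; rw [h]

private theorem splitF_inj {Λ R : Type} (a k : ℕ) :
    Function.Injective (splitF (Λ := Λ) (R := R) a k) := by
  intro p q h
  rcases hp : p.2 0 with l | r <;> rcases hq : q.2 0 with l' | r'
  · rw [splitF_inl a k p hp, splitF_inl a k q hq] at h
    have h1 := Sum.inl_injective h
    rw [Prod.mk.injEq] at h1
    obtain ⟨h2, h3⟩ := h1
    have h4 : l = l' := by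
      have := congrFun h2 0
      simpa using this
    have h5 : p.1 = q.1 := by
      funext i
      have := congrFun h2 i.succ
      simpa using this
    refine Prod.ext h5 ?_
    funext i
    refine Fin.cases ?_ (fun j => ?_) i
    · rw [hp, hq, h4]
    · exact congrFun h3 j
  · rw [splitF_inl a k p hp, splitF_inr a k q hq] at h
    exact absurd h (by simp)
  · rw [splitF_inr a k p hp, splitF_inl a k q hq] at h
    exact absurd h (by simp)
  · rw [splitF_inr a k p hp, splitF_inr a k q hq] at h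
    have h1 := Sum.inr_injective h
    rw [Prod.mk.injEq, Prod.mk.injEq] at h1
    obtain ⟨h4, h5, h3⟩ := h1
    refine Prod.ext h5 ?_
    funext i
    refine Fin.cases ?_ (fun j => ?_) i
    · rw [hp, hq, h4]
    · exact congrFun h3 j

private theorem Nmix_succ {Λ R : Type} [DecidableEq R] (M0 : Matrix Λ Λ ℂ) (a k : ℕ) :
    (Nmix M0 a (k + 1) : Matrix _ ((Fin a → Λ) × (Fin (k + 1) → Λ ⊕ R)) ℂ) =
      (Matrix.fromBlocks (Nmix M0 (a + 1) k) 0 0
        (bdiag (fun _ : R => Nmix (R := R) M0 a k))).submatrix (splitF a k) (splitF a k) := by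
  ext p q
  rw [Matrix.submatrix_apply, Nmix_apply, Fin.prod_univ_succ]
  rcases hp : p.2 0 with l | r <;> rcases hq : q.2 0 with l' | r'
  · rw [splitF_inl a k p hp, splitF_inl a k q hq, Matrix.fromBlocks_apply₁₁,
      Matrix.fromBlocks_apply₁₁, Nmix_apply, Fin.prod_univ_succ]
    simp only [Fin.cons_zero, Fin.cons_succ]
    ring
  · rw [splitF_inl a k p hp, splitF_inr a k q hq, Matrix.fromBlocks_apply₁₂,
      Matrix.fromBlocks_apply₁₂]
    simp
  · rw [splitF_inr a k p hp, splitF_inl a k q hq, Matrix.fromBlocks_apply₂₁,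
      Matrix.fromBlocks_apply₂₁]
    simp
  · rw [splitF_inr a k p hp, splitF_inr a k q hq, Matrix.fromBlocks_apply₂₂,
      Matrix.fromBlocks_apply₂₂, bdiag_apply]
    by_cases hr : r = r'
    · subst hr
      rw [Matrix.one_apply_eq, if_pos rfl, one_mul, Nmix_apply]
    · rw [Matrix.one_apply_ne hr, if_neg hr]
      ring

private theorem cost_Nmix_succ {Λ R : Type} [Fintype Λ] [Fintype R] [DecidableEq R]
    (M0 : Matrix Λ Λ ℂ) (a k : ℕ) :
    cost (Nmix (R := R) M0 a (k + 1)) ≤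
      cost (Nmix (R := R) M0 (a + 1) k) + Fintype.card R * cost (Nmix (R := R) M0 a k) := by
  rw [Nmix_succ]
  refine (cost_submatrix_le _ _ _ (splitF_inj a k)).trans ?_
  refine (cost_fromBlocks_le _ _).trans ?_
  gcongr
  refine (cost_bdiag_le _).trans ?_
  simp

private theorem cost_Nmix_zero {Λ R : Type} [Fintype Λ] [Fintype R] [DecidableEq R]
    (M0 : Matrix Λ Λ ℂ) (a : ℕ) :
    cost (Nmix (R := R) M0 a 0) ≤ cost (kpow M0 a) := by
  have : (Nmix (R := R) M0 a 0) = (kpow M0 a).submatrix Prod.fst Prod.fst := by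
    ext p q
    rw [Nmix_apply, Matrix.submatrix_apply]
    simp [kpow, tens]
  rw [this]
  refine cost_submatrix_le _ _ _ ?_
  intro p q h
  exact Prod.ext h (Subsingleton.elim _ _)

private theorem pascal_sum (c a k : ℕ) (f : ℕ → ℕ) :
    (∑ b ∈ range (k + 1), k.choose b * c ^ (k - b) * f (a + 1 + b)) +
      c * (∑ b ∈ range (k + 1), k.choose b * c ^ (k - b) * f (a + b)) =
      ∑ b ∈ range (k + 1 + 1), (k + 1).choose b * c ^ (k + 1 - b) * f (a + b) := by
  have h1 : c * (∑ b ∈ range (k + 1), k.choose b * c ^ (k - b) * f (a + b)) =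
      ∑ b ∈ range (k + 1 + 1), k.choose b * c ^ (k + 1 - b) * f (a + b) := by
    rw [Finset.sum_range_succ _ (k + 1), Nat.choose_eq_zero_of_lt (Nat.lt_succ_self k),
      zero_mul, zero_mul, add_zero, Finset.mul_sum]
    refine Finset.sum_congr rfl fun b hb => ?_
    have hb' : b ≤ k := Nat.lt_succ_iff.1 (Finset.mem_range.1 hb)
    have : k + 1 - b = (k - b) + 1 := by omega
    rw [this, pow_succ]
    ring
  rw [h1, Finset.sum_range_succ' _ (k + 1), Finset.sum_range_succ' _ (k + 1), ← add_assoc,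
    ← Finset.sum_add_distrib]
  congr 1
  · refine Finset.sum_congr rfl fun b hb => ?_
    rw [Nat.choose_succ_succ, Nat.succ_sub_succ]
    have : a + 1 + b = a + (b + 1) := by ring
    rw [this]
    ring
  · simp

private theorem cost_Nmix {Λ R : Type} [Fintype Λ] [Fintype R] [DecidableEq R]
    (M0 : Matrix Λ Λ ℂ) (k : ℕ) : ∀ a : ℕ,
    cost (Nmix (R := R) M0 a k) ≤
      ∑ b ∈ range (k + 1), k.choose b * Fintype.card R ^ (k - b) * cost (kpow M0 (a + b)) := by
  induction k with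
  | zero =>
    intro a
    simpa using cost_Nmix_zero (R := R) M0 a
  | succ k ih =>
    intro a
    rw [← pascal_sum (Fintype.card R) a k (fun b => cost (kpow M0 b))]
    exact (cost_Nmix_succ M0 a k).trans (add_le_add (ih (a + 1)) (Nat.mul_le_mul_left _ (ih a)))

theorem cost_kpow_ext {Λ R : Type} [Fintype Λ] [Fintype R] [DecidableEq R] (M0 : Matrix Λ Λ ℂ)
    (k : ℕ) :
    cost (kpow (Matrix.fromBlocks M0 0 0 (1 : Matrix R R ℂ)) k) ≤
      ∑ a ∈ range (k + 1), k.choose a * Fintype.card R ^ (k - a) * cost (kpow M0 a) := by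
  have h : kpow (Matrix.fromBlocks M0 0 0 (1 : Matrix R R ℂ)) k =
      (Nmix (R := R) M0 0 k).submatrix (fun u => (Fin.elim0, u)) (fun u => (Fin.elim0, u)) := by
    ext p q
    rw [Matrix.submatrix_apply, Nmix_apply]
    simp [kpow, tens]
  rw [h]
  refine (cost_submatrix_le _ _ _ ?_).trans ?_
  · intro u v huv
    exact (Prod.mk.inj huv).2
  · exact (cost_Nmix (R := R) M0 k 0).trans
      (le_of_eq (Finset.sum_congr rfl fun b _ => by rw [Nat.zero_add]))

end Crest.Agent.FC
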