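import Crest.Agent.FC.TensExt

/-! T6 (row 324): tensor powers of transvections and of products of transvections.

* `Lc c = diagonal ![1, c] * Sh * diagonal ![1, c⁻¹]` for `c ≠ 0`; so
  `tens (Lc (c i)) = diagonal * kpow Sh k * diagonal` (`tens_mul`, `tens_diagonal`), cost
  `≤ cost (kpow Sh k) + 2 * 2^k`.
* transvection `i j c` (`x_i += c x_j`): `σ ≃ Fin 2 ⊕ {s // s ≠ i ∧ s ≠ j}` with `j ↦ inl 0`,
  `i ↦ inl 1`; under this relabelling the transvection is `fromBlocks (Lc c) 0 0 1`
  (`kpow_submatrix`, `cost_submatrix_le`, `cost_kpow_ext`).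
* product: `kpow_mul`, `cost_mul_le`, induction on `ShProd`. -/

set_option autoImplicit false

namespace Crest.Agent.FC

open Matrix Finset

theorem cost_tens_Lc {k : ℕ} (c : Fin k → ℂ) (hc : ∀ i, c i ≠ 0) :
    cost (tens (σ := fun _ : Fin k => Fin 2) (fun i => Lc (c i))) ≤
      cost (kpow Sh k) + 2 * 2 ^ k := by
  have h1 : (fun i => Lc (c i)) = fun i => (Matrix.diagonal ![1, c i] * Sh) *
      Matrix.diagonal ![1, (c i)⁻¹] := by
    funext i
    ext s t
    fin_cases s <;> fin_cases t <;>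
      simp [Lc, Sh, Matrix.mul_apply, Matrix.diagonal, hc i]
  have h2 : tens (σ := fun _ : Fin k => Fin 2) (fun i => Lc (c i)) =
      (Matrix.diagonal (fun s => ∏ i, (![1, c i] : Fin 2 → ℂ) (s i)) * kpow Sh k) *
        Matrix.diagonal (fun s => ∏ i, (![1, (c i)⁻¹] : Fin 2 → ℂ) (s i)) := by
    rw [h1, tens_mul (σ := fun _ : Fin k => Fin 2), tens_mul (σ := fun _ : Fin k => Fin 2),
      tens_diagonal (σ := fun _ : Fin k => Fin 2), tens_diagonal (σ := fun _ : Fin k => Fin 2)]
    rfl
  have hcard : Fintype.card (Fin k → Fin 2) = 2 ^ k := by simp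
  rw [h2]
  refine (cost_mul_le _ _).trans ?_
  have h3 := cost_mul_le (Matrix.diagonal (fun s : Fin k → Fin 2 =>
    ∏ i, (![1, c i] : Fin 2 → ℂ) (s i))) (kpow Sh k)
  have h4 := cost_diagonal_le (fun s : Fin k → Fin 2 => ∏ i, (![1, c i] : Fin 2 → ℂ) (s i))
  have h5 := cost_diagonal_le (fun s : Fin k → Fin 2 => ∏ i, (![1, (c i)⁻¹] : Fin 2 → ℂ) (s i))
  rw [hcard] at h4 h5
  omega

theorem cost_kpow_transvection {σ : Type} [Fintype σ] [DecidableEq σ] (i j : σ) (hij : i ≠ j)
    (c : ℂ) (hc : c ≠ 0) (k : ℕ) :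
    cost (kpow (Matrix.transvection i j c) k) ≤
      ∑ a ∈ range (k + 1),
        k.choose a * (Fintype.card σ - 2) ^ (k - a) * (cost (kpow Sh a) + 2 * 2 ^ a) := by
  classical
  let f : Fin 2 → σ := ![j, i]
  have hf : Function.Injective f := by
    intro a b h
    fin_cases a <;> fin_cases b <;> simp_all [f, eq_comm]
  let R : Type := {s : σ // s ∉ Set.range f}
  let e : σ ≃ Fin 2 ⊕ R :=
    ((Equiv.Set.sumCompl (Set.range f)).symm.trans
      (Equiv.sumCongr (Equiv.ofInjective f hf).symm (Equiv.refl _)))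
  have he1 : ∀ o, e.symm (Sum.inl o) = f o := by
    intro o
    simp [e]
  have he2 : ∀ r : R, e.symm (Sum.inr r) = r.1 := by
    intro r
    simp [e]
    rfl
  have hR : Fintype.card R = Fintype.card σ - 2 := by
    have := Fintype.card_congr e
    rw [Fintype.card_sum, Fintype.card_fin] at this
    omega
  have hfi : f 1 = i := rfl
  have hfj : f 0 = j := rfl
  have hM : Matrix.transvection i j c =
      (Matrix.fromBlocks (Lc c) 0 0 (1 : Matrix R R ℂ)).submatrix e e := by
    ext s t
    obtain ⟨x, rfl⟩ := e.symm.surjective s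
    obtain ⟨y, rfl⟩ := e.symm.surjective t
    rw [Matrix.submatrix_apply, Equiv.apply_symm_apply, Equiv.apply_symm_apply]
    simp only [Matrix.transvection, Matrix.add_apply, Matrix.one_apply, Matrix.single_apply]
    rcases x with x | x <;> rcases y with y | y
    · rw [he1, he1, Matrix.fromBlocks_apply₁₁]
      have hji : j ≠ i := Ne.symm hij
      fin_cases x <;> fin_cases y <;> simp [Lc, f, hij, hji]
    · rw [he1, he2, Matrix.fromBlocks_apply₁₂]
      have h1 : f x ≠ y.1 := fun h => y.2 ⟨x, h⟩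
      have h2 : j ≠ y.1 := fun h => y.2 ⟨0, h⟩
      simp [h1, h2]
    · rw [he1, he2, Matrix.fromBlocks_apply₂₁]
      have h1 : x.1 ≠ f y := fun h => x.2 ⟨y, h.symm⟩
      have h2 : i ≠ x.1 := fun h => x.2 ⟨1, h⟩
      simp [h1, h2]
    · rw [he2, he2, Matrix.fromBlocks_apply₂₂]
      have h2 : i ≠ x.1 := fun h => x.2 ⟨1, h⟩
      simp only [Matrix.one_apply, h2, false_and, if_false, add_zero]
      by_cases h : x = y
      · simp [h]
      · have : x.1 ≠ y.1 := fun h' => h (Subtype.ext h')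
        simp [h, this]
  rw [hM, kpow_submatrix]
  have hinj : Function.Injective (fun (s : Fin k → σ) i => e (s i)) := by
    intro s t h
    funext i
    exact e.injective (congrFun h i)
  refine (cost_submatrix_le _ _ _ hinj).trans ?_
  refine (cost_kpow_ext (Lc c) k).trans ?_
  apply Finset.sum_le_sum
  intro a _
  rw [hR]
  apply Nat.mul_le_mul_left
  exact cost_tens_Lc (fun _ : Fin a => c) (fun _ => hc)

theorem cost_kpow_ShProd {σ : Type} [Fintype σ] [DecidableEq σ] {w : ℕ} {M : Matrix σ σ ℂ}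
    (h : ShProd w M) (k : ℕ) :
    cost (kpow M k) ≤ w * ∑ a ∈ range (k + 1),
        k.choose a * (Fintype.card σ - 2) ^ (k - a) * (cost (kpow Sh a) + 2 * 2 ^ a) := by
  induction h with
  | one => rw [kpow_one, cost_one_eq]; exact Nat.zero_le _
  | @mul w M i j c hij hc _ ih =>
    rw [kpow_mul, Nat.add_mul, Nat.one_mul]
    refine (cost_mul_le _ _).trans ?_
    have h1 := cost_kpow_transvection i j hij c hc k
    omega

end Crest.Agent.FC
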