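import Crest.Agent.FC.FFT

/-! T19 (row 324): a block shear by a Toeplitz matrix of size `H = 2^a` has `O(a)` layers.

* `ush (A + B) = ush A * ush B`; `ush (P⁻¹ * D * P) = dbl P⁻¹ * ush D * dbl P`;
  `ush (diagonal d)` is a layer (`isLayer_fromBlocks_diagonal`). `lsh X` is `ush X` relabelled by
  swapping the two halves.
* circulant: `Cg i j = g ((i - j) mod H)`: with `F = dftMatrix H`, `F * Cg = diagonal ĝ * F`,
  `ĝ u = ∑_v g v w^(u v)`; `F * F' = H • 1` with `F' s t = w^(-(s t))`, i.e. `F'` is `F` with rows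
  permuted by negation mod `H`. So `Cg = F⁻¹ * diagonal ĝ * F`, and `dbl F⁻¹`, `dbl F` have `O(a)` layers.
* Toeplitz `x` (`H = 2^a`): `Toep x H = Cg + Δ⁻¹ * Cg' * Δ` with `Δ = diagonal ζ^i`,
  `ζ = exp(π i/H)`, `g v = (x v + x (v-H))/2`, `g' v = ζ^v (x v - x (v-H))/2` (`0 ≤ v < H`):
  for `i ≥ j`, `v = i - j`: `(x v + x(v-H))/2 + ζ^(j-i) ζ^v (x v - x(v-H))/2 = x v`; for `i < j`,
  `v = H + i - j`: `(x v + x (v-H))/2 + ζ^(j-i) ζ^v (x v - x(v-H))/2`, `ζ^(j-i) ζ^v = ζ^H = -1`, gives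
  `x (v-H) = x (i-j)`. -/

set_option autoImplicit false

namespace Crest.Agent.FC

open Matrix Crest.FourierCircuit

/-- orthogonality -/
theorem ts_orth {H : ℕ} (hH : H ≠ 0) {w : ℂ} (hw : IsPrimitiveRoot w H) (n : ℤ) :
    ∑ s : Fin H, (w ^ n) ^ (s : ℕ) = if (H : ℤ) ∣ n then (H : ℂ) else 0 := by
  rw [Fin.sum_univ_eq_sum_range (fun s => (w ^ n) ^ s)]
  split_ifs with h
  · rw [(hw.zpow_eq_one_iff_dvd n).2 h]
    simp
  · have h1 : w ^ n ≠ 1 := fun h' => h ((hw.zpow_eq_one_iff_dvd n).1 h')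
    have h2 := mul_geom_sum (w ^ n) H
    have h3 : (w ^ n) ^ H = 1 := by
      rw [← zpow_natCast, ← _root_.zpow_mul, mul_comm, _root_.zpow_mul, zpow_natCast, hw.pow_eq_one, _root_.one_zpow]
    rw [h3, sub_self] at h2
    rcases mul_eq_zero.1 h2 with h4 | h4
    · exact absurd (sub_eq_zero.1 h4) h1
    · exact h4

/-- inverse Fourier matrix -/
noncomputable def tsFi (H : ℕ) (w : ℂ) : Matrix (Fin H) (Fin H) ℂ :=
  Matrix.of fun i s => (1 / (H : ℂ)) * w ^ (-((i : ℤ) * (s : ℤ)))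

noncomputable def tsF (H : ℕ) (w : ℂ) : Matrix (Fin H) (Fin H) ℂ :=
  Matrix.of fun i s => w ^ ((i : ℕ) * (s : ℕ))

theorem ts_inv {H : ℕ} (hH : H ≠ 0) {w : ℂ} (hw : IsPrimitiveRoot w H) :
    tsFi H w * tsF H w = 1 := by
  have hw0 : w ≠ 0 := hw.ne_zero hH
  have hH' : (H : ℂ) ≠ 0 := by exact_mod_cast hH
  ext i j
  rw [Matrix.mul_apply]
  have h1 : ∀ s : Fin H, tsFi H w i s * tsF H w s j =
      (1 / (H : ℂ)) * (w ^ ((j : ℤ) - (i : ℤ))) ^ (s : ℕ) := by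
    intro s
    simp only [tsFi, tsF, of_apply]
    rw [mul_assoc]
    congr 1
    rw [← zpow_natCast, ← zpow_natCast, ← _root_.zpow_mul, ← zpow_add₀ hw0]
    congr 1
    push_cast
    ring
  simp_rw [h1]
  rw [← Finset.mul_sum, ts_orth hH hw]
  by_cases hij : i = j
  · subst hij
    simp [hH']
  · rw [if_neg, Matrix.one_apply_ne hij, mul_zero]
    intro hd
    apply hij
    have h2 : |((j : ℤ) - (i : ℤ))| < H := by
      rw [abs_lt]; constructor <;> [have := i.2; have := j.2] <;> omega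
    have h3 := Int.eq_zero_of_abs_lt_dvd hd h2
    ext
    omega

/-- entries of `F⁻¹ diag(ĝ) F` -/
theorem ts_circ {H : ℕ} (hH : H ≠ 0) {w : ℂ} (hw : IsPrimitiveRoot w H) (g : ℕ → ℂ)
    (i j : Fin H) :
    (tsFi H w * diagonal (fun u : Fin H => ∑ v : Fin H, g v * w ^ ((u : ℕ) * (v : ℕ))) * tsF H w) i j
      = g ((((i : ℤ) - (j : ℤ)) % (H : ℤ)).toNat) := by
  have hw0 : w ≠ 0 := hw.ne_zero hH
  have hH' : (H : ℂ) ≠ 0 := by exact_mod_cast hH
  rw [Matrix.mul_apply]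
  have h1 : ∀ s : Fin H,
      (tsFi H w * diagonal (fun u : Fin H => ∑ v : Fin H, g v * w ^ ((u : ℕ) * (v : ℕ)))) i s
        * tsF H w s j =
      ∑ v : Fin H, (1 / (H : ℂ)) * g v * (w ^ ((v : ℤ) + (j : ℤ) - (i : ℤ))) ^ (s : ℕ) := by
    intro s
    rw [Matrix.mul_diagonal]
    simp only [tsFi, tsF, of_apply]
    rw [Finset.mul_sum, Finset.sum_mul]
    refine Finset.sum_congr rfl fun v _ => ?_
    have : (w ^ ((v : ℤ) + (j : ℤ) - (i : ℤ))) ^ (s : ℕ) =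
        w ^ (-((i : ℤ) * (s : ℤ))) * w ^ ((s : ℕ) * (v : ℕ)) * w ^ ((s : ℕ) * (j : ℕ)) := by
      rw [← zpow_natCast, ← zpow_natCast, ← zpow_natCast, ← _root_.zpow_mul, ← zpow_add₀ hw0,
        ← zpow_add₀ hw0]
      congr 1
      push_cast
      ring
    rw [this]
    ring
  simp_rw [h1]
  rw [Finset.sum_comm]
  simp_rw [← Finset.mul_sum, ts_orth hH hw]
  -- the unique v
  have hHpos : (0 : ℤ) < H := by exact_mod_cast Nat.pos_of_ne_zero hH
  have hv0 : (((i : ℤ) - (j : ℤ)) % (H : ℤ)).toNat < H := by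
    have := Int.emod_lt_of_pos ((i : ℤ) - (j : ℤ)) hHpos
    omega
  rw [Finset.sum_eq_single (⟨_, hv0⟩ : Fin H)]
  · rw [if_pos]
    · field_simp
    · have h2 := Int.emod_nonneg ((i : ℤ) - (j : ℤ)) hHpos.ne'
      simp only [Int.toNat_of_nonneg h2]
      have h3 := Int.emod_add_mul_ediv ((i : ℤ) - (j : ℤ)) H
      refine ⟨-(((i : ℤ) - (j : ℤ)) / (H : ℤ)), ?_⟩
      linarith
  · intro v _ hv
    rw [if_neg, mul_zero]
    intro hd
    apply hv
    ext
    simp only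
    have h4 : ((i : ℤ) - (j : ℤ)) % (H : ℤ) = (v : ℤ) := by
      have h5 : ((i : ℤ) - (j : ℤ)) % (H : ℤ) = (v : ℤ) % (H : ℤ) := by
        apply Int.ModEq.symm
        rw [Int.modEq_iff_dvd]
        have : (i : ℤ) - j - v = -((v : ℤ) + j - i) := by ring
        rw [this]
        exact (dvd_neg).2 hd
      rw [h5]
      exact Int.emod_eq_of_lt (by positivity) (by exact_mod_cast v.2)
    rw [h4]
    simp
  · intro h
    exact absurd (Finset.mem_univ _) h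

theorem ush_add {ι : Type} [Fintype ι] [DecidableEq ι] (X Y : Matrix ι ι ℂ) :
    ush (X + Y) = ush X * ush Y := by
  unfold ush
  rw [fromBlocks_multiply]
  simp [add_comm]

theorem ush_conj {ι : Type} [Fintype ι] [DecidableEq ι] (Q D P : Matrix ι ι ℂ) (h : Q * P = 1) :
    ush (Q * D * P) = dbl Q * ush D * dbl P := by
  unfold ush dbl
  rw [fromBlocks_multiply, fromBlocks_multiply]
  simp [h]

theorem lay_dbl_diag {ι : Type} [Fintype ι] [DecidableEq ι] (d : ι → ℂ) :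
    IsLayer (dbl (diagonal d)) := by
  have h := isLayer_fromBlocks_diagonal (ι := ι) d (fun _ => 0) (fun _ => 0) d
  have h0 : (diagonal fun _ : ι => (0 : ℂ)) = 0 := diagonal_zero
  rwa [h0] at h

theorem lay_ush_diag {ι : Type} [Fintype ι] [DecidableEq ι] (d : ι → ℂ) :
    IsLayer (ush (diagonal d)) := by
  have h := isLayer_fromBlocks_diagonal (ι := ι) (fun _ => 1) d (fun _ => 0) (fun _ => 1)
  have h0 : (diagonal fun _ : ι => (0 : ℂ)) = 0 := diagonal_zero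
  have h1 : (diagonal fun _ : ι => (1 : ℂ)) = 1 := diagonal_one
  rwa [h0, h1] at h

/-- row relabelling of the Fourier matrix gives the inverse -/
theorem tsFi_eq {H : ℕ} [NeZero H] {w : ℂ} (hw : IsPrimitiveRoot w H) :
    tsFi H w = diagonal (fun _ : Fin H => 1 / (H : ℂ)) *
      (tsF H w).submatrix (Equiv.neg (Fin H)) (Equiv.refl _) := by
  have hH : H ≠ 0 := NeZero.ne H
  have hw0 : w ≠ 0 := hw.ne_zero hH
  ext i s
  rw [Matrix.diagonal_mul]
  simp only [tsFi, tsF, of_apply, submatrix_apply, Equiv.refl_apply, Equiv.neg_apply]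
  congr 1
  rw [← zpow_natCast]
  have h1 : w ^ (-((i : ℤ) * (s : ℤ)) - (((((-i : Fin H) : ℕ) * (s : ℕ) : ℕ)) : ℤ)) = 1 := by
    rw [hw.zpow_eq_one_iff_dvd]
    have h2 : (((-i : Fin H) : ℕ) : ℤ) = ((H : ℤ) - (i : ℤ)) % (H : ℤ) := by
      rw [Fin.val_neg']
      have := i.2
      push_cast [Nat.cast_sub this.le]
      rfl
    push_cast
    rw [h2]
    have h3 := Int.emod_add_mul_ediv ((H : ℤ) - (i : ℤ)) H
    refine ⟨(-1 + ((H : ℤ) - (i : ℤ)) / (H : ℤ)) * s, ?_⟩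
    have h4 : ((H : ℤ) - (i : ℤ)) % (H : ℤ) = (H : ℤ) - (i : ℤ) - H * (((H : ℤ) - (i : ℤ)) / H) := by
      linarith
    rw [h4]
    ring
  rw [zpow_sub₀ hw0, div_eq_one_iff_eq (zpow_ne_zero _ hw0)] at h1
  exact h1

theorem lay_dbl_Fi {H : ℕ} [NeZero H] {w : ℂ} (hw : IsPrimitiveRoot w H) {c : ℕ}
    (hF : Lay c (dbl (tsF H w))) : Lay (c + 2) (dbl (tsFi H w)) := by
  have h1 : dbl (tsFi H w) = dbl (diagonal (fun _ : Fin H => 1 / (H : ℂ))) *
      (dbl (tsF H w)).submatrix (Equiv.sumCongr (Equiv.neg (Fin H)) (Equiv.neg (Fin H)))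
        (Equiv.refl _) := by
    rw [tsFi_eq hw]
    have h2 : (dbl (tsF H w)).submatrix (Equiv.sumCongr (Equiv.neg (Fin H)) (Equiv.neg (Fin H)))
        (Equiv.refl _) = dbl ((tsF H w).submatrix (Equiv.neg (Fin H)) (Equiv.refl _)) := by
      ext (s | s) (t | t) <;> simp [dbl]
    rw [h2]
    unfold dbl
    rw [fromBlocks_multiply]
    simp
  rw [h1]
  have h3 := Lay.reindex' hF (Equiv.sumCongr (Equiv.neg (Fin H)) (Equiv.neg (Fin H)))
    (Equiv.refl _) isLayer_one_sum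
  have h4 := Lay.mul (lay_dbl_diag (fun _ : Fin H => 1 / (H : ℂ))) h3
  exact h4

/-- a shear by `Q D P` -/
theorem lay_ush_conj {ι : Type} [Fintype ι] [DecidableEq ι] {Q P : Matrix ι ι ℂ} {d : ι → ℂ}
    {b c : ℕ} (hQ : Lay b (dbl Q)) (hP : Lay c (dbl P)) (h : Q * P = 1) :
    Lay (b + 1 + c) (ush (Q * diagonal d * P)) := by
  rw [ush_conj _ _ _ h]
  exact (hQ.comp (Lay.single (lay_ush_diag d))).comp hP

theorem lay_ush_toep {H : ℕ} [NeZero H] (c : ℕ)
    (hF : Lay c (dbl (dftMatrix H))) (x : ℤ → ℂ) :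
    Lay (4 * c + 8) (ush (Toep x H)) := by
  have hH : H ≠ 0 := NeZero.ne H
  have hHc : (H : ℂ) ≠ 0 := by exact_mod_cast hH
  set w : ℂ := Complex.exp (2 * Real.pi * Complex.I / H) with hwdef
  have hw : IsPrimitiveRoot w H := Complex.isPrimitiveRoot_exp H hH
  have hFF : tsF H w = dftMatrix H := by
    ext i j
    simp [tsF, dftMatrix, hwdef]
  rw [← hFF] at hF
  have hFi := lay_dbl_Fi hw hF
  set ζ : ℂ := Complex.exp (Real.pi * Complex.I / H) with hζdef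
  have hζ0 : ζ ≠ 0 := Complex.exp_ne_zero _
  have hζH : ζ ^ H = -1 := by
    rw [hζdef, ← Complex.exp_nat_mul, ← Complex.exp_pi_mul_I]
    congr 1
    field_simp
  set g : ℕ → ℂ := fun v => (x v + x ((v : ℤ) - H)) / 2 with hg
  set g' : ℕ → ℂ := fun v => ζ ^ v * (x v - x ((v : ℤ) - H)) / 2 with hg'
  set D : Matrix (Fin H) (Fin H) ℂ := diagonal fun i => ζ ^ (i : ℕ) with hD
  set Di : Matrix (Fin H) (Fin H) ℂ := diagonal fun i => (ζ ^ (i : ℕ))⁻¹ with hDi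
  have hDD : Di * D = 1 := by
    rw [hD, hDi, diagonal_mul_diagonal]
    rw [← diagonal_one]
    congr 1
    ext i
    exact inv_mul_cancel₀ (pow_ne_zero _ hζ0)
  have hinv := ts_inv hH hw
  set G : Fin H → ℂ := fun u : Fin H => ∑ v : Fin H, g v * w ^ ((u : ℕ) * (v : ℕ)) with hG
  set G' : Fin H → ℂ := fun u : Fin H => ∑ v : Fin H, g' v * w ^ ((u : ℕ) * (v : ℕ)) with hG'
  have key : Toep x H = tsFi H w * diagonal G * tsF H w +
      (Di * tsFi H w) * diagonal G' * (tsF H w * D) := by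
    ext i j
    rw [Matrix.add_apply, hG, ts_circ hH hw g i j]
    have h5 : (Di * tsFi H w) * diagonal G' * (tsF H w * D) =
        Di * (tsFi H w * diagonal G' * tsF H w) * D := by
      simp only [Matrix.mul_assoc]
    rw [h5, hD, hDi, Matrix.mul_diagonal, Matrix.diagonal_mul, hG', ts_circ hH hw g' i j]
    simp only [Toep, of_apply]
    have hi := i.2
    have hj := j.2
    by_cases hij : (j : ℕ) ≤ (i : ℕ)
    · have h6 : ((i : ℤ) - (j : ℤ)) % (H : ℤ) = (i : ℤ) - (j : ℤ) :=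
        Int.emod_eq_of_lt (by omega) (by omega)
      have h7 : (((i : ℤ) - (j : ℤ)) % (H : ℤ)).toNat = (i : ℕ) - (j : ℕ) := by
        rw [h6]; omega
      rw [h7, hg, hg']
      simp only
      have h8 : (((i : ℕ) - (j : ℕ) : ℕ) : ℤ) = (i : ℤ) - (j : ℤ) := by omega
      rw [h8]
      have h9 : (ζ ^ (i : ℕ))⁻¹ * (ζ ^ ((i : ℕ) - (j : ℕ)) *
          (x ((i : ℤ) - j) - x ((i : ℤ) - j - H)) / 2) * ζ ^ (j : ℕ) =
          (x ((i : ℤ) - j) - x ((i : ℤ) - j - H)) / 2 := by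
        have h10 : ζ ^ (i : ℕ) = ζ ^ ((i : ℕ) - (j : ℕ)) * ζ ^ (j : ℕ) := by
          rw [← pow_add]; congr 1; omega
        rw [h10]
        field_simp
      rw [h9]
      ring
    · push Not at hij
      have h6 : ((i : ℤ) - (j : ℤ)) % (H : ℤ) = (i : ℤ) - (j : ℤ) + H := by
        rw [← Int.add_emod_right]
        exact Int.emod_eq_of_lt (by omega) (by omega)
      have h7 : (((i : ℤ) - (j : ℤ)) % (H : ℤ)).toNat = (i : ℕ) + H - (j : ℕ) := by
        rw [h6]; omega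
      rw [h7, hg, hg']
      simp only
      have h8 : (((i : ℕ) + H - (j : ℕ) : ℕ) : ℤ) = (i : ℤ) - (j : ℤ) + H := by omega
      rw [h8]
      have h11 : (i : ℤ) - (j : ℤ) + H - H = (i : ℤ) - (j : ℤ) := by ring
      rw [h11]
      have h9 : (ζ ^ (i : ℕ))⁻¹ * (ζ ^ ((i : ℕ) + H - (j : ℕ)) *
          (x ((i : ℤ) - j + H) - x ((i : ℤ) - j)) / 2) * ζ ^ (j : ℕ) =
          - (x ((i : ℤ) - j + H) - x ((i : ℤ) - j)) / 2 := by
        have h10 : ζ ^ ((i : ℕ) + H - (j : ℕ)) * ζ ^ (j : ℕ) = - ζ ^ (i : ℕ) := by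
          rw [← pow_add]
          have : (i : ℕ) + H - (j : ℕ) + (j : ℕ) = (i : ℕ) + H := by omega
          rw [this, pow_add, hζH]; ring
        have h12 : ζ ^ (i : ℕ) ≠ 0 := pow_ne_zero _ hζ0
        calc (ζ ^ (i : ℕ))⁻¹ * (ζ ^ ((i : ℕ) + H - (j : ℕ)) *
              (x ((i : ℤ) - j + H) - x ((i : ℤ) - j)) / 2) * ζ ^ (j : ℕ)
            = (ζ ^ (i : ℕ))⁻¹ * (ζ ^ ((i : ℕ) + H - (j : ℕ)) * ζ ^ (j : ℕ)) *
              ((x ((i : ℤ) - j + H) - x ((i : ℤ) - j)) / 2) := by ring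
          _ = _ := by
            rw [h10]
            field_simp
      rw [h9]
      ring
  rw [key, ush_add]
  have hA : Lay (c + 2 + 1 + c) (ush (tsFi H w * diagonal G * tsF H w)) :=
    lay_ush_conj hFi hF hinv
  have hQ : Lay (1 + (c + 2)) (dbl (Di * tsFi H w)) := by
    have : dbl (Di * tsFi H w) = dbl Di * dbl (tsFi H w) := by
      unfold dbl; rw [fromBlocks_multiply]; simp
    rw [this]
    exact (Lay.single (lay_dbl_diag _)).comp hFi
  have hP : Lay (c + 1) (dbl (tsF H w * D)) := by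
    have : dbl (tsF H w * D) = dbl (tsF H w) * dbl D := by
      unfold dbl; rw [fromBlocks_multiply]; simp
    rw [this]
    exact hF.comp (Lay.single (lay_dbl_diag _))
  have hQP : (Di * tsFi H w) * (tsF H w * D) = 1 := by
    calc (Di * tsFi H w) * (tsF H w * D) = Di * (tsFi H w * tsF H w) * D := by
          simp only [Matrix.mul_assoc]
      _ = 1 := by rw [hinv, Matrix.mul_one, hDD]
  have hB : Lay (1 + (c + 2) + 1 + (c + 1))
      (ush ((Di * tsFi H w) * diagonal G' * (tsF H w * D))) :=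
    lay_ush_conj hQ hP hQP
  have := hA.comp hB
  have e : c + 2 + 1 + c + (1 + (c + 2) + 1 + (c + 1)) = 4 * c + 8 := by ring
  rw [e] at this
  exact this

theorem lay_toep : ∃ C : ℕ, ∀ (a : ℕ) (x : ℤ → ℂ),
    Lay (C * (a + 1)) (ush (Toep x (2 ^ a))) ∧ Lay (C * (a + 1)) (lsh (Toep x (2 ^ a))) := by
  obtain ⟨C, hC⟩ := lay_fft
  refine ⟨4 * C + 8, fun a x => ?_⟩
  have h1 : Lay ((4 * C + 8) * (a + 1)) (ush (Toep x (2 ^ a))) := by
    refine Lay.pad (lay_ush_toep _ (hC a) x) ?_ isLayer_one_sum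
    nlinarith
  refine ⟨h1, ?_⟩
  have h2 := h1.reindex (Equiv.sumComm (Fin (2 ^ a)) (Fin (2 ^ a)))
  have h3 : (ush (Toep x (2 ^ a))).submatrix (Equiv.sumComm (Fin (2 ^ a)) (Fin (2 ^ a)))
      (Equiv.sumComm (Fin (2 ^ a)) (Fin (2 ^ a))) = lsh (Toep x (2 ^ a)) := by
    ext (s | s) (t | t) <;> simp [ush, lsh]
  rw [h3] at h2
  exact h2

end Crest.Agent.FC
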