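import Crest.Agent.FC.ToepShear
import Crest.Agent.FC.LTAlg

/-! T21 (row 324): lower triangular unit Toeplitz matrices of size `2^b` have `O(b)` layers.

`H = 2^(b-1)`. By `LT_split` it is enough to treat `fromBlocks (LT c H) 0 0 1` (and its mirror image
`fromBlocks 1 0 0 (LT c H)`, the same up to relabelling). With `LT_commutator`,
`fromBlocks (LT c H) 0 0 1 = (D ⊕ 1) * (M ⊕ M') * (D⁻¹ ⊕ 1) * (M' ⊕ M)`, `M = LT d H`, `M' = LT d' H`;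
`whitehead`, `lay_toep` (`LT_eq_Toep`; `-Toep x = Toep (-x)`), and
`isLayer_fromBlocks_diagonal` for `D ⊕ 1` and for `fromBlocks 0 (-1) 1 0`. -/

set_option autoImplicit false

namespace Crest.Agent.FC

open Matrix

theorem tt_neg_Toep (x : ℤ → ℂ) (H : ℕ) : -Toep x H = Toep (fun k => -x k) H := by
  ext i j
  simp [Toep]

theorem tt_isLayer_diag_one {ι : Type} [Fintype ι] [DecidableEq ι] (d : ι → ℂ) :
    IsLayer (Matrix.fromBlocks (Matrix.diagonal d) 0 0 (1 : Matrix ι ι ℂ)) := by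
  have h := isLayer_fromBlocks_diagonal (ι := ι) d 0 0 1
  have h0 : Matrix.diagonal (0 : ι → ℂ) = 0 := Matrix.diagonal_zero
  have h1 : Matrix.diagonal (1 : ι → ℂ) = 1 := Matrix.diagonal_one
  rw [h0, h1] at h
  exact h

theorem tt_isLayer_swap {ι : Type} [Fintype ι] [DecidableEq ι] :
    IsLayer (Matrix.fromBlocks (0 : Matrix ι ι ℂ) (-1 : Matrix ι ι ℂ) (1 : Matrix ι ι ℂ) (0 : Matrix ι ι ℂ)) := by
  have h := isLayer_fromBlocks_diagonal (ι := ι) 0 (-1) 1 0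
  have h0 : Matrix.diagonal (0 : ι → ℂ) = 0 := Matrix.diagonal_zero
  have h1 : Matrix.diagonal (1 : ι → ℂ) = 1 := Matrix.diagonal_one
  have h2 : Matrix.diagonal (-1 : ι → ℂ) = -1 := by
    ext i j
    by_cases hij : i = j
    · subst hij; simp
    · simp [hij]
  rw [h0, h1, h2] at h
  exact h

theorem tt_isLayer_one_sum {ι : Type} [Fintype ι] [DecidableEq ι] :
    IsLayer (1 : Matrix (ι ⊕ ι) (ι ⊕ ι) ℂ) := by
  have h := tt_isLayer_diag_one (ι := ι) 1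
  have h1 : Matrix.diagonal (1 : ι → ℂ) = 1 := Matrix.diagonal_one
  rw [h1, Matrix.fromBlocks_one] at h
  exact h

theorem tt_lay_whitehead {C : ℕ} (hC : ∀ (a : ℕ) (x : ℤ → ℂ),
    Lay (C * (a + 1)) (ush (Toep x (2 ^ a))) ∧ Lay (C * (a + 1)) (lsh (Toep x (2 ^ a))))
    (a : ℕ) (d d' : ℕ → ℂ) (h : LT d (2 ^ a) * LT d' (2 ^ a) = 1)
    (h' : LT d' (2 ^ a) * LT d (2 ^ a) = 1) :
    Lay (3 * (C * (a + 1)) + 1) (Matrix.fromBlocks (LT d (2 ^ a)) 0 0 (LT d' (2 ^ a))) := by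
  rw [whitehead _ _ h h']
  have h1 : Lay (C * (a + 1)) (ush (LT d (2 ^ a))) := by
    rw [LT_eq_Toep]; exact (hC a _).1
  have h2 : Lay (C * (a + 1)) (lsh (-LT d' (2 ^ a))) := by
    rw [LT_eq_Toep, tt_neg_Toep]; exact (hC a _).2
  have h3 := ((h1.comp h2).comp h1).comp (Lay.single (tt_isLayer_swap (ι := Fin (2 ^ a))))
  have e : C * (a + 1) + C * (a + 1) + C * (a + 1) + 1 = 3 * (C * (a + 1)) + 1 := by ring
  rw [e] at h3
  exact h3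

theorem lay_LT_one {C : ℕ} (hC : ∀ (a : ℕ) (x : ℤ → ℂ),
    Lay (C * (a + 1)) (ush (Toep x (2 ^ a))) ∧ Lay (C * (a + 1)) (lsh (Toep x (2 ^ a))))
    (a : ℕ) (c : ℕ → ℂ) (hc : c 0 = 1) :
    Lay (6 * (C * (a + 1)) + 4)
      (Matrix.fromBlocks (LT c (2 ^ a)) 0 0 (1 : Matrix (Fin (2 ^ a)) (Fin (2 ^ a)) ℂ)) := by
  obtain ⟨d, d', h, h', heq⟩ := LT_commutator c hc (2 ^ a)
  have key : Matrix.fromBlocks (LT c (2 ^ a)) 0 0 (1 : Matrix (Fin (2 ^ a)) (Fin (2 ^ a)) ℂ) =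
      Matrix.fromBlocks (Matrix.diagonal (fun i : Fin (2 ^ a) => (2 : ℂ) ^ (i : ℕ))) 0 0 1 *
      Matrix.fromBlocks (LT d (2 ^ a)) 0 0 (LT d' (2 ^ a)) *
      Matrix.fromBlocks (Matrix.diagonal (fun i : Fin (2 ^ a) => ((2 : ℂ) ^ (i : ℕ))⁻¹)) 0 0 1 *
      Matrix.fromBlocks (LT d' (2 ^ a)) 0 0 (LT d (2 ^ a)) := by
    rw [Matrix.fromBlocks_multiply, Matrix.fromBlocks_multiply, Matrix.fromBlocks_multiply]
    simp only [Matrix.mul_zero, Matrix.zero_mul, add_zero, zero_add, Matrix.one_mul,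
      Matrix.mul_one]
    rw [h', ← heq]
  rw [key]
  have h3 := (((Lay.single (tt_isLayer_diag_one (ι := Fin (2 ^ a))
    (fun i : Fin (2 ^ a) => (2 : ℂ) ^ (i : ℕ)))).comp (tt_lay_whitehead hC a d d' h h')).comp
    (Lay.single (tt_isLayer_diag_one (ι := Fin (2 ^ a))
    (fun i : Fin (2 ^ a) => ((2 : ℂ) ^ (i : ℕ))⁻¹)))).comp (tt_lay_whitehead hC a d' d h' h)
  have e : 1 + (3 * (C * (a + 1)) + 1) + 1 + (3 * (C * (a + 1)) + 1) =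
      6 * (C * (a + 1)) + 4 := by ring
  rw [e] at h3
  exact h3

theorem lay_one_LT {C : ℕ} (hC : ∀ (a : ℕ) (x : ℤ → ℂ),
    Lay (C * (a + 1)) (ush (Toep x (2 ^ a))) ∧ Lay (C * (a + 1)) (lsh (Toep x (2 ^ a))))
    (a : ℕ) (c : ℕ → ℂ) (hc : c 0 = 1) :
    Lay (6 * (C * (a + 1)) + 4)
      (Matrix.fromBlocks (1 : Matrix (Fin (2 ^ a)) (Fin (2 ^ a)) ℂ) 0 0 (LT c (2 ^ a))) := by
  have h := (lay_LT_one hC a c hc).reindex (Equiv.sumComm (Fin (2 ^ a)) (Fin (2 ^ a)))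
  have e : (Matrix.fromBlocks (LT c (2 ^ a)) 0 0 (1 : Matrix (Fin (2 ^ a)) (Fin (2 ^ a)) ℂ)).submatrix
      (Equiv.sumComm (Fin (2 ^ a)) (Fin (2 ^ a))) (Equiv.sumComm (Fin (2 ^ a)) (Fin (2 ^ a))) =
      Matrix.fromBlocks (1 : Matrix (Fin (2 ^ a)) (Fin (2 ^ a)) ℂ) 0 0 (LT c (2 ^ a)) := by
    ext i j
    rcases i with i | i <;> rcases j with j | j <;> simp
  rw [e] at h
  exact h

theorem lay_LT : ∃ C : ℕ, ∀ (b : ℕ) (c : ℕ → ℂ), 1 ≤ b → c 0 = 1 → Lay (C * b) (LT c (2 ^ b)) := by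
  obtain ⟨C, hC⟩ := lay_toep
  refine ⟨13 * C + 8, ?_⟩
  intro b c hb hc
  obtain ⟨a, rfl⟩ : ∃ a, b = a + 1 := ⟨b - 1, by omega⟩
  have hpow : 2 ^ (a + 1) = 2 * 2 ^ a := by ring
  rw [hpow]
  obtain ⟨e, x, hx⟩ := LT_split c (2 ^ a)
  rw [hx]
  apply Lay.reindex
  have h := ((lay_LT_one hC a c hc).comp (hC a x).2).comp (lay_one_LT hC a c hc)
  refine h.pad ?_ tt_isLayer_one_sum
  nlinarith [Nat.zero_le a]

end Crest.Agent.FC
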