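import Crest.Agent.FC.Recursion
import Crest.Agent.FC.AnalyticCore

/-! T14 (row 324): tensor products of arbitrary `2 × 2` matrices.

* `two_by_two`: if `M = 0` take `x = y = 0`; otherwise permute rows and columns so that the `(0,0)`
  entry `x` is `≠ 0`; then `M' = Lc (M'10/x) * diagonal ![x, M'11 - M'10 M'01/x] * (Lc (M'01/x))ᵀ`.
* every `c : ℂ` is `p + q` with `p, q ≠ 0`, `Lc (p+q) = Lc p * Lc q`; so
  `cost (tens (Lc (c i))) ≤ 2 * (cost (kpow Sh k) + 2*2^k)` for arbitrary `c` (`cost_tens_Lc`).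
* `(Lc d)ᵀ = (Lc d).submatrix swap swap`; `tens_submatrix`, `cost_submatrix_equiv`/`_le`.
* total: `4 cost (kpow Sh k) + 8*2^k + 2^k`.
* `tens_two_bound`: with `analytic_core uu kk ...` and `k^th ≤ (k+1)^th`, `1 ≤ (k+1)^th`. -/

set_option autoImplicit false

namespace Crest.Agent.FC

open Matrix Finset

private theorem Lc_diag_Lc (c d x y : ℂ) :
    Lc c * Matrix.diagonal ![x, y] * (Lc d)ᵀ = !![x, x * d; c * x, c * x * d + y] := by
  have hd : Matrix.diagonal ![x, y] = !![x, 0; 0, y] := by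
    ext i j
    fin_cases i <;> fin_cases j <;> rfl
  have hT : (Lc d)ᵀ = !![1, d; 0, 1] := by
    ext i j
    fin_cases i <;> fin_cases j <;> rfl
  rw [hd, hT]
  unfold Lc
  rw [Matrix.mul_fin_two, Matrix.mul_fin_two]
  ext i j
  fin_cases i <;> fin_cases j <;> simp

theorem two_by_two (M : Matrix (Fin 2) (Fin 2) ℂ) :
    ∃ (e e' : Fin 2 ≃ Fin 2) (c d x y : ℂ),
      M = (Lc c * Matrix.diagonal ![x, y] * (Lc d)ᵀ).submatrix e e' := by
  classical
  by_cases hM : ∃ i j, M i j ≠ 0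
  · obtain ⟨i, j, hij⟩ := hM
    obtain ⟨e, he⟩ : ∃ e : Fin 2 ≃ Fin 2, e = Equiv.swap i 0 := ⟨_, rfl⟩
    obtain ⟨e', he'⟩ : ∃ e' : Fin 2 ≃ Fin 2, e' = Equiv.swap j 0 := ⟨_, rfl⟩
    have he0 : e.symm 0 = i := by rw [he]; simp
    have he0' : e'.symm 0 = j := by rw [he']; simp
    obtain ⟨N, hN⟩ : ∃ N : Matrix (Fin 2) (Fin 2) ℂ, N = M.submatrix e.symm e'.symm := ⟨_, rfl⟩
    have h00 : N 0 0 ≠ 0 := by
      rw [hN, Matrix.submatrix_apply, he0, he0']
      exact hij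
    refine ⟨e, e', N 1 0 / N 0 0, N 0 1 / N 0 0, N 0 0, N 1 1 - N 1 0 * N 0 1 / N 0 0, ?_⟩
    have hNN : (Lc (N 1 0 / N 0 0) * Matrix.diagonal ![N 0 0, N 1 1 - N 1 0 * N 0 1 / N 0 0] *
        (Lc (N 0 1 / N 0 0))ᵀ) = N := by
      rw [Lc_diag_Lc]
      ext a b
      fin_cases a <;> fin_cases b
      · rfl
      · change N 0 0 * (N 0 1 / N 0 0) = N 0 1
        field_simp
      · change N 1 0 / N 0 0 * N 0 0 = N 1 0
        field_simp
      · change N 1 0 / N 0 0 * N 0 0 * (N 0 1 / N 0 0) + (N 1 1 - N 1 0 * N 0 1 / N 0 0) = N 1 1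
        field_simp
        ring
    rw [hNN, hN]
    ext a b
    simp
  · push Not at hM
    refine ⟨Equiv.refl _, Equiv.refl _, 0, 0, 0, 0, ?_⟩
    rw [Lc_diag_Lc]
    ext a b
    rw [hM a b]
    fin_cases a <;> fin_cases b <;> simp

private theorem Lc_add (p q : ℂ) : Lc (p + q) = Lc p * Lc q := by
  ext i j
  fin_cases i <;> fin_cases j <;> simp [Lc, Matrix.mul_apply, Fin.sum_univ_two]

private theorem Lc_transpose (d : ℂ) :
    (Lc d)ᵀ = (Lc d).submatrix (Equiv.swap (0 : Fin 2) 1) (Equiv.swap (0 : Fin 2) 1) := by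
  ext i j
  fin_cases i <;> fin_cases j <;> simp [Lc, Matrix.transpose_apply]

private theorem exists_split (c : ℂ) : ∃ p q : ℂ, p ≠ 0 ∧ q ≠ 0 ∧ c = p + q := by
  by_cases hc : c = 0
  · exact ⟨1, -1, one_ne_zero, by norm_num, by rw [hc]; norm_num⟩
  · exact ⟨c / 2, c / 2, by simpa using hc, by simpa using hc, by ring⟩

private theorem cost_tens_Lc' {k : ℕ} (c : Fin k → ℂ) :
    cost (tens (σ := fun _ : Fin k => Fin 2) (fun i => Lc (c i))) ≤
      2 * (cost (kpow Sh k) + 2 * 2 ^ k) := by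
  choose p q hp hq hpq using fun i => exists_split (c i)
  have h1 : (tens (σ := fun _ : Fin k => Fin 2) (fun i => Lc (c i))) =
      tens (σ := fun _ : Fin k => Fin 2) (fun i => Lc (p i)) *
      tens (σ := fun _ : Fin k => Fin 2) (fun i => Lc (q i)) := by
    rw [← tens_mul]
    congr 1
    funext i
    rw [hpq i, Lc_add]
  rw [h1]
  refine (cost_mul_le _ _).trans ?_
  have h2 := cost_tens_Lc p hp
  have h3 := cost_tens_Lc q hq
  omega

private theorem cost_tens_LcT {k : ℕ} (d : Fin k → ℂ) :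
    cost (tens (σ := fun _ : Fin k => Fin 2) (fun i => (Lc (d i))ᵀ)) ≤
      2 * (cost (kpow Sh k) + 2 * 2 ^ k) := by
  have h1 : (tens (σ := fun _ : Fin k => Fin 2) (fun i => (Lc (d i))ᵀ)) =
      tens (σ := fun _ : Fin k => Fin 2) (fun i => (Lc (d i)).submatrix
        (Equiv.swap (0 : Fin 2) 1) (Equiv.swap (0 : Fin 2) 1)) := by
    congr 1
    funext i
    rw [Lc_transpose]
  rw [h1]
  have h2 := tens_submatrix (σ := fun _ : Fin k => Fin 2) (τ := fun _ : Fin k => Fin 2)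
    (fun i => Lc (d i)) (fun _ => Equiv.swap (0 : Fin 2) 1) (fun _ => Equiv.swap (0 : Fin 2) 1)
  rw [h2]
  refine (cost_submatrix_le _ _ _ ?_).trans (cost_tens_Lc' d)
  intro s t hst
  funext i
  exact (Equiv.swap (0 : Fin 2) 1).injective (congrFun hst i)

theorem cost_tens_two {k : ℕ} (m : Fin k → Matrix (Fin 2) (Fin 2) ℂ) :
    cost (tens (σ := fun _ : Fin k => Fin 2) m) ≤ 4 * cost (kpow Sh k) + 9 * 2 ^ k := by
  choose e e' c d x y hm using fun i => two_by_two (m i)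
  have h1 : tens (σ := fun _ : Fin k => Fin 2) m =
      tens (σ := fun _ : Fin k => Fin 2) (fun i =>
        (Lc (c i) * Matrix.diagonal ![x i, y i] * (Lc (d i))ᵀ).submatrix (e i) (e' i)) := by
    congr 1
    funext i
    exact hm i
  have h2 := tens_submatrix (σ := fun _ : Fin k => Fin 2) (τ := fun _ : Fin k => Fin 2)
    (fun i => Lc (c i) * Matrix.diagonal ![x i, y i] * (Lc (d i))ᵀ) (fun i => e i) (fun i => e' i)
  rw [h1, h2]
  refine (cost_submatrix_le _ _ _ ?_).trans ?_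
  · intro s t hst
    funext i
    exact (e' i).injective (congrFun hst i)
  · rw [tens_mul (σ := fun _ : Fin k => Fin 2) (fun i => Lc (c i) * Matrix.diagonal ![x i, y i])
      (fun i => (Lc (d i))ᵀ), tens_mul (σ := fun _ : Fin k => Fin 2) (fun i => Lc (c i))
      (fun i => Matrix.diagonal ![x i, y i]),
      tens_diagonal (σ := fun _ : Fin k => Fin 2) (fun i => ![x i, y i])]
    refine (cost_mul_le _ _).trans ?_
    have h3 := cost_mul_le (tens (σ := fun _ : Fin k => Fin 2) (fun i => Lc (c i)))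
      (Matrix.diagonal (fun s : Fin k → Fin 2 => ∏ i, ![x i, y i] (s i)))
    have h4 := cost_diagonal_le (fun s : Fin k → Fin 2 => ∏ i, ![x i, y i] (s i))
    have h5 : Fintype.card (Fin k → Fin 2) = 2 ^ k := by simp
    have h6 := cost_tens_Lc' c
    have h7 := cost_tens_LcT d
    rw [h5] at h4
    omega

theorem tens_two_bound : ∃ C : ℝ, 0 ≤ C ∧ ∀ (k : ℕ) (m : Fin k → Matrix (Fin 2) (Fin 2) ℂ),
    (cost (tens (σ := fun _ : Fin k => Fin 2) m) : ℝ) ≤ C * 2 ^ k * ((k : ℝ) + 1) ^ th := by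
  obtain ⟨C, hC, h⟩ := analytic_core uu kk (fun a => Nat.cast_nonneg _) (fun a => Nat.cast_nonneg _)
    uu_zero rec_uu rec_kk rec_kk_add rec_uu_add
  refine ⟨4 * C + 9, by positivity, fun k m => ?_⟩
  have h1 : (cost (tens (σ := fun _ : Fin k => Fin 2) m) : ℝ) ≤ 4 * uu k + 9 * 2 ^ k := by
    have := cost_tens_two m
    have h2 : ((cost (tens (σ := fun _ : Fin k => Fin 2) m) : ℕ) : ℝ) ≤
        ((4 * cost (kpow Sh k) + 9 * 2 ^ k : ℕ) : ℝ) := Nat.cast_le.2 this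
    unfold uu
    refine h2.trans (le_of_eq ?_)
    push_cast
    ring
  have h2 := h k
  have h3 : (k : ℝ) ^ th ≤ ((k : ℝ) + 1) ^ th :=
    Real.rpow_le_rpow (Nat.cast_nonneg _) (by linarith) th_pos.le
  have h4 : (1 : ℝ) ≤ ((k : ℝ) + 1) ^ th :=
    Real.one_le_rpow (by have := Nat.cast_nonneg (α := ℝ) k; linarith) th_pos.le
  have h5 : (0 : ℝ) < 2 ^ k := by positivity
  have h6 : C * 2 ^ k * (k : ℝ) ^ th ≤ C * 2 ^ k * ((k : ℝ) + 1) ^ th :=
    mul_le_mul_of_nonneg_left h3 (by positivity)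
  have h7 : (9 : ℝ) * 2 ^ k * 1 ≤ 9 * 2 ^ k * ((k : ℝ) + 1) ^ th :=
    mul_le_mul_of_nonneg_left h4 (by positivity)
  have h8 : (4 * C + 9) * 2 ^ k * ((k : ℝ) + 1) ^ th =
      4 * (C * 2 ^ k * ((k : ℝ) + 1) ^ th) + 9 * 2 ^ k * ((k : ℝ) + 1) ^ th := by ring
  rw [h8]
  linarith

end Crest.Agent.FC
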